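import Crest.Agent.R026.Sieve

/-! Auxiliary results for `R020/Sv`: the weights in dimension three and the upper bound sieve. -/

set_option autoImplicit false

namespace Crest.Agent.R020

open Finset Filter Topology Crest.Agent.R008 Crest.Agent.R026

theorem svAuxA_exists : ∃ K : ℝ, 0 < K ∧ ∀ (g : ℕ → ℝ) (J : ℕ) (z : ℝ) (P : Finset ℕ), 1 ≤ z →
    z < 2 ^ (2 ^ J) →
    (∀ p ∈ P, p.Prime ∧ (p : ℝ) ≤ z ∧ 0 ≤ g p ∧ g p ≤ 1 / 2 ∧ g p ≤ 3 / (p : ℝ)) → ∀ b : ℕ,
    ∃ l e : Finset ℕ → ℝ, SvW P g (z ^ (4 * b + 6)) (Real.exp (4 * (K / 2 ^ b))) l e := by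
  classical
  obtain ⟨c, hc⟩ := sv_mass
  refine ⟨Real.exp (4 * (3 * c)), Real.exp_pos _, fun g J => ?_⟩
  induction J with
  | zero =>
    intro z P hz hz2 hP b
    have he : P = ∅ := by
      refine eq_empty_of_forall_notMem fun p hp => ?_
      obtain ⟨h1, h3, -⟩ := hP p hp
      have : (2 : ℝ) ≤ p := by exact_mod_cast h1.two_le
      norm_num at hz2
      linarith
    rw [he]
    refine ⟨fun _ => 1, fun _ => 0, fun S => by simp, fun S hS _ => ?_, fun w _ => ?_,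
      fun w _ => ?_, ?_⟩
    · rw [subset_empty.1 hS]
      simpa [pr] using one_le_pow₀ hz
    · simp [svV, svEv]
    · simp [svV, svEv]
    · simp only [svV, svEv, prod_empty, zero_mul, sum_const_zero, mul_zero, zero_add, mul_one]
      exact Real.one_le_exp (by positivity)
  | succ J ih =>
    intro z P hz hz2 hP b
    have hs : 1 ≤ √z := Real.one_le_sqrt.2 hz
    have hsz : √z * √z = z := Real.mul_self_sqrt (by linarith)
    have hs2 : √z < 2 ^ (2 ^ J) := by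
      rw [Real.sqrt_lt' (by positivity), ← pow_mul, ← pow_succ]
      exact hz2
    obtain ⟨l, e, h⟩ := ih (√z) (P.filter (fun p : ℕ => (p : ℝ) ≤ √z)) hs hs2 (fun p hp => by
      obtain ⟨h1, h2⟩ := mem_filter.1 hp
      exact ⟨(hP p h1).1, h2, (hP p h1).2.2⟩) (b + 1)
    have hB := sv_block (P.filter (fun p : ℕ => ¬ (p : ℝ) ≤ √z)) g
      (fun p hp => ⟨(hP p (mem_filter.1 hp).1).2.2.1, (hP p (mem_filter.1 hp).1).2.2.2.1⟩)
      z (3 * c) hz (fun p hp => (hP p (mem_filter.1 hp).1).2.1) (by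
        refine le_trans (sum_le_sum fun p hp => (hP p (mem_filter.1 hp).1).2.2.2.2) ?_
        have h1 := hc z hz
        have h2 : ∑ p ∈ P.filter (fun p : ℕ => ¬ (p : ℝ) ≤ √z), (3 : ℝ) / p ≤
            ∑ p ∈ primesIoc (√z) z, (3 : ℝ) / p := by
          refine sum_le_sum_of_subset_of_nonneg (fun p hp => ?_) (fun p _ _ => by positivity)
          obtain ⟨h1, h2⟩ := mem_filter.1 hp
          exact (mem_primesIoc (by linarith) (by linarith)).2
            ⟨(hP p h1).1, not_le.1 h2, (hP p h1).2.1⟩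
        rw [show ∑ p ∈ primesIoc (√z) z, (3 : ℝ) / p = 3 * ∑ p ∈ primesIoc (√z) z, (1 : ℝ) / p by
          rw [mul_sum]; exact sum_congr rfl fun p _ => by ring] at h2
        linarith) b
    have hun := filter_union_filter_not_eq (fun p : ℕ => (p : ℝ) ≤ √z) P
    have hg1 : ∀ p ∈ P, 0 ≤ g p ∧ g p ≤ 1 := fun p hp =>
      ⟨(hP p hp).2.2.1, by linarith [(hP p hp).2.2.2.1]⟩
    have hcomp := h.comp (disjoint_filter_filter_not P P _) hB (by rw [hun]; exact hg1)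
    rw [hun] at hcomp
    refine ⟨_, _, hcomp.mono hg1 (le_of_eq ?_) (le_of_eq ?_)⟩
    · have : √z ^ (4 * (b + 1) + 6) = z ^ (2 * b + 5) := by
        rw [show 4 * (b + 1) + 6 = 2 * (2 * b + 5) by ring, pow_mul, sq, hsz]
      rw [this, ← pow_add]
      congr 1; ring
    · rw [← Real.exp_add]
      congr 1
      rw [pow_succ]
      field_simp
      ring

theorem svAuxA_crt {q p : ℕ} (hq : q ≠ 0) (hp : p ≠ 0) (hc : Nat.Coprime q p) (f h : ℕ → ℝ) :
    ∑ n ∈ range (q * p), f (n % q) * h (n % p) = (∑ a ∈ range q, f a) * ∑ b ∈ range p, h b := by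
  rw [sum_mul_sum, ← sum_product']
  refine sum_nbij' (fun n => (n % q, n % p)) (fun x => (Nat.chineseRemainder hc x.1 x.2 : ℕ))
    ?_ ?_ ?_ ?_ ?_
  · intro n _
    simp only [mem_product, mem_range]
    exact ⟨Nat.mod_lt _ (Nat.pos_of_ne_zero hq), Nat.mod_lt _ (Nat.pos_of_ne_zero hp)⟩
  · intro x _
    exact mem_range.2 (Nat.chineseRemainder_lt_mul hc _ _ hq hp)
  · intro n hn
    have h1 := (Nat.chineseRemainder hc (n % q) (n % p)).2
    have h2 : (Nat.chineseRemainder hc (n % q) (n % p) : ℕ) ≡ n [MOD q * p] :=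
      (Nat.modEq_and_modEq_iff_modEq_mul hc).1
        ⟨h1.1.trans (Nat.mod_modEq _ _), h1.2.trans (Nat.mod_modEq _ _)⟩
    exact Nat.ModEq.eq_of_lt_of_lt h2 (Nat.chineseRemainder_lt_mul hc _ _ hq hp) (mem_range.1 hn)
  · intro x hx
    simp only [mem_product, mem_range] at hx
    have h1 := (Nat.chineseRemainder hc x.1 x.2).2
    ext
    · exact Eq.trans h1.1 (Nat.mod_eq_of_lt hx.1)
    · exact Eq.trans h1.2 (Nat.mod_eq_of_lt hx.2)
  · intro n _
    rfl

theorem svAuxA_period (u : ℕ → ℕ → ℝ) (S : Finset ℕ) (hS : ∀ p ∈ S, p.Prime) :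
    ∑ n ∈ range (pr S), ∏ p ∈ S, u p (n % p) = ∏ p ∈ S, ∑ a ∈ range p, u p a := by
  induction S using Finset.induction_on with
  | empty => simp [pr]
  | insert q S hq ih =>
    have h1 : ∀ p ∈ S, p.Prime := fun p hp => hS p (mem_insert_of_mem hp)
    have hqp := hS q (mem_insert_self _ _)
    have h2 : pr (insert q S) = q * pr S := prod_insert hq
    have hc : Nat.Coprime q (pr S) := by
      refine Nat.Coprime.prod_right fun p hp => ?_
      exact (Nat.coprime_primes hqp (h1 p hp)).2 fun h => hq (h ▸ hp)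
    rw [h2, prod_insert hq, ← ih h1,
      ← svAuxA_crt hqp.ne_zero (pr_pos h1).ne' hc (u q) (fun n => ∏ p ∈ S, u p (n % p))]
    refine sum_congr rfl fun n _ => ?_
    rw [prod_insert hq]
    congr 1
    refine prod_congr rfl fun p hp => ?_
    rw [Nat.mod_mod_of_dvd _ (show p ∣ pr S from dvd_prod_of_mem (fun p => p) hp)]

theorem svAuxA_per {q : ℕ} (hq : 0 < q) (f : ℕ → ℝ) (h0 : ∀ n, 0 ≤ f n)
    (hper : ∀ n, f (q + n) = f n) (N : ℕ) :
    |∑ n ∈ range N, f n - N * ((∑ n ∈ range q, f n) / q)| ≤ ∑ n ∈ range q, f n := by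
  have hq' : (0 : ℝ) < q := by exact_mod_cast hq
  have hT : 0 ≤ ∑ n ∈ range q, f n := sum_nonneg fun n _ => h0 n
  induction N using Nat.strong_induction_on with
  | _ N ih =>
    rcases lt_or_ge N q with h | h
    · have h1 : ∑ n ∈ range N, f n ≤ ∑ n ∈ range q, f n :=
        sum_le_sum_of_subset_of_nonneg (range_mono h.le) fun n _ _ => h0 n
      have h2 : 0 ≤ ∑ n ∈ range N, f n := sum_nonneg fun n _ => h0 n
      have h3 : (N : ℝ) * ((∑ n ∈ range q, f n) / q) ≤ ∑ n ∈ range q, f n := by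
        rw [← mul_div_assoc, div_le_iff₀ hq', mul_comm]
        exact mul_le_mul_of_nonneg_left (by exact_mod_cast h.le) hT
      have h4 : 0 ≤ (N : ℝ) * ((∑ n ∈ range q, f n) / q) := by positivity
      rw [abs_le]
      constructor <;> linarith
    · obtain ⟨M, rfl⟩ := Nat.exists_eq_add_of_le h
      have := ih M (by omega)
      rw [sum_range_add]
      simp only [hper]
      convert this using 2
      push_cast
      field_simp
      ring

theorem svAuxA_upper : ∃ C : ℝ, 1 ≤ C ∧ ∀ (bad : ℕ → ℕ → Prop) (ω : ℕ → ℕ) (z : ℝ) (P A : Finset ℕ)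
    (N : ℕ), 1 ≤ z → (∀ p ∈ P, p.Prime ∧ 7 ≤ p ∧ (p : ℝ) ≤ z ∧ ω p ≤ 3 ∧
      ∃ Ω : Finset ℕ, Ω.card = ω p ∧ (∀ a ∈ Ω, a < p) ∧ ∀ n, bad p n ↔ n % p ∈ Ω) →
    (∀ n ∈ A, n < N ∧ ∀ p ∈ P, ¬ bad p n) →
    (A.card : ℝ) ≤ C * N * Real.exp (-∑ p ∈ P, (ω p : ℝ) / p) + z ^ 12 := by
  classical
  obtain ⟨K, hK, hex⟩ := svAuxA_exists
  refine ⟨Real.exp (4 * K), Real.one_le_exp (by positivity), ?_⟩
  intro bad ω z P A N hz hP hA
  obtain ⟨J, hJ⟩ : ∃ J : ℕ, z < 2 ^ (2 ^ J) := by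
    obtain ⟨J, hJ⟩ := pow_unbounded_of_one_lt z (show (1 : ℝ) < 2 by norm_num)
    exact ⟨J, hJ.trans_le (pow_le_pow_right₀ (by norm_num) Nat.lt_two_pow_self.le)⟩
  have hg : ∀ p ∈ P, p.Prime ∧ (p : ℝ) ≤ z ∧ 0 ≤ (ω p : ℝ) / p ∧ (ω p : ℝ) / p ≤ 1 / 2 ∧
      (ω p : ℝ) / p ≤ 3 / (p : ℝ) := by
    intro p hp
    obtain ⟨h1, h2, h3, h4, -⟩ := hP p hp
    have h2' : (7 : ℝ) ≤ p := by exact_mod_cast h2
    have h4' : (ω p : ℝ) ≤ 3 := by exact_mod_cast h4
    refine ⟨h1, h3, by positivity, ?_, by gcongr⟩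
    rw [div_le_div_iff₀ (by linarith) (by norm_num)]
    linarith
  obtain ⟨l, e, h⟩ := hex (fun p => (ω p : ℝ) / p) J z P hz hJ hg 0
  simp only [mul_zero, zero_add, pow_zero, div_one] at h
  have hΩ : ∀ p, ∃ Ω : Finset ℕ, p ∈ P →
      Ω.card = ω p ∧ (∀ a ∈ Ω, a < p) ∧ ∀ n, bad p n ↔ n % p ∈ Ω := by
    intro p
    by_cases hp : p ∈ P
    · obtain ⟨Ω, h⟩ := (hP p hp).2.2.2.2
      exact ⟨Ω, fun _ => h⟩
    · exact ⟨∅, fun h => absurd h hp⟩
  choose Ω hΩ using hΩ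
  have hw : ∀ n : ℕ, ∀ p ∈ P, 0 ≤ ind (n % p ∈ Ω p) ∧ ind (n % p ∈ Ω p) ≤ 1 := fun n p _ =>
    ⟨ind_nonneg _, ind_le_one _⟩
  have hg1 : ∀ p ∈ P, 0 ≤ (ω p : ℝ) / p ∧ (ω p : ℝ) / p ≤ 1 := fun p hp =>
    ⟨(hg p hp).2.2.1, by linarith [(hg p hp).2.2.2.1]⟩
  have h1 : (A.card : ℝ) ≤ ∑ n ∈ range N, svEv P l (fun p => ind (n % p ∈ Ω p)) := by
    calc (A.card : ℝ) = ∑ n ∈ A, svV P (fun p => ind (n % p ∈ Ω p)) := by
          rw [card_eq_sum_ones]
          push_cast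
          refine sum_congr rfl fun n hn => (prod_eq_one fun p hp => ?_).symm
          beta_reduce
          rw [ind_neg fun hc => (hA n hn).2 p hp (((hΩ p hp).2.2 n).2 hc), sub_zero]
      _ ≤ ∑ n ∈ range N, svV P (fun p => ind (n % p ∈ Ω p)) :=
          sum_le_sum_of_subset_of_nonneg (fun n hn => mem_range.2 (hA n hn).1)
            fun n _ _ => sv_V_nonneg P (hw n)
      _ ≤ _ := sum_le_sum fun n _ => h.low _ (hw n)
  have hcount : ∀ S ⊆ P, |∑ n ∈ range N, ∏ p ∈ S, ind (n % p ∈ Ω p) -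
      N * ∏ p ∈ S, ((ω p : ℝ) / p)| ≤ (pr S : ℕ) := by
    intro S hS
    have hSp : ∀ p ∈ S, p.Prime := fun p hp => (hP p (hS hp)).1
    have h2 := svAuxA_per (pr_pos hSp) (fun n => ∏ p ∈ S, ind (n % p ∈ Ω p))
      (fun n => prod_nonneg fun p _ => ind_nonneg _) (fun n => prod_congr rfl fun p hp => by
        obtain ⟨k, hk⟩ : p ∣ pr S := dvd_prod_of_mem (fun p => p) hp
        rw [hk, Nat.mul_add_mod]) N
    have h3 := svAuxA_period (fun p a => ind (a ∈ Ω p)) S hSp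
    have h4 : ∏ p ∈ S, ∑ a ∈ range p, ind (a ∈ Ω p) = ∏ p ∈ S, (ω p : ℝ) := by
      refine prod_congr rfl fun p hp => ?_
      rw [sum_ind, ← (hΩ p (hS hp)).1]
      congr 2
      ext a
      simp only [mem_filter, mem_range]
      exact ⟨fun h => h.2, fun h => ⟨(hΩ p (hS hp)).2.1 a h, h⟩⟩
    rw [h3, h4] at h2
    have h5 : ((pr S : ℕ) : ℝ) = ∏ p ∈ S, (p : ℝ) := by unfold pr; push_cast; rfl
    rw [prod_div_distrib, ← h5]
    refine h2.trans ?_
    rw [h5]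
    refine prod_le_prod (fun p _ => Nat.cast_nonneg _) fun p hp => ?_
    have := hP p (hS hp)
    exact_mod_cast (show ω p ≤ p by omega)
  have h2 : ∑ n ∈ range N, svEv P l (fun p => ind (n % p ∈ Ω p)) -
      N * svEv P l (fun p => (ω p : ℝ) / p) =
      ∑ S ∈ P.powerset, l S * (∑ n ∈ range N, ∏ p ∈ S, ind (n % p ∈ Ω p) -
        N * ∏ p ∈ S, ((ω p : ℝ) / p)) := by
    unfold svEv
    rw [sum_comm, mul_sum, ← sum_sub_distrib]
    refine sum_congr rfl fun S _ => ?_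
    rw [mul_sub, mul_sum]
    ring
  have hz6 : (0 : ℝ) ≤ z ^ 6 := by positivity
  have hcard : (((P.powerset.filter (fun S => ((pr S : ℕ) : ℝ) ≤ z ^ 6)).card : ℕ) : ℝ) ≤ z ^ 6 := by
    refine le_trans ?_ (Nat.floor_le hz6)
    have : (P.powerset.filter (fun S => ((pr S : ℕ) : ℝ) ≤ z ^ 6)).card ≤
        (Icc 1 ⌊z ^ 6⌋₊).card := by
      refine card_le_card_of_injOn pr (fun S hS => ?_) (fun S hS T hT hST => ?_)
      · obtain ⟨h1, h2⟩ := mem_filter.1 (mem_coe.1 hS)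
        exact mem_coe.2 (mem_Icc.2 ⟨pr_pos fun p hp => (hP p (mem_powerset.1 h1 hp)).1,
          Nat.le_floor h2⟩)
      · exact pr_inj (fun p hp => (hP p (mem_powerset.1 (mem_filter.1 (mem_coe.1 hS)).1 hp)).1)
          (fun p hp => (hP p (mem_powerset.1 (mem_filter.1 (mem_coe.1 hT)).1 hp)).1) hST
    rw [Nat.card_Icc, add_tsub_cancel_right] at this
    exact_mod_cast this
  have h3 : ∑ S ∈ P.powerset, l S * (∑ n ∈ range N, ∏ p ∈ S, ind (n % p ∈ Ω p) -
      N * ∏ p ∈ S, ((ω p : ℝ) / p)) ≤ z ^ 12 := by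
    calc _ ≤ ∑ S ∈ P.powerset, if ((pr S : ℕ) : ℝ) ≤ z ^ 6 then z ^ 6 else 0 := by
          refine sum_le_sum fun S hS => ?_
          have hS' := mem_powerset.1 hS
          split_ifs with hle
          · refine (le_abs_self _).trans ?_
            rw [abs_mul]
            have hl : |l S| ≤ 1 := by linarith [h.bdd S, abs_nonneg (e S)]
            exact (mul_le_of_le_one_left (abs_nonneg _) hl).trans ((hcount S hS').trans hle)
          · have : l S = 0 := by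
              by_contra hne
              exact hle (h.supp S hS' (Or.inl hne))
            rw [this, zero_mul]
      _ = (((P.powerset.filter (fun S => ((pr S : ℕ) : ℝ) ≤ z ^ 6)).card : ℕ) : ℝ) * z ^ 6 := by
          rw [← sum_filter, sum_const, nsmul_eq_mul]
      _ ≤ z ^ 6 * z ^ 6 := by gcongr
      _ = z ^ 12 := by ring
  have h4 : svEv P l (fun p => (ω p : ℝ) / p) ≤
      Real.exp (4 * K) * Real.exp (-∑ p ∈ P, (ω p : ℝ) / p) := by
    have a1 := h.low _ hg1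
    have a2 := h.upp _ hg1
    have a3 := h.err
    have a4 : svV P (fun p => (ω p : ℝ) / p) ≤ Real.exp (-∑ p ∈ P, (ω p : ℝ) / p) := by
      rw [← sum_neg_distrib, Real.exp_sum]
      refine prod_le_prod (fun p hp => sub_nonneg.2 (hg1 p hp).2) fun p _ => ?_
      linarith [Real.add_one_le_exp (-((ω p : ℝ) / p))]
    have a5 := mul_le_mul_of_nonneg_left a4 (Real.exp_pos (4 * K)).le
    linarith
  have h5 := mul_le_mul_of_nonneg_left h4 (Nat.cast_nonneg (α := ℝ) N)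
  nlinarith

end Crest.Agent.R020
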