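import Crest.Agent.R020.Vol

set_option autoImplicit false

namespace Crest.Agent.R020

open Finset Filter Topology Crest.Agent.R008 Crest.Agent.R026 Crest.NumberTheoryR.TotientScale

variable {ρ : ℝ}

/-- `B / (m ϱ^(10 m))` is asymptotic to `λ exp (λ θ)` (`bigB_eq`, `tendsto_logB`). -/
theorem tendsto_ratio (h : Root ρ) : Tendsto (fun q : ℝ × ℕ =>
    (q.2 * vr ρ ^ (10 * q.2)) / bigB q.1 * (lam ρ * Real.exp (lam ρ * (phaseArg ρ q.1 - q.2))))
    (Fl ρ) (𝓝 1) := by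
  have h1 := (tendsto_logB h).inv₀ one_ne_zero
  rw [inv_one] at h1
  refine h1.congr' ?_
  filter_upwards [(tendsto_B ρ).eventually_gt_atTop 1] with q hq
  have hL : 0 < Real.log (bigB q.1) := Real.log_pos hq
  have hV : 0 < vr ρ ^ (10 * q.2) := pow_pos (vr_pos h) _
  have hE : 0 < Real.exp (lam ρ * (phaseArg ρ q.1 - q.2)) := Real.exp_pos _
  have e := bigB_eq h hq q.2
  generalize Real.log (bigB q.1) = L at e hL ⊢
  rw [e, inv_div]
  field_simp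

/-- Call `f` *tame* if `f q - Ψ (phaseArg - m) → 0` for a continuous `Ψ`. -/
def Tame (ρ : ℝ) (f : ℝ × ℕ → ℝ) : Prop := ∃ Ψ : ℝ → ℝ, Continuous Ψ ∧
  Tendsto (fun q : ℝ × ℕ => f q - Ψ (phaseArg ρ q.1 - q.2)) (Fl ρ) (𝓝 0)

theorem Tame.congr {f f' : ℝ × ℕ → ℝ} (hf : Tame ρ f) (h : f =ᶠ[Fl ρ] f') : Tame ρ f' := by
  obtain ⟨Ψ, hΨ, ht⟩ := hf
  refine ⟨Ψ, hΨ, ht.congr' ?_⟩
  filter_upwards [h] with q hq
  rw [hq]

theorem tame_of_tendsto {f : ℝ × ℕ → ℝ} {a : ℝ} (hf : Tendsto f (Fl ρ) (𝓝 a)) : Tame ρ f := by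
  refine ⟨fun _ => a, continuous_const, ?_⟩
  simpa using hf.sub_const a

/-- Since `phaseArg - m ∈ [0, 3]` (`ev_Sc`), the values `Ψ θ` lie in a compact set, on a
neighbourhood of which `F` is uniformly continuous
(`IsCompact.uniformContinuousOn_of_continuous` on a closed ball, or
`Continuous.tendstoUniformly`-free: `IsCompact.uniformContinuousAt_of_continuousAt`). -/
theorem Tame.comp₂ {f g : ℝ × ℕ → ℝ} (hf : Tame ρ f) (hg : Tame ρ g) {F : ℝ × ℝ → ℝ}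
    (hF : Continuous F) : Tame ρ (fun q => F (f q, g q)) := by
  obtain ⟨Ψ, hΨ, hft⟩ := hf
  obtain ⟨Φ, hΦ, hgt⟩ := hg
  refine ⟨fun θ => F (Ψ θ, Φ θ), by fun_prop, ?_⟩
  have hK : IsCompact ((fun θ => (Ψ θ, Φ θ)) '' Set.Icc (0 : ℝ) 3) :=
    isCompact_Icc.image (by fun_prop)
  rw [Metric.tendsto_nhds]
  intro ε hε
  have hU := hK.uniformContinuousAt_of_continuousAt F (fun a _ => hF.continuousAt)
    (Metric.dist_mem_uniformity hε)
  obtain ⟨δ, hδ, hU⟩ := Metric.mem_uniformity_dist.1 hU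
  filter_upwards [ev_Sc ρ, Metric.tendsto_nhds.1 hft δ hδ, Metric.tendsto_nhds.1 hgt δ hδ]
    with q hq h1 h2
  rw [dist_zero_right, ← dist_eq_norm] at h1 h2 ⊢
  have h3 : dist (Ψ (phaseArg ρ q.1 - q.2), Φ (phaseArg ρ q.1 - q.2)) (f q, g q) < δ := by
    rw [dist_comm, Prod.dist_eq]
    exact max_lt h1 h2
  rw [dist_comm]
  exact hU h3 ⟨_, hq, rfl⟩

theorem Tame.mul {f g : ℝ × ℕ → ℝ} (hf : Tame ρ f) (hg : Tame ρ g) :
    Tame ρ (fun q => f q * g q) := hf.comp₂ hg (F := fun u => u.1 * u.2) (by fun_prop)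

theorem Tame.add {f g : ℝ × ℕ → ℝ} (hf : Tame ρ f) (hg : Tame ρ g) :
    Tame ρ (fun q => f q + g q) := hf.comp₂ hg (F := fun u => u.1 + u.2) (by fun_prop)

theorem Tame.sum {ι : Type} (s : Finset ι) {f : ι → ℝ × ℕ → ℝ} (hf : ∀ i ∈ s, Tame ρ (f i)) :
    Tame ρ (fun q => ∑ i ∈ s, f i q) := by
  classical
  induction s using Finset.induction_on with
  | empty => exact tame_of_tendsto (a := 0) (by simpa using tendsto_const_nhds)
  | insert i s hi ih =>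
    simp only [sum_insert hi]
    exact (hf i (mem_insert_self _ _)).add (ih fun j hj => hf j (mem_insert_of_mem hj))

theorem Tame.prod {ι : Type} (s : Finset ι) {f : ι → ℝ × ℕ → ℝ} (hf : ∀ i ∈ s, Tame ρ (f i)) :
    Tame ρ (fun q => ∏ i ∈ s, f i q) := by
  classical
  induction s using Finset.induction_on with
  | empty => exact tame_of_tendsto (a := 1) (by simpa using tendsto_const_nhds)
  | insert i s hi ih =>
    simp only [prod_insert hi]
    exact (hf i (mem_insert_self _ _)).mul (ih fun j hj => hf j (mem_insert_of_mem hj))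

/-- `m ϱ^(10 m) / B` is tame with `Ψ θ = exp (-λ θ) / λ`. -/
theorem tame_inv (h : Root ρ) :
    Tame ρ (fun q : ℝ × ℕ => (q.2 * vr ρ ^ (10 * q.2)) / bigB q.1) := by
  have h1 : Tame ρ (fun q : ℝ × ℕ => Real.exp (-(lam ρ * (phaseArg ρ q.1 - q.2))) / lam ρ) :=
    ⟨fun θ => Real.exp (-(lam ρ * θ)) / lam ρ, by fun_prop,
      by simpa using tendsto_const_nhds⟩
  refine ((tame_of_tendsto (tendsto_ratio h)).mul h1).congr (.of_forall fun q => ?_)
  have hl := (lam_pos h).ne'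
  have hE := (Real.exp_pos (lam ρ * (phaseArg ρ q.1 - q.2))).ne'
  simp only [Real.exp_neg]
  field_simp

theorem lim_sub (h : Root ρ) (n : ℕ) : Tendsto (fun q : ℝ × ℕ => q.2 - n) (Fl ρ) atTop :=
  (tendsto_sub_atTop_nat n).comp (tendsto_m h)

theorem lim_ratio (h : Root ρ) (n : ℕ) :
    Tendsto (fun q : ℝ × ℕ => ((q.2 - n : ℕ) : ℝ) / (q.2 : ℝ)) (Fl ρ) (𝓝 1) := by
  have h1 : Tendsto (fun q : ℝ × ℕ => 1 - (n : ℝ) / (q.2 : ℝ)) (Fl ρ) (𝓝 (1 - 0)) :=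
    tendsto_const_nhds.sub
      (tendsto_const_nhds.div_atTop (tendsto_natCast_atTop_atTop.comp (tendsto_m h)))
  rw [sub_zero] at h1
  refine h1.congr' ?_
  filter_upwards [(tendsto_m h).eventually_ge_atTop (n + 1)] with q hq
  have hq0 : (0 : ℝ) < q.2 := by exact_mod_cast (show 0 < q.2 by omega)
  rw [Nat.cast_sub (by omega)]
  field_simp

theorem lim_small (h : Root ρ) :
    Tendsto (fun q : ℝ × ℕ => vr ρ ^ (10 * q.2) / bigB q.1) (Fl ρ) (𝓝 0) := by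
  have hv := vr_pos h
  refine tendsto_order.2 ⟨fun a ha => ?_, fun a ha => ?_⟩
  · filter_upwards [(tendsto_B ρ).eventually_gt_atTop 0] with q hq
    exact lt_of_lt_of_le ha (by positivity)
  · filter_upwards [(tendsto_B ρ).eventually_gt_atTop 0, ev_large h (2 / a)] with q hq h2
    rw [div_lt_iff₀ hq]
    have h3 := h2.1
    rw [div_mul_eq_mul_div, div_le_iff₀ ha] at h3
    have : 0 < vr ρ ^ (10 * q.2) := by positivity
    nlinarith

theorem lim_pow_id (h : Root ρ) {m n : ℕ} (hn : n ≤ m) :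
    ρ ^ (m - n) * ρ ^ n * vr ρ ^ (10 * m) = 1 := by
  rw [← pow_add, Nat.sub_add_cancel hn, mul_comm]
  exact vr_pow_mul h m

theorem lim_factor (h : Root ρ) (n : ℕ) {a : ℕ → ℝ} {γ : ℝ}
    (ha : Tendsto (fun k : ℕ => a k * ρ ^ k) atTop (𝓝 γ)) :
    Tame ρ (fun q : ℝ × ℕ => ((q.2 - n : ℕ) : ℝ) * a (q.2 - n) / bigB q.1) := by
  have h1 : Tendsto (fun q : ℝ × ℕ => ((q.2 - n : ℕ) : ℝ) / (q.2 : ℝ) *
      (a (q.2 - n) * ρ ^ (q.2 - n)) * ρ ^ n) (Fl ρ) (𝓝 (1 * γ * ρ ^ n)) :=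
    ((lim_ratio h n).mul (ha.comp (lim_sub h n))).mul tendsto_const_nhds
  refine ((tame_of_tendsto h1).mul (tame_inv h)).congr ?_
  filter_upwards [(tendsto_m h).eventually_ge_atTop (n + 1),
    (tendsto_B ρ).eventually_gt_atTop 0] with q hq hB
  have hq0 : (0 : ℝ) < q.2 := by exact_mod_cast (show 0 < q.2 by omega)
  have hid := lim_pow_id h (show n ≤ q.2 by omega)
  calc ((q.2 - n : ℕ) : ℝ) / (q.2 : ℝ) * (a (q.2 - n) * ρ ^ (q.2 - n)) * ρ ^ n *
        ((q.2 * vr ρ ^ (10 * q.2)) / bigB q.1)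
      = ((q.2 - n : ℕ) : ℝ) * a (q.2 - n) / bigB q.1 *
        (ρ ^ (q.2 - n) * ρ ^ n * vr ρ ^ (10 * q.2)) := by field_simp
    _ = _ := by rw [hid, mul_one]

theorem lim_zero (h : Root ρ) (n : ℕ) {a : ℕ → ℝ} {γ : ℝ}
    (ha : Tendsto (fun k : ℕ => a k * ρ ^ k) atTop (𝓝 γ)) :
    Tendsto (fun q : ℝ × ℕ => a (q.2 - n) / bigB q.1) (Fl ρ) (𝓝 0) := by
  have h1 : Tendsto (fun q : ℝ × ℕ => (a (q.2 - n) * ρ ^ (q.2 - n)) * ρ ^ n *
      (vr ρ ^ (10 * q.2) / bigB q.1)) (Fl ρ) (𝓝 (γ * ρ ^ n * 0)) :=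
    ((ha.comp (lim_sub h n)).mul tendsto_const_nhds).mul (lim_small h)
  rw [mul_zero] at h1
  refine h1.congr' ?_
  filter_upwards [(tendsto_m h).eventually_ge_atTop n] with q hq
  have hid := lim_pow_id h hq
  calc (a (q.2 - n) * ρ ^ (q.2 - n)) * ρ ^ n * (vr ρ ^ (10 * q.2) / bigB q.1)
      = a (q.2 - n) / bigB q.1 * (ρ ^ (q.2 - n) * ρ ^ n * vr ρ ^ (10 * q.2)) := by ring
    _ = _ := by rw [hid, mul_one]

theorem lim_prod_Ioc (f : ℕ → ℝ) {m M : ℕ} (hM : M ≤ m) :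
    ∏ l ∈ Ioc (m - M) m, f l = ∏ n ∈ range M, f (m - n) := by
  refine prod_bij' (fun l _ => m - l) (fun n _ => m - n) ?_ ?_ ?_ ?_ ?_
  · intro l hl
    rw [mem_Ioc] at hl
    rw [mem_range]
    omega
  · intro n hn
    rw [mem_range] at hn
    rw [mem_Ioc]
    omega
  · intro l hl
    rw [mem_Ioc] at hl
    show m - (m - l) = l
    omega
  · intro n hn
    rw [mem_range] at hn
    show m - (m - n) = n
    omega
  · intro l hl
    rw [mem_Ioc] at hl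
    show f l = f (m - (m - l))
    rw [show m - (m - l) = l by omega]

theorem lim_H (h : Root ρ) (t : Tail) (J : ℕ) :
    ∃ γ : ℝ, Tendsto (fun k : ℕ => t.H J k * ρ ^ k) atTop (𝓝 γ) := by
  choose γ hγ using G_tendsto h
  refine ⟨∑ j ∈ range J, γ j * t.lam j, ?_⟩
  refine (tendsto_finsetSum (range J) fun j _ => (hγ j).mul_const (t.lam j)).congr fun k => ?_
  simp only [Tail.H, Tail.beta, mul_sum, sum_mul]
  rw [sum_comm]
  refine sum_congr rfl fun i _ => sum_congr rfl fun j _ => ?_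
  ring

/-- `Vol_eq_prod`; for `l = m - n`, `n < M`:
`l g_l / B = (l / m) (g_l ρ^l) ρ^n (m ϱ^(10 m) / B)` (`renewal`). -/
theorem tame_vol (h : Root ρ) (M : ℕ) :
    Tame ρ (fun q : ℝ × ℕ => Vol (q.2 - M) (bigB q.1) / Vol q.2 (bigB q.1)) := by
  obtain ⟨γ, -, hγ⟩ := renewal h
  refine (Tame.prod (range M) (f := fun n (q : ℝ × ℕ) =>
    ((q.2 - n : ℕ) : ℝ) * gSeq (q.2 - n) / bigB q.1) fun n _ => lim_factor h n hγ).congr ?_
  filter_upwards [(tendsto_m h).eventually_ge_atTop M,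
    (tendsto_B ρ).eventually_gt_atTop 0] with q hq hB
  rw [Vol_eq_prod (Nat.sub_le q.2 M) hB, lim_prod_Ioc _ hq,
    mul_div_cancel_left₀ _ (Vol_pos _ hB).ne']

/-- With `k = m - M`, `u = H / B → 0` and `k u = (k / m) (H ρ^k) ρ^M (m ϱ^(10 m) / B)` tame
(`G_tendsto`), `(1 - u)^k = exp (k log (1 - u))`, `k log (1 - u) + k u → 0` as
`|log (1 - u) + u| ≤ 2 u²` for `|u| ≤ 1/2` (`Real.abs_log_sub_add_sum_range_le`). -/
theorem tame_pow (h : Root ρ) (t : Tail) (J M : ℕ) :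
    Tame ρ (fun q : ℝ × ℕ => (1 - t.H J (q.2 - M) / bigB q.1) ^ (q.2 - M)) ∧
      ∀ᶠ q in Fl ρ, t.H J (q.2 - M) ≤ bigB q.1 := by
  obtain ⟨γ, hγ⟩ := lim_H h t J
  have hu := lim_zero h M hγ
  have hku := lim_factor h M hγ
  have hlt : ∀ᶠ q in Fl ρ, t.H J (q.2 - M) / bigB q.1 < 1 := hu.eventually (gt_mem_nhds one_pos)
  refine ⟨?_, ?_⟩
  · have hd : DifferentiableAt ℝ (fun u : ℝ => Real.log (1 - u)) 0 := by
      refine DifferentiableAt.log (by fun_prop) (by simp)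
    have hφ := (continuousAt_dslope_same.2 hd).tendsto.comp hu
    have hT := (hku.mul (tame_of_tendsto hφ)).comp₂ hku (F := fun u => Real.exp u.1) (by fun_prop)
    refine hT.congr ?_
    filter_upwards [hlt] with q hq
    have h1 := sub_smul_dslope (fun u : ℝ => Real.log (1 - u)) 0 (t.H J (q.2 - M) / bigB q.1)
    simp only [sub_zero, Real.log_one, smul_eq_mul] at h1
    simp only [Function.comp]
    rw [mul_div_assoc, mul_assoc, h1, ← Real.log_pow, Real.exp_log (pow_pos (by linarith) _)]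
  · filter_upwards [hlt, (tendsto_B ρ).eventually_gt_atTop 0] with q hq hB
    exact ((div_lt_one hB).1 hq).le

/-- `Vol_scale`. -/
theorem lim_main (h : Root ρ) (𝒯 : Finset Tail) (J M : ℕ) :
    Tame ρ (fun q : ℝ × ℕ => Main 𝒯 J (q.2 - M) (bigB q.1) / Vol q.2 (bigB q.1)) := by
  refine (Tame.sum 𝒯 (f := fun t (q : ℝ × ℕ) =>
    (1 - t.H J (q.2 - M) / bigB q.1) ^ (q.2 - M) *
      (Vol (q.2 - M) (bigB q.1) / Vol q.2 (bigB q.1)) * (1 / (t.val : ℝ))) fun t _ =>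
      ((tame_pow h t J M).1.mul (tame_vol h M)).mul (tame_of_tendsto tendsto_const_nhds)).congr ?_
  have hall : ∀ᶠ q in Fl ρ, ∀ t ∈ 𝒯, t.H J (q.2 - M) ≤ bigB q.1 :=
    (eventually_all_finset 𝒯).2 fun t _ => (tame_pow h t J M).2
  filter_upwards [hall, (tendsto_B ρ).eventually_gt_atTop 0] with q hq hB
  rw [Main, sum_div]
  refine sum_congr rfl fun t ht => ?_
  rw [Vol_scale _ hB (hq t ht)]
  ring

end Crest.Agent.R020
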