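import Crest.Agent.R020.Bas2

set_option autoImplicit false

namespace Crest.Agent.R020

open Finset Filter Topology Crest.Agent.R008 Crest.Agent.R026 Crest.NumberTheoryR.TotientScale

/-! ### The prime factors in decreasing order -/

theorem pl_prime (n : ℕ) : Pr (pl n) := by
  intro p hp
  exact Nat.prime_of_mem_primeFactorsList (List.mem_reverse.1 hp)

theorem pl_sorted (n : ℕ) : (pl n).Pairwise (· ≥ ·) := by
  unfold pl
  rw [List.pairwise_reverse]
  exact (Nat.primeFactorsList_sorted n).pairwise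

theorem pl_prod {n : ℕ} (hn : n ≠ 0) : (pl n).prod = n := by
  unfold pl
  rw [List.prod_reverse, Nat.prod_primeFactorsList hn]

theorem mem_pl {n p : ℕ} (hn : n ≠ 0) : p ∈ pl n ↔ p.Prime ∧ p ∣ n := by
  unfold pl
  rw [List.mem_reverse, Nat.mem_primeFactorsList hn]

theorem count_pl (n p : ℕ) : (pl n).count p = n.factorization p := by
  unfold pl
  rw [List.count_reverse, Nat.primeFactorsList_count_eq]

theorem nd_zero {n : ℕ} (hn : n ≠ 0) : nd n 0 = n := by
  unfold nd
  rw [List.drop_zero, pl_prod hn]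

theorem nd_pos (n j : ℕ) : 0 < nd n j := by
  unfold nd
  exact List.prod_pos fun p hp => ((pl_prime n).drop j p hp).pos

/-- `Nat.primeFactorsList_unique` and `List.Perm.eq_of_pairwise`. -/
theorem pl_nd (n j : ℕ) : pl (nd n j) = (pl n).drop j := by
  have h1 : ((pl n).drop j).Perm (nd n j).primeFactorsList :=
    Nat.primeFactorsList_unique rfl ((pl_prime n).drop j)
  have h2 : (pl (nd n j)).Perm ((pl n).drop j) := (List.reverse_perm _).trans h1.symm
  exact List.Perm.eq_of_pairwise (le := (· ≥ ·)) (fun a b _ _ hab hba => le_antisymm hba hab)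
    (pl_sorted _) ((pl_sorted n).sublist (List.drop_sublist _ _)) h2

theorem nd_nd (n i j : ℕ) : nd (nd n i) j = nd n (i + j) := by
  conv_lhs => unfold nd
  rw [show pl ((pl n).drop i).prod = (pl n).drop i from pl_nd n i, List.drop_drop]
  rfl

theorem nd_succ (n j : ℕ) : nd n j = (pl n).getD j 1 * nd n (j + 1) := by
  unfold nd
  by_cases h : j < (pl n).length
  · rw [List.drop_eq_getElem_cons h, List.prod_cons, List.getD_eq_getElem _ _ h]
  · push Not at h
    rw [List.drop_eq_nil_of_le h, List.drop_eq_nil_of_le (by omega), List.getD_eq_default _ _ h]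
    simp

theorem nd_dvd (n : ℕ) {j j' : ℕ} (h : j ≤ j') : nd n j' ∣ nd n j := by
  induction j', h using Nat.le_induction with
  | base => exact dvd_rfl
  | succ k _ ih => exact (Dvd.intro_left _ (nd_succ n k).symm).trans ih

theorem nd_dvd_self (n j : ℕ) : nd n j ∣ n := by
  rcases eq_or_ne n 0 with rfl | hn
  · exact dvd_zero _
  · have := nd_dvd n (Nat.zero_le j)
    rwa [nd_zero hn] at this

theorem getD_pl_pos (n j : ℕ) : 1 ≤ (pl n).getD j 1 := by
  by_cases h : j < (pl n).length
  · exact ((pl_prime n).getD h).one_le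
  · rw [List.getD_eq_default _ _ (by omega)]

theorem getD_pl_anti (n : ℕ) {i j : ℕ} (h : i ≤ j) : (pl n).getD j 1 ≤ (pl n).getD i 1 := by
  by_cases hj : j < (pl n).length
  · rcases h.eq_or_lt with rfl | hlt
    · exact le_rfl
    · have hi : i < (pl n).length := hlt.trans hj
      rw [List.getD_eq_getElem _ _ hj, List.getD_eq_getElem _ _ hi]
      exact List.pairwise_iff_getElem.1 (pl_sorted n) i j hi hj hlt
  · rw [List.getD_eq_default _ _ (by omega : (pl n).length ≤ j)]
    exact getD_pl_pos n i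

theorem lv_pl_anti (n : ℕ) {i j : ℕ} (h : i ≤ j) : lv (pl n) j ≤ lv (pl n) i := by
  exact LL_mono_nat (getD_pl_anti n h)

theorem getD_pl_cases (n j : ℕ) : (pl n).getD j 1 = 1 ∨ ((pl n).getD j 1).Prime := by
  by_cases h : j < (pl n).length
  · exact Or.inr ((pl_prime n).getD h)
  · exact Or.inl (List.getD_eq_default _ _ (by omega))

theorem prime_of_lv_pos {n j : ℕ} (h : 0 < lv (pl n) j) : ((pl n).getD j 1).Prime := by
  exact (pl_prime n).getD (lt_length_of_lv_pos h)

theorem lt_length_of_prime {n j : ℕ} (h : ((pl n).getD j 1).Prime) : j < (pl n).length := by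
  by_contra hj
  rw [List.getD_eq_default _ _ (by omega)] at h
  exact Nat.not_prime_one h

theorem getD_dvd_nd (n : ℕ) {i j : ℕ} (h : i ≤ j) : (pl n).getD j 1 ∣ nd n i := by
  exact (Dvd.intro _ (nd_succ n j).symm).trans (nd_dvd n h)

theorem le_getD_of_dvd {n j r : ℕ} (hr : r.Prime) (h : r ∣ nd n j) : r ≤ (pl n).getD j 1 := by
  have h1 : r ∈ pl (nd n j) := (mem_pl (nd_pos n j).ne').2 ⟨hr, h⟩
  rw [pl_nd] at h1
  obtain ⟨i, hi, rfl⟩ := List.getElem_of_mem h1
  rw [List.length_drop] at hi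
  rw [List.getElem_drop, ← List.getD_eq_getElem _ 1 (by omega : j + i < (pl n).length)]
  exact getD_pl_anti n (Nat.le_add_right _ _)

theorem sm_nd (n j : ℕ) : Sm (lv (pl n) j) (nd n j) := by
  exact ⟨(nd_pos n j).ne', fun r hr h => LL_mono_nat (le_getD_of_dvd hr h)⟩

theorem nd_le_pow (n j : ℕ) : nd n j ≤ (pl n).getD j 1 ^ (pl n).length := by
  have h1 : nd n j ≤ (pl n).getD j 1 ^ ((pl n).drop j).length := by
    refine List.prod_le_pow_card _ _ fun p hp => ?_
    exact le_getD_of_dvd ((pl_prime n).drop j p hp) (List.dvd_prod hp)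
  refine h1.trans (Nat.pow_le_pow_right (getD_pl_pos n j) ?_)
  rw [List.length_drop]; omega

/-- If `p_j ^ 2 ∤ p_i p_{i+1} ⋯` with `i ≤ j`, then `p_{j+1} < p_j`. -/
theorem getD_lt_of_sq {n i j : ℕ} (hij : i ≤ j) (hp : ((pl n).getD j 1).Prime)
    (h : ¬ (pl n).getD j 1 ^ 2 ∣ nd n i) : (pl n).getD (j + 1) 1 < (pl n).getD j 1 := by
  rcases (getD_pl_anti n (Nat.le_succ j)).lt_or_eq with h1 | h1
  · exact h1
  · exfalso
    refine h (Dvd.dvd.trans ?_ (nd_dvd n hij))
    rw [nd_succ n j, nd_succ n (j + 1), h1, sq, ← mul_assoc]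
    exact Dvd.intro _ rfl

theorem totient_nd_succ {n j : ℕ} (hp : ((pl n).getD j 1).Prime)
    (h : (pl n).getD (j + 1) 1 < (pl n).getD j 1) :
    Nat.totient (nd n j) = ((pl n).getD j 1 - 1) * Nat.totient (nd n (j + 1)) := by
  have hc : Nat.Coprime ((pl n).getD j 1) (nd n (j + 1)) :=
    (Nat.Prime.coprime_iff_not_dvd hp).2 fun hd => absurd (le_getD_of_dvd hp hd) (not_le.2 h)
  rw [nd_succ n j, Nat.totient_mul hc, Nat.totient_prime hp]

theorem bas3_getD_take_drop (l : List ℕ) {i J j : ℕ} (h : j < J) :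
    ((l.drop i).take J).getD j 1 = l.getD (i + j) 1 := by
  simp only [List.getD_eq_getElem?_getD, List.getElem?_take, h, if_true, List.getElem?_drop]

/-- Iterate `totient_nd_succ`. -/
theorem totient_nd_add {n i : ℕ} (J : ℕ) (h : ∀ j, i ≤ j → j < i + J →
    ((pl n).getD j 1).Prime ∧ (pl n).getD (j + 1) 1 < (pl n).getD j 1) :
    (((pl n).drop i).take J).length = J ∧ Dec (((pl n).drop i).take J) ∧
      (∀ p ∈ ((pl n).drop i).take J, ¬ p ∣ nd n (i + J)) ∧
      Nat.totient (nd n i) = pm (((pl n).drop i).take J) * Nat.totient (nd n (i + J)) := by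
  have hlen : (((pl n).drop i).take J).length = J := by
    rw [List.length_take, List.length_drop]
    rcases Nat.eq_zero_or_pos J with rfl | hJ
    · simp
    · have := lt_length_of_prime (h (i + J - 1) (by omega) (by omega)).1
      omega
  have hdec : Dec (((pl n).drop i).take J) := by
    rw [dec_iff]
    intro j hj
    rw [hlen] at hj
    rw [bas3_getD_take_drop _ hj, bas3_getD_take_drop _ (by omega : j < J)]
    exact (h (i + j) (by omega) (by omega)).2
  have hnd : ∀ p ∈ ((pl n).drop i).take J, ¬ p ∣ nd n (i + J) := by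
    intro p hp hd
    obtain ⟨j, hj, hjp, -⟩ := exists_lv_of_mem hp
    rw [hlen] at hj
    rw [bas3_getD_take_drop _ hj] at hjp
    have h1 := h (i + j) (by omega) (by omega)
    have h2 := le_getD_of_dvd (hjp ▸ h1.1) hd
    have h3 := getD_pl_anti n (show i + j + 1 ≤ i + J by omega)
    have h4 := h1.2
    omega
  refine ⟨hlen, hdec, hnd, ?_⟩
  have hprod : nd n i = (((pl n).drop i).take J).prod * nd n (i + J) := by
    unfold nd
    rw [← List.drop_drop, List.prod_take_mul_prod_drop]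
  rw [hprod]
  exact totient_prod_mul (((pl_prime n).drop i).take J) hdec.nodup hnd

theorem bas3_len_mul {a b : ℕ} (ha : a ≠ 0) (hb : b ≠ 0) :
    (a * b).primeFactorsList.length = a.primeFactorsList.length + b.primeFactorsList.length := by
  rw [(Nat.perm_primeFactorsList_mul ha hb).length_eq, List.length_append]

/-- `Ω(n) ≤ Ω(φ n) + 1`: strong induction with `totient_prime_mul`, removing an odd prime, or
`φ (2 ^ a) = 2 ^ (a - 1)`. -/
theorem length_pl_le {n : ℕ} (hn : n ≠ 0) :
    (pl n).length ≤ (Nat.totient n).primeFactorsList.length + 1 := by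
  unfold pl
  rw [List.length_reverse]
  induction n using Nat.strong_induction_on with
  | _ n ih =>
    by_cases hodd : ∃ p, p.Prime ∧ p ≠ 2 ∧ p ∣ n
    · obtain ⟨p, hp, hp2, m, rfl⟩ := hodd
      have hm : m ≠ 0 := right_ne_zero_of_mul hn
      have hlt : m < p * m := lt_mul_of_one_lt_left (Nat.pos_of_ne_zero hm) hp.one_lt
      have h1 := ih m hlt hm
      have ht : Nat.totient m ≠ 0 := (Nat.totient_pos.2 (Nat.pos_of_ne_zero hm)).ne'
      have h3 : 3 ≤ p := by have := hp.two_le; omega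
      rw [bas3_len_mul hp.ne_zero hm, Nat.primeFactorsList_prime hp, List.length_singleton]
      have key : ∀ q : ℕ, 2 ≤ q → 1 ≤ q.primeFactorsList.length := by
        intro q hq
        rw [Nat.one_le_iff_ne_zero, Ne, List.length_eq_zero_iff, Nat.primeFactorsList_eq_nil]
        omega
      rcases totient_prime_mul hp m with h2 | h2
      · rw [h2, bas3_len_mul (by omega) ht]
        have := key (p - 1) (by omega)
        omega
      · rw [h2, bas3_len_mul hp.ne_zero ht]
        have := key p (by omega)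
        omega
    · push Not at hodd
      have h2 : n = 2 ^ n.primeFactorsList.length :=
        Nat.eq_prime_pow_of_unique_prime_dvd hn fun {d} hd hdn => by
          by_contra hne
          exact hodd d hd hne hdn
      generalize n.primeFactorsList.length = a at h2
      subst h2
      rcases Nat.eq_zero_or_pos a with rfl | ha
      · omega
      · rw [Nat.totient_prime_pow Nat.prime_two ha]
        simp only [Nat.add_one_sub_one, mul_one, Nat.Prime.primeFactorsList_pow Nat.prime_two,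
          List.length_replicate]
        omega

theorem lv_mid {n i j : ℕ} (h : j + 1 < i) : lv (mid n i) j = lv (pl n) (j + 1) := by
  unfold mid
  rw [lv_take (by omega), lv_drop, add_comm]

/-- The structure of a preimage whose levels below `i` are good.  The entries `p_j`,
`1 ≤ j < i`, are primes because of `lo` (`m - j ≥ 1`), and `p_{j+1} < p_j` because of `sqf`. -/
theorem pre_struct {ρ x : ℝ} {m k' i n : ℕ} (h : Pre ρ x m k' i n) (hn : 0 < n) (h1 : 1 ≤ i)
    (hi : i ≤ k' + 1) (hk : k' < m) :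
    (∀ j, j < i → ((pl n).getD j 1).Prime ∧ (pl n).getD (j + 1) 1 < (pl n).getD j 1) ∧
    (mid n i).length = i - 1 ∧ Pr (mid n i) ∧ Dec (mid n i) ∧
      Nat.totient (nd n 1) = pm (mid n i) * Nat.totient (nd n i) ∧
      Nat.totient n = ((pl n).getD 0 1 - 1) * Nat.totient (nd n 1) ∧
      Con a0 (fun i' => ∑ j ∈ Icc i k', aCoef (j - i') * lv (pl n) j + be ρ m i') (bigB x)
        (mid n i) := by
  have hA : ∀ j, j < i → ((pl n).getD j 1).Prime ∧ (pl n).getD (j + 1) 1 < (pl n).getD j 1 := by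
    intro j hj
    rcases Nat.eq_zero_or_pos j with rfl | hj1
    · exact ⟨h.1.prime, h.1.gt⟩
    · have hL := h.2 j hj1 hj
      have h2 : (1 : ℝ) ≤ ((m - j : ℕ) : ℝ) := by exact_mod_cast (by omega : 1 ≤ m - j)
      have hp : ((pl n).getD j 1).Prime := prime_of_lv_pos (by linarith [hL.lo])
      exact ⟨hp, getD_lt_of_sq le_rfl hp (hL.sqf _ hp hL.lo)⟩
  obtain ⟨h2, h3, -, h5⟩ := totient_nd_add (n := n) (i := 1) (i - 1)
    (fun j _ hj => hA j (by omega))
  have hi1 : 1 + (i - 1) = i := by omega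
  rw [hi1] at h5
  refine ⟨hA, h2, ((pl_prime n).drop 1).take _, h3, h5, ?_, ?_⟩
  · have := totient_nd_succ (hA 0 h1).1 (hA 0 h1).2
    rwa [nd_zero hn.ne'] at this
  · have hlen : (mid n i).length = i - 1 := h2
    intro i' hi'
    rw [hlen] at hi' ⊢
    have hsum : ∑ j ∈ Ioc i' (i - 1), a0 i' j * ys (bigB x) (mid n i) j +
        ∑ j ∈ Icc i k', aCoef (j - i') * lv (pl n) j =
        ∑ j ∈ Ioc i' k', aCoef (j - i') * lv (pl n) j := by
      have e1 : Icc i k' = Ioc (i - 1) k' := by
        ext j; simp only [mem_Icc, mem_Ioc]; omega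
      rw [e1, ← Finset.sum_Ioc_consecutive _ hi' (by omega : i - 1 ≤ k')]
      congr 1
      refine sum_congr rfl fun j hj => ?_
      rw [mem_Ioc] at hj
      rw [ys_of_pos _ _ (by omega), lv_mid (by omega), show j - 1 + 1 = j by omega]
      rfl
    rw [← add_assoc, hsum]
    rcases Nat.eq_zero_or_pos i' with rfl | hpos
    · simpa [ys_zero] using h.1.ineq
    · rw [ys_of_pos _ _ hpos, lv_mid (by omega), show i' - 1 + 1 = i' by omega]
      exact (h.2 i' hpos (by omega)).ineq

theorem Pre.mono {ρ x : ℝ} {m k' i i' n : ℕ} (h : Pre ρ x m k' i n) (hi : i' ≤ i) :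
    Pre ρ x m k' i' n := ⟨h.1, fun j h1 hj => h.2 j h1 (hj.trans_le hi)⟩

/-- The family of prefixes of a cut. -/
theorem pre_con {ρ x : ℝ} {m k' i n : ℕ} (h : Pre ρ x m k' i n) (hn : 0 < n) (h1 : 1 ≤ i)
    (hi : i ≤ k' + 1) (hk : k' < m) :
    (mid n i).length = i - 1 ∧ Pr (mid n i) ∧ Con a0 (be ρ m) (bigB x) (mid n i) := by
  obtain ⟨-, h2, h3, -, -, -, h7⟩ := pre_struct h hn h1 hi hk
  refine ⟨h2, h3, h7.mono (fun i' hi' => ?_) le_rfl⟩
  rw [h2] at hi'
  refine le_add_of_nonneg_left (sum_nonneg fun j hj => mul_nonneg ?_ (lv_nonneg _ _))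
  rw [mem_Icc] at hj
  exact a_nonneg (by omega)

/-- The value of an admissible tail is the totient of a smooth number. -/
theorem Tail.OK.tot {ρ K : ℝ} (h : Root ρ) {J M' : ℕ} {t : Tail} (ht : t.OK ρ J M' K) :
    Nat.totient (t.q.prod * t.n) = t.val ∧ Sm (vr ρ ^ (11 * (M' + J))) (t.q.prod * t.n) ∧
      Tot (vr ρ ^ (11 * (M' + J))) t.val ∧ 0 < t.val := by
  have hp : Pr t.q := fun p hp => (ht.nor p hp).1
  have h1 : Nat.totient (t.q.prod * t.n) = t.val := totient_prod_mul hp ht.dec.nodup ht.cop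
  have h2 : Sm (vr ρ ^ (11 * (M' + J))) (t.q.prod * t.n) :=
    (sm_prod fun p hq => ⟨(ht.nor p hq).1, (ht.nor p hq).2.2⟩).mul
      (ht.deep.mono (vr_pow_mono h (by omega)))
  refine ⟨h1, h2, ⟨_, h2, h1⟩, ?_⟩
  rw [← h1]
  exact Nat.totient_pos.2 (Nat.pos_of_ne_zero h2.1)

theorem Tail.OK.lam_nonneg {ρ K : ℝ} {J M' : ℕ} {t : Tail} (ht : t.OK ρ J M' K) (j : ℕ) :
    0 ≤ t.lam j := (lv_nonneg _ _).trans (ht.dom j)

theorem Tail.beta_nonneg {t : Tail} (ht : ∀ j, 0 ≤ t.lam j) (J k i : ℕ) : 0 ≤ t.beta J k i := by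
  exact sum_nonneg fun j _ => mul_nonneg (a_nonneg (by omega)) (ht j)

theorem Tail.beta_anti {t : Tail} (ht : ∀ j, 0 ≤ t.lam j) (J k : ℕ) {i i' : ℕ} (h : i ≤ i') :
    t.beta J k i' ≤ t.beta J k i := by
  exact sum_le_sum fun j _ => mul_le_mul_of_nonneg_right (a_mono (by omega)) (ht j)

theorem Tail.beta_self (t : Tail) (J k : ℕ) : t.beta J k k = t.beta J 0 0 := by
  simp [Tail.beta]

end Crest.Agent.R020
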