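import Crest.Agent.R020.VB
import Crest.Agent.R020.Bas3

set_option autoImplicit false

namespace Crest.Agent.R020

open Finset Filter Topology Crest.Agent.R008 Crest.Agent.R026 Crest.NumberTheoryR.TotientScale

/-- The primes `p_l`, `l ≤ L`, with `σ < LL p_l` are distinct (`count_pl`, no squares), so
`∏ (p_l - 1) ∣ φ n` (`pm_dvd_totient`); `Nb_dvd`, `Normal.Nb_ge`.  For the other `l`,
`min w (LL p_l) ≤ σ`. -/
theorem Nb_totient_ge {Δ σ w : ℝ} {L n : ℕ} (hn : n ≠ 0) (hσ : 0 ≤ σ) (hw : 0 ≤ w)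
    (hsq : ∀ p : ℕ, p.Prime → σ ≤ LL p → ¬ p ^ 2 ∣ n)
    (hN : ∀ j, j ≤ L → Normal Δ ((pl n).getD j 1)) :
    ∑ l ∈ range (L + 1), min w (lv (pl n) l) - (L + 1) * (σ + 2 * Δ) ≤
      Nb (Nat.totient n) σ w := by
  classical
  have hΔ : 0 ≤ Δ := (hN 0 (Nat.zero_le _)).nonneg
  have hex : ∃ j, L + 1 ≤ j ∨ lv (pl n) j ≤ σ := ⟨L + 1, Or.inl le_rfl⟩
  set J := Nat.find hex with hJ
  have hJL : J ≤ L + 1 := Nat.find_min' hex (Or.inl le_rfl)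
  have h1 : ∀ j, j < J → σ < lv (pl n) j := fun j hj => by
    have := Nat.find_min hex hj
    push Not at this
    exact this.2
  have h2 : ∀ j, J ≤ j → j < L + 1 → lv (pl n) j ≤ σ := fun j hj hj' => by
    rcases Nat.find_spec hex with h | h
    · omega
    · exact (lv_pl_anti n hj).trans h
  obtain ⟨e1, -, -, e2⟩ := totient_nd_add (n := n) (i := 0) J fun j _ hj => by
    have hp := prime_of_lv_pos (hσ.trans_lt (h1 j (by omega)))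
    refine ⟨hp, getD_lt_of_sq (Nat.zero_le j) hp ?_⟩
    rw [nd_zero hn]
    exact hsq _ hp (h1 j (by omega)).le
  rw [nd_zero hn, List.drop_zero] at *
  have h3 := Nb_dvd (Nat.totient_pos.2 (Nat.pos_of_ne_zero hn)).ne' ⟨_, e2⟩ σ w
  rw [Nb_pm ((pl_prime n).take J), e1] at h3
  refine le_trans ?_ h3
  have h4 : ∑ l ∈ range (L + 1), min w (lv (pl n) l) - (L + 1) * (σ + 2 * Δ) =
      ∑ l ∈ range (L + 1), (min w (lv (pl n) l) - σ - 2 * Δ) := by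
    simp only [sum_sub_distrib, sum_const, card_range, nsmul_eq_mul]
    push_cast
    ring
  rw [h4, ← sum_range_add_sum_Ico _ hJL]
  refine le_trans (add_le_of_nonpos_right (sum_nonpos fun j hj => ?_)) (sum_le_sum fun j hj => ?_)
  · have := h2 j (mem_Ico.1 hj).1 (mem_Ico.1 hj).2
    have := min_le_right w (lv (pl n) j)
    linarith
  · have hj' := mem_range.1 hj
    have e : ((pl n).take J).getD j 1 = (pl n).getD j 1 := by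
      simp [List.getD_eq_getElem?_getD, hj']
    rw [e]
    exact (hN j (by omega)).Nb_ge hσ hw

/-- The number of boxes: functions `range (L + 1) → {0, …, ⌊s⌋}`. -/
theorem card_boxes (L : ℕ) {s : ℝ} (hs : 0 ≤ s) :
    ((Fintype.piFinset (fun _ : Fin L => range (⌊s⌋₊ + 1))).card : ℝ) ≤
      Real.exp (L * Real.log (s + 2)) := by
  rw [Fintype.card_piFinset, prod_const, card_range, card_univ, Fintype.card_fin, Real.exp_nat_mul,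
    Real.exp_log (by linarith)]
  push_cast
  refine pow_le_pow_left₀ (by positivity) ?_ L
  linarith [Nat.floor_le hs]

theorem vb3_cover {s D : ℝ} (hs : 0 ≤ s) (hD : 0 ≤ D) (L : ℕ) (A : Finset ℕ) (f : ℕ → ℝ)
    (hf : ∀ v, 0 ≤ f v) (Q : ℕ → ℕ → Prop) (hA : ∀ v ∈ A, ∃ n, lv (pl n) 0 ≤ s ∧ Q v n)
    (h : ∀ w : ℕ → ℝ, (∀ j, 0 ≤ w j) → (∀ i j, i ≤ j → w j ≤ w i) → ∀ A' : Finset ℕ, A'.Nonempty →
      (∀ v ∈ A', ∃ n, Q v n ∧ ∀ j, j ≤ L → w j ≤ lv (pl n) j ∧ lv (pl n) j ≤ w j + 1) →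
      ∑ v ∈ A', f v ≤ D) :
    ∑ v ∈ A, f v ≤ Real.exp (((L : ℝ) + 1) * Real.log (s + 2)) * D := by
  have hc := card_boxes (L + 1) hs
  push_cast at hc
  refine le_trans (sum_le_sum_cover A (Fintype.piFinset (fun _ : Fin (L + 1) => range (⌊s⌋₊ + 1))) f
    (fun v _ => hf v) (fun b v => ∃ n, Q v n ∧ ∀ j : Fin (L + 1), b j = ⌊lv (pl n) j⌋₊) ?_
    (fun _ => D) ?_) ?_
  · intro v hv
    obtain ⟨n, h1, h2⟩ := hA v hv
    refine ⟨fun j => ⌊lv (pl n) j⌋₊, Fintype.mem_piFinset.2 fun j => ?_, n, h2, fun _ => rfl⟩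
    exact mem_range.2 (Nat.lt_succ_of_le (Nat.floor_mono ((lv_pl_anti n (Nat.zero_le _)).trans h1)))
  · intro b _ A' _ hA'
    rcases A'.eq_empty_or_nonempty with rfl | hne
    · simpa using hD
    obtain ⟨v0, hv0⟩ := id hne
    obtain ⟨n0, -, hn0⟩ := hA' v0 hv0
    refine h (fun j => if j ≤ L then (⌊lv (pl n0) j⌋₊ : ℝ) else 0) (fun j => ?_) (fun i j hij => ?_)
      A' hne fun v hv => ?_
    · split_ifs <;> positivity
    · split_ifs with h1 h2 h2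
      · exact_mod_cast Nat.floor_mono (lv_pl_anti n0 hij)
      · omega
      · positivity
      · exact le_rfl
    · obtain ⟨n, h1, h2⟩ := hA' v hv
      refine ⟨n, h1, fun j hj => ?_⟩
      have e := (hn0 ⟨j, by omega⟩).symm.trans (h2 ⟨j, by omega⟩)
      simp only at e
      rw [if_pos hj, e]
      exact ⟨Nat.floor_le (lv_nonneg _ _), (Nat.lt_floor_add_one _).le⟩
  · rw [sum_const, nsmul_eq_mul]
    exact mul_le_mul_of_nonneg_right hc hD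

theorem vb3_Nb {Δ σ : ℝ} {L n : ℕ} {w : ℕ → ℝ} (hn : n ≠ 0) (hσ : 0 ≤ σ) (hw : ∀ j, 0 ≤ w j)
    (hsq : ∀ p : ℕ, p.Prime → σ ≤ LL p → ¬ p ^ 2 ∣ n)
    (hN : ∀ j, j ≤ L → Normal Δ ((pl n).getD j 1))
    (h : ∀ j, j ≤ L → w j ≤ lv (pl n) j ∧ lv (pl n) j ≤ w j + 1) (j : ℕ) :
    ∑ l ∈ range (L + 1), min (w j) (w l) - (L + 1) * (σ + 2 * Δ) ≤ Nb (Nat.totient n) σ (w j) := by
  refine le_trans (sub_le_sub_right (sum_le_sum fun l hl => ?_) _) (Nb_totient_ge hn hσ (hw j) hsq hN)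
  exact min_le_min_left _ (h l (Nat.lt_succ_iff.1 (mem_range.1 hl))).1

theorem vb3_sum {L n : ℕ} {w : ℕ → ℝ}
    (h : ∀ j, j ≤ L → w j ≤ lv (pl n) j ∧ lv (pl n) j ≤ w j + 1) :
    ∑ j ∈ Icc 1 L, aCoef j * lv (pl n) j ≤ ∑ j ∈ Icc 1 L, aCoef j * w j + (L : ℝ) ^ 2 := by
  have : (L : ℝ) ^ 2 = ∑ j ∈ Icc 1 L, (L : ℝ) := by simp [sq]
  rw [this, ← sum_add_distrib]
  refine sum_le_sum fun j hj => ?_
  obtain ⟨h1, h2⟩ := mem_Icc.1 hj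
  have h3 := mul_le_mul_of_nonneg_left (h j h2).2 (a_nonneg h1)
  have h4 : aCoef j ≤ L := (a_le j).trans (by exact_mod_cast h2)
  linarith

theorem vb3_Er {C Δ σ s : ℝ} (L : ℕ) (hC : 1 ≤ C) (hΔ : 0 ≤ Δ) (hσ : 0 ≤ σ) (hs : 0 ≤ s) :
    ((L : ℝ) + 1) * Real.log (s + 2) + (1 + (L : ℝ) ^ 2 + ((L + 1) * (σ + 2 * Δ) + C) * (L + 1)) ≤
      Er (C + 2) Δ σ s L := by
  have hl : 0 ≤ Real.log (s + 2) := Real.log_nonneg (by linarith)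
  have hL : (0 : ℝ) ≤ L := Nat.cast_nonneg L
  unfold Er
  set l := Real.log (s + 2)
  have h1 : ((L : ℝ) + 1) ≤ ((L : ℝ) + 1) ^ 2 := by nlinarith
  have h2 : 0 ≤ ((L : ℝ) + 1) ^ 2 := by positivity
  have h3 : 1 + (L : ℝ) ^ 2 ≤ ((L : ℝ) + 1) ^ 2 := by nlinarith
  have h4 : ((L : ℝ) + 1) * l ≤ ((L : ℝ) + 1) ^ 2 * l := mul_le_mul_of_nonneg_right h1 hl
  have h5 : C * ((L : ℝ) + 1) ≤ C * ((L : ℝ) + 1) ^ 2 := mul_le_mul_of_nonneg_left h1 (by linarith)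
  have h6 : 0 ≤ C * ((L : ℝ) + 1) ^ 2 * (σ + Δ + l) := by positivity
  have h7 : 0 ≤ ((L : ℝ) + 1) ^ 2 * σ := by positivity
  have h8 : 0 ≤ ((L : ℝ) + 1) ^ 2 * l := by positivity
  nlinarith

/-- Violation of Ford's inequality, logarithmic form.  Cover by the boxes `w j = ⌊lv (pl n) j⌋₊`
for `j ≤ L` (`w j = 0` for `j > L`; `sum_le_sum_cover`, `card_boxes`), and apply `VB1` with
smoothness `w 0 + 1` (`sm_nd`, `Sm.totient`), `E = (L + 1) (σ + 2 Δ)`;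
`∑ a_j w_j ≥ ∑ a_j lv_j - L²` (`a_le`). -/
theorem VB3 : ∃ C : ℝ, 1 ≤ C ∧ ∀ (Δ σ s e : ℝ) (L : ℕ) (A : Finset ℕ), 0 ≤ Δ → (L : ℝ) + 1 ≤ σ →
    0 ≤ s → (∀ v ∈ A, ∃ n : ℕ, n ≠ 0 ∧ Nat.totient n = v ∧ lv (pl n) 0 ≤ s ∧
      (∀ p : ℕ, p.Prime → σ ≤ LL p → ¬ p ^ 2 ∣ n) ∧
      (∀ j, j ≤ L → Normal Δ ((pl n).getD j 1)) ∧
      lv (pl n) 0 + e ≤ ∑ j ∈ Icc 1 L, aCoef j * lv (pl n) j) →
    ∑ v ∈ A, 1 / (v : ℝ) ≤ Real.exp (-e + Er C Δ σ s L) := by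
  obtain ⟨C, hC, H⟩ := VB1
  refine ⟨C + 2, by linarith, fun Δ σ s e L A hΔ hσ hs hA => ?_⟩
  have hσ0 : 0 ≤ σ := le_trans (by positivity) hσ
  refine le_trans (vb3_cover hs (Real.exp_pos (-e + (1 + (L : ℝ) ^ 2 +
      ((L + 1) * (σ + 2 * Δ) + C) * (L + 1)))).le L A (fun v => 1 / (v : ℝ)) (fun v => by positivity)
    (fun v n => n ≠ 0 ∧ Nat.totient n = v ∧ (∀ p : ℕ, p.Prime → σ ≤ LL p → ¬ p ^ 2 ∣ n) ∧
      (∀ j, j ≤ L → Normal Δ ((pl n).getD j 1)) ∧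
      lv (pl n) 0 + e ≤ ∑ j ∈ Icc 1 L, aCoef j * lv (pl n) j) (fun v hv => ?_) ?_) ?_
  · obtain ⟨n, h1, h2, h3, h4⟩ := hA v hv
    exact ⟨n, h3, h1, h2, h4⟩
  · intro w hw0 hw A' ⟨v0, hv0⟩ hA'
    refine le_trans (H σ (w 0 + 1) ((L + 1) * (σ + 2 * Δ)) L w A' hσ (by linarith [hw0 0])
      (by positivity) hw0 hw fun v hv => ?_) (Real.exp_le_exp.2 ?_)
    · obtain ⟨n, ⟨h1, rfl, h3, h4, -⟩, h6⟩ := hA' v hv
      refine ⟨?_, fun j _ => vb3_Nb h1 hσ0 hw0 h3 h4 h6 j⟩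
      have := sm_nd n 0
      rw [nd_zero h1] at this
      exact this.totient.mono (h6 0 (Nat.zero_le _)).2
    · obtain ⟨n, ⟨-, -, -, -, h5⟩, h6⟩ := hA' v0 hv0
      linarith [vb3_sum h6, (h6 0 (Nat.zero_le _)).1]
  · rw [← Real.exp_add, Real.exp_le_exp]
    linarith [vb3_Er L hC hΔ hσ0 hs]

/-- Counting form, from `VB2`. -/
theorem VB4 : ∃ C : ℝ, 1 ≤ C ∧ ∀ (Δ σ s e x : ℝ) (L : ℕ) (A : Finset ℕ), 0 ≤ Δ → (L : ℝ) + 1 ≤ σ →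
    0 ≤ s → 0 ≤ x → (∀ v ∈ A, (v : ℝ) ≤ x ∧ ∃ n : ℕ, n ≠ 0 ∧ Nat.totient n = v ∧ lv (pl n) 0 ≤ s ∧
      (∀ p : ℕ, p.Prime → σ ≤ LL p → ¬ p ^ 2 ∣ n) ∧
      (∀ j, j ≤ L → Normal Δ ((pl n).getD j 1)) ∧
      e ≤ ∑ j ∈ Icc 1 L, aCoef j * lv (pl n) j) →
    (A.card : ℝ) ≤ x * Real.exp (-e + Er C Δ σ s L) := by
  obtain ⟨C, hC, H⟩ := VB2
  refine ⟨C + 2, by linarith, fun Δ σ s e x L A hΔ hσ hs hx hA => ?_⟩
  have hσ0 : 0 ≤ σ := le_trans (by positivity) hσ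
  rw [card_eq_sum_ones, Nat.cast_sum, Nat.cast_one]
  refine le_trans (vb3_cover hs (mul_nonneg hx (Real.exp_pos (-e + (1 + (L : ℝ) ^ 2 +
      ((L + 1) * (σ + 2 * Δ) + C) * (L + 1)))).le) L A (fun _ => 1) (fun v => zero_le_one)
    (fun v n => (v : ℝ) ≤ x ∧ n ≠ 0 ∧ Nat.totient n = v ∧
      (∀ p : ℕ, p.Prime → σ ≤ LL p → ¬ p ^ 2 ∣ n) ∧
      (∀ j, j ≤ L → Normal Δ ((pl n).getD j 1)) ∧
      e ≤ ∑ j ∈ Icc 1 L, aCoef j * lv (pl n) j) (fun v hv => ?_) ?_) ?_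
  · obtain ⟨h0, n, h1, h2, h3, h4⟩ := hA v hv
    exact ⟨n, h3, h0, h1, h2, h4⟩
  · intro w hw0 hw A' ⟨v0, hv0⟩ hA'
    rw [sum_const, nsmul_eq_mul, mul_one]
    refine le_trans (H σ x ((L + 1) * (σ + 2 * Δ)) L w A' hσ hx
      (by positivity) hw0 hw fun v hv => ?_) (mul_le_mul_of_nonneg_left (Real.exp_le_exp.2 ?_) hx)
    · obtain ⟨n, ⟨h0, h1, rfl, h3, h4, -⟩, h6⟩ := hA' v hv
      exact ⟨(Nat.totient_pos.2 (Nat.pos_of_ne_zero h1)).ne', h0,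
        fun j _ => vb3_Nb h1 hσ0 hw0 h3 h4 h6 j⟩
    · obtain ⟨n, ⟨-, -, -, -, -, h5⟩, h6⟩ := hA' v0 hv0
      linarith [vb3_sum h6]
  · rw [mul_left_comm, ← Real.exp_add]
    refine mul_le_mul_of_nonneg_left (Real.exp_le_exp.2 ?_) hx
    linarith [vb3_Er L hC hΔ hσ0 hs]

/-- The error term at depth `d` is much smaller than `ϱ^(7 d)`. -/
theorem Er_small {ρ : ℝ} (h : Root ρ) (C C₁ : ℝ) : ∃ d₀ : ℕ, ∀ (d L : ℕ) (σ s : ℝ), d₀ ≤ d →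
    L ≤ d + 1 → 0 ≤ σ → σ ≤ vr ρ ^ (6 * d) → 0 ≤ s → s ≤ vr ρ ^ (11 * d) →
    Er C (vr ρ ^ (6 * d)) σ s L + C₁ * ((d : ℝ) + 1) ^ 2 ≤ vr ρ ^ (7 * d) := by
  have hv := vr_gt h
  have hl : 0 ≤ Real.log (vr ρ) := Real.log_nonneg hv.le
  obtain ⟨d₀, hd⟩ := poly_le_vr h (4 * |C| * (5 + 11 * Real.log (vr ρ)) + |C₁|) 3
  refine ⟨d₀, fun d L σ s h1 h2 h3 h4 h5 h6 => ?_⟩
  have hV := one_le_vr_pow h (6 * d)
  have hd0 : (0 : ℝ) ≤ d := Nat.cast_nonneg d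
  have a1 : Real.log (s + 2) ≤ 2 + 11 * d * Real.log (vr ρ) := by
    have := one_le_vr_pow h (11 * d)
    refine le_trans (Real.log_le_log (by linarith) (show s + 2 ≤ 3 * vr ρ ^ (11 * d) by linarith)) ?_
    rw [Real.log_mul (by norm_num) (by positivity), Real.log_pow]
    have := Real.log_le_sub_one_of_pos (show (0 : ℝ) < 3 by norm_num)
    push_cast
    linarith
  have a0 : 0 ≤ Real.log (s + 2) := Real.log_nonneg (by linarith)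
  have a2 : σ + vr ρ ^ (6 * d) + Real.log (s + 2) + 1 ≤
      vr ρ ^ (6 * d) * ((5 + 11 * Real.log (vr ρ)) * (d + 1)) := by
    have b1 : 3 + 11 * d * Real.log (vr ρ) ≤ vr ρ ^ (6 * d) * (3 + 11 * d * Real.log (vr ρ)) :=
      le_mul_of_one_le_left (by positivity) hV
    have b2 : vr ρ ^ (6 * d) * (5 + 11 * d * Real.log (vr ρ)) ≤
        vr ρ ^ (6 * d) * ((5 + 11 * Real.log (vr ρ)) * (d + 1)) :=
      mul_le_mul_of_nonneg_left (by nlinarith) (by positivity)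
    linarith
  have a3 : ((L : ℝ) + 1) ^ 2 ≤ 4 * ((d : ℝ) + 1) ^ 2 := by
    have : (L : ℝ) ≤ d + 1 := by exact_mod_cast h2
    have : (0 : ℝ) ≤ L := Nat.cast_nonneg L
    nlinarith
  have a4 : Er C (vr ρ ^ (6 * d)) σ s L ≤ |C| * (4 * ((d : ℝ) + 1) ^ 2) *
      (vr ρ ^ (6 * d) * ((5 + 11 * Real.log (vr ρ)) * (d + 1))) := by
    unfold Er
    refine le_trans (mul_le_mul_of_nonneg_right (mul_le_mul_of_nonneg_right (le_abs_self C)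
      (by positivity)) (by positivity)) ?_
    gcongr
  have a5 : C₁ * ((d : ℝ) + 1) ^ 2 ≤ vr ρ ^ (6 * d) * (|C₁| * ((d : ℝ) + 1) ^ 3) := by
    refine le_trans ?_ (le_mul_of_one_le_left (by positivity) hV)
    exact mul_le_mul (le_abs_self _) (pow_le_pow_right₀ (by linarith) (by norm_num)) (by positivity)
      (abs_nonneg _)
  have a6 := mul_le_mul_of_nonneg_left (hd d h1) (show 0 ≤ vr ρ ^ (6 * d) by positivity)
  rw [← pow_add, show 6 * d + d = 7 * d by ring] at a6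
  refine le_trans (add_le_add a4 a5) (le_trans (le_of_eq ?_) a6)
  ring

end Crest.Agent.R020
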