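import Crest.Agent.R020.Col0
import Crest.Agent.R020.VB3

set_option autoImplicit false

namespace Crest.Agent.R020

open Finset Filter Topology Crest.Agent.R008 Crest.Agent.R026 Crest.NumberTheoryR.TotientScale

theorem Col1_lv_le {s : ℝ} (hs : 0 ≤ s) {l : List ℕ} (h : ∀ p ∈ l, LL p ≤ s) (j : ℕ) :
    lv l j ≤ s := by
  by_cases hj : j < l.length
  · exact h _ (getD_mem hj)
  · rw [lv_of_le (not_lt.1 hj)]; exact hs

theorem Col1_cover {Δ σ s : ℝ} {L : ℕ} (hs : 0 ≤ s) (A : Finset ((List ℕ × ℕ) × (List ℕ × ℕ)))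
    (hA : ∀ q ∈ A, Side Δ σ s L q.1 ∧ Side Δ σ s L q.2) {D : ℝ} (hD : 0 ≤ D)
    (h : ∀ (a a' : ℕ) (w w' : ℕ → ℝ) (A' : Finset ((List ℕ × ℕ) × (List ℕ × ℕ))), A' ⊆ A →
      (∀ q ∈ A', q.1.1.length = a ∧
      q.2.1.length = a' ∧ (∀ j, w j = if j < a then (⌊lv q.1.1 j⌋₊ : ℝ) + 1 else 0) ∧
      ∀ j, w' j = if j < a' then (⌊lv q.2.1 j⌋₊ : ℝ) + 1 else 0) →
      ∑ q ∈ A', 1 / ((pm q.1.1 * q.1.2 : ℕ) : ℝ) ≤ D) :
    ∑ q ∈ A, 1 / ((pm q.1.1 * q.1.2 : ℕ) : ℝ) ≤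
      Real.exp (2 * L + 2 * L * Real.log (s + 2)) * D := by
  classical
  set B := Fintype.piFinset (fun _ : Fin L => range (⌊s⌋₊ + 1)) with hB
  have key := sum_le_sum_cover A ((range (L + 1) ×ˢ range (L + 1)) ×ˢ (B ×ˢ B))
    (fun q => 1 / ((pm q.1.1 * q.1.2 : ℕ) : ℝ)) (fun q _ => by positivity)
    (fun i q => q.1.1.length = i.1.1 ∧ q.2.1.length = i.1.2 ∧
      (∀ j : Fin L, i.2.1 j = ⌊lv q.1.1 j⌋₊) ∧ ∀ j : Fin L, i.2.2 j = ⌊lv q.2.1 j⌋₊)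
    (fun q hq => by
      obtain ⟨h1, h2⟩ := hA q hq
      refine ⟨((q.1.1.length, q.2.1.length), (fun j => ⌊lv q.1.1 j⌋₊, fun j => ⌊lv q.2.1 j⌋₊)),
        ?_, rfl, rfl, fun _ => rfl, fun _ => rfl⟩
      simp only [mem_product, mem_range, hB, Fintype.mem_piFinset, Nat.lt_succ_iff]
      exact ⟨⟨h1.1, h2.1⟩,
        fun j => Nat.floor_le_floor (Col1_lv_le hs (fun p hp => (h1.2.2.1 p hp).2.2) j),
        fun j => Nat.floor_le_floor (Col1_lv_le hs (fun p hp => (h2.2.2.1 p hp).2.2) j)⟩)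
    (fun _ => D)
    (fun i hi A' hA' hP => by
      simp only [mem_product, mem_range, Nat.lt_succ_iff] at hi
      refine h i.1.1 i.1.2
        (fun j => if hj : j < i.1.1 then (i.2.1 ⟨j, hj.trans_le hi.1.1⟩ : ℝ) + 1 else 0)
        (fun j => if hj : j < i.1.2 then (i.2.2 ⟨j, hj.trans_le hi.1.2⟩ : ℝ) + 1 else 0)
        A' hA' fun q hq => ?_
      obtain ⟨e1, e2, e3, e4⟩ := hP q hq
      refine ⟨e1, e2, fun j => ?_, fun j => ?_⟩
      · by_cases hj : j < i.1.1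
        · simp only [hj, dite_true, if_true, e3]
        · simp only [hj, dite_false, if_false]
      · by_cases hj : j < i.1.2
        · simp only [hj, dite_true, if_true, e4]
        · simp only [hj, dite_false, if_false])
  refine key.trans ?_
  rw [sum_const, nsmul_eq_mul]
  refine mul_le_mul_of_nonneg_right ?_ hD
  have hc := card_boxes L hs
  rw [← hB] at hc
  have hL : (L : ℝ) + 1 ≤ Real.exp L := Real.add_one_le_exp _
  simp only [card_product, card_range]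
  push_cast
  calc ((L : ℝ) + 1) * (L + 1) * ((B.card : ℝ) * B.card)
      ≤ (Real.exp L * Real.exp L) *
        (Real.exp (L * Real.log (s + 2)) * Real.exp (L * Real.log (s + 2))) := by gcongr
    _ = _ := by rw [← Real.exp_add, ← Real.exp_add, ← Real.exp_add]; congr 1; ring

theorem Col1_absorb {C c Δ σ s u : ℝ} {L : ℕ} (hΔ : 0 ≤ Δ) (hσ : 0 ≤ σ) (hs : 0 ≤ s) (hc : 0 ≤ c)
    (hu : u ≤ c * L + c * L * Real.log (s + 2)) (e : ℝ) :
    Real.exp u * Real.exp (-e + Er C Δ σ s L) ≤ Real.exp (-e + Er (C + c) Δ σ s L) := by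
  rw [← Real.exp_add]
  apply Real.exp_le_exp.2
  unfold Er
  have hl : 0 ≤ Real.log (s + 2) := Real.log_nonneg (by linarith)
  have hL : (0 : ℝ) ≤ L := Nat.cast_nonneg L
  have h1 : (L : ℝ) ≤ ((L : ℝ) + 1) ^ 2 := by nlinarith
  have h2 : (L : ℝ) * (Real.log (s + 2) + 1) ≤
      ((L : ℝ) + 1) ^ 2 * (σ + Δ + Real.log (s + 2) + 1) :=
    mul_le_mul h1 (by linarith) (by linarith) (by positivity)
  nlinarith [mul_le_mul_of_nonneg_left h2 hc]

/-- Disjoint lists: cover by the lengths `a, a' ≤ L` and the boxes `j ↦ ⌊lv · j⌋₊` on `Fin L`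
(`sum_le_sum_cover`, `card_boxes`): at most `(L + 1)² exp (2 L log (s + 2))` labels. -/
theorem col_disj : ∃ C : ℝ, 1 ≤ C ∧ ∀ (Δ σ s e : ℝ) (L : ℕ)
    (A : Finset ((List ℕ × ℕ) × (List ℕ × ℕ))), 0 ≤ Δ → 0 ≤ σ → 0 ≤ s →
    (∀ q ∈ A, Col Δ σ s e L q ∧ ∀ p ∈ q.1.1, p ∉ q.2.1) →
    ∑ q ∈ A, 1 / ((pm q.1.1 * q.1.2 : ℕ) : ℝ) ≤ Real.exp (-e + Er C Δ σ s L) ∧
    ∀ Λ Y T : ℝ, 1 ≤ T → s ≤ Λ + 2 → σ ≤ Λ - 2 * Δ - 4 → (∀ q ∈ A, ColTop Δ Λ Y T q) →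
      ∑ q ∈ A, 1 / ((pm q.1.1 * q.1.2 : ℕ) : ℝ) ≤
        (Real.log T + 1) * Real.exp (-Λ) * Real.exp (-e + Er C Δ σ s L) := by
  obtain ⟨C, hC, H⟩ := col_box
  refine ⟨C + 2, by linarith, fun Δ σ s e L A hΔ hσ hs hA => ⟨?_, ?_⟩⟩
  · refine (Col1_cover hs A (fun q hq => ⟨(hA q hq).1.1, (hA q hq).1.2.1⟩)
      (D := Real.exp (-e + Er C Δ σ s L)) (by positivity) fun a a' w w' A' hA' hq => ?_).trans
      (Col1_absorb hΔ hσ hs (by norm_num) le_rfl e)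
    exact (H Δ σ s e L a a' w w' A' hΔ hσ hs fun q hq' =>
      ⟨(hA q (hA' hq')).1, (hA q (hA' hq')).2, hq q hq'⟩).1
  · intro Λ Y T hT h1 h2 hTop
    have hF : 0 ≤ (Real.log T + 1) * Real.exp (-Λ) := by
      have := Real.log_nonneg hT
      positivity
    refine (Col1_cover hs A (fun q hq => ⟨(hA q hq).1.1, (hA q hq).1.2.1⟩)
      (D := (Real.log T + 1) * Real.exp (-Λ) * Real.exp (-e + Er C Δ σ s L)) (by positivity)
      fun a a' w w' A' hA' hq => ?_).trans ?_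
    · exact (H Δ σ s e L a a' w w' A' hΔ hσ hs fun q hq' =>
        ⟨(hA q (hA' hq')).1, (hA q (hA' hq')).2, hq q hq'⟩).2 Λ Y T hT h1 h2
        fun q hq' => hTop q (hA' hq')
    · rw [mul_left_comm]
      exact mul_le_mul_of_nonneg_left (Col1_absorb hΔ hσ hs (by norm_num) le_rfl e) hF

/-- The common primes. -/
def col1C (q : (List ℕ × ℕ) × (List ℕ × ℕ)) : List ℕ := q.1.1.filter (fun p => decide (p ∈ q.2.1))

/-- The pair without the common primes. -/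
def col1R (q : (List ℕ × ℕ) × (List ℕ × ℕ)) : (List ℕ × ℕ) × (List ℕ × ℕ) :=
  ((q.1.1.filter (fun p => !decide (p ∈ q.2.1)), q.1.2),
    (q.2.1.filter (fun p => !decide (p ∈ q.1.1)), q.2.2))

theorem Col1_head {l : List ℕ} {P : ℕ → Bool} (hl : l ≠ []) (h : P (l.getD 0 1) = true) :
    l.filter P ≠ [] ∧ (l.filter P).getD 0 1 = l.getD 0 1 := by
  cases l with
  | nil => exact absurd rfl hl
  | cons a t =>
    have ha : P a = true := by simpa using h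
    simp [List.filter_cons, ha]

theorem Col1_pm1 (q : (List ℕ × ℕ) × (List ℕ × ℕ)) :
    pm (col1C q) * pm (col1R q).1.1 = pm q.1.1 := pm_filter_mul _ _

theorem Col1_pm2 {q : (List ℕ × ℕ) × (List ℕ × ℕ)} (h1 : Dec q.1.1) (h2 : Dec q.2.1) :
    pm (col1C q) * pm (col1R q).2.1 = pm q.2.1 := by
  have : col1C q = q.2.1.filter (fun p => decide (p ∈ q.1.1)) := by
    refine Dec.ext (h1.sublist List.filter_sublist) (h2.sublist List.filter_sublist) fun p => ?_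
    simp only [col1C, List.mem_filter, decide_eq_true_eq]
    exact and_comm
  rw [this]
  exact pm_filter_mul _ _

theorem Col1_side {Δ σ s : ℝ} {L : ℕ} {u : List ℕ × ℕ} (h : Side Δ σ s L u) (P : ℕ → Bool) :
    Side Δ σ s L (u.1.filter P, u.2) :=
  ⟨(List.length_filter_le _ _).trans h.1, h.2.1.sublist List.filter_sublist,
    fun p hp => h.2.2.1 p (List.mem_of_mem_filter hp), h.2.2.2⟩

theorem Col1_pos {Δ σ s e : ℝ} {L : ℕ} {q : (List ℕ × ℕ) × (List ℕ × ℕ)} (h : Col Δ σ s e L q) :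
    0 < pm (col1C q) := pm_pos fun p hp => (h.1.2.2.1 p (List.mem_of_mem_filter hp)).1

theorem Col1_col {Δ σ s e : ℝ} {L : ℕ} {q : (List ℕ × ℕ) × (List ℕ × ℕ)} (h : Col Δ σ s e L q) :
    Col Δ σ s e L (col1R q) ∧ (∀ p ∈ (col1R q).1.1, p ∉ (col1R q).2.1) ∧
      lv (col1R q).1.1 0 = lv q.1.1 0 := by
  have hpos := Col1_pos h
  obtain ⟨h1, h2, h3, h4, h5, h6⟩ := h
  have hd : ∀ p ∈ (col1R q).1.1, p ∉ (col1R q).2.1 := by
    intro p hp hp'
    simp only [col1R, List.mem_filter, Bool.not_eq_true', decide_eq_false_iff_not] at hp hp'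
    exact hp.2 hp'.1
  obtain ⟨e1, e2⟩ := Col1_head (P := fun p => !decide (p ∈ q.2.1)) h4 (by simpa using h5)
  have e3 : lv (col1R q).1.1 0 = lv q.1.1 0 := by
    unfold lv; exact congrArg (fun n : ℕ => LL n) e2
  refine ⟨⟨Col1_side h1 _, Col1_side h2 _, ?_, e1, ?_, ?_⟩, hd, e3⟩
  · apply Nat.eq_of_mul_eq_mul_left hpos
    rw [← mul_assoc, ← mul_assoc, Col1_pm1, Col1_pm2 h1.2.1 h2.2.1]
    exact h3
  · exact hd _ (getD_mem (List.length_pos_iff.2 e1))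
  · rw [e3]
    refine le_trans ?_ h6
    refine add_le_add_left (sum_le_sum fun j hj => ?_) _
    exact mul_le_mul_of_nonneg_left (h1.2.1.lv_sublist List.filter_sublist j)
      (a_nonneg (mem_Icc.1 hj).1)

theorem Col1_top {Δ σ s e Λ Y T : ℝ} {L : ℕ} {q : (List ℕ × ℕ) × (List ℕ × ℕ)} (hΔ : 0 ≤ Δ)
    (hσ : 0 ≤ σ) (hΛ : σ ≤ Λ - 2 * Δ - 4) (h : Col Δ σ s e L q) (ht : ColTop Δ Λ Y T q) :
    ColTop Δ Λ (Y / pm (col1C q)) T (col1R q) := by
  have hpos : (0 : ℝ) < pm (col1C q) := by exact_mod_cast Col1_pos h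
  have e3 := (Col1_col h).2.2
  obtain ⟨h1, h2, h3, h4, h5, h6⟩ := h
  obtain ⟨t1, t2, t3, t4, t5, t6⟩ := ht
  have hlen : 0 < q.2.1.length := lt_length_of_lv_pos (by linarith)
  have hne : q.2.1 ≠ [] := List.length_pos_iff.1 hlen
  have hnot : q.2.1.getD 0 1 ∉ q.1.1 := by
    intro hm
    obtain ⟨j, -, hj2, hj3⟩ := exists_lv_of_mem hm
    rcases Nat.eq_zero_or_pos j with rfl | hj
    · exact h5 (hj2 ▸ getD_mem hlen)
    · have := h1.2.1.lv_anti (show 1 ≤ j from hj)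
      have e : lv q.2.1 0 = LL (q.2.1.getD 0 1 : ℕ) := rfl
      linarith
  obtain ⟨-, e2⟩ := Col1_head (P := fun p => !decide (p ∈ q.1.1)) hne (by simpa using hnot)
  have e4 : lv (col1R q).2.1 0 = lv q.2.1 0 := by
    unfold lv; exact congrArg (fun n : ℕ => LL n) e2
  have e5 : ((pm q.1.1 * q.1.2 : ℕ) : ℝ) =
      pm (col1C q) * ((pm (col1R q).1.1 * (col1R q).1.2 : ℕ) : ℝ) := by
    rw [← Col1_pm1 q]; push_cast; simp only [col1R]; ring
  refine ⟨e3 ▸ t1, e4 ▸ t2, (h1.2.1.lv_sublist List.filter_sublist 1).trans t3,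
    (h2.2.1.lv_sublist List.filter_sublist 1).trans t4, ?_, ?_⟩
  · rw [div_lt_iff₀ hpos, mul_comm, ← e5]; exact t5
  · rw [div_mul_eq_mul_div, le_div_iff₀ hpos, mul_comm, ← e5]; exact t6

theorem Col1_lists {s : ℝ} (hs : 0 ≤ s) (L : ℕ) (A : Finset (List ℕ))
    (hA : ∀ c ∈ A, c.length ≤ L ∧ ∀ p ∈ c, p.Prime ∧ LL p ≤ s) :
    ∑ c ∈ A, wt c ≤ Real.exp ((cM + 1) * L + (cM + 1) * L * Real.log (s + 2)) := by
  have hc := one_le_cM
  have key := sum_le_sum_cover A (range (L + 1)) wt (fun c _ => wt_nonneg c)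
    (fun k c => c.length = k) (fun c hc => ⟨_, mem_range.2 (Nat.lt_succ_of_le (hA c hc).1), rfl⟩)
    (fun k => (s + cM) ^ k) (fun k _ A' hA' hk => sum_lists_le (fun p => LL p ≤ s) (s + cM)
      (fun _ hB => mert_up0 hs hB) k A' fun l hl => ⟨hk l hl, (hA l (hA' hl)).2⟩)
  refine key.trans ?_
  have h1 : ∑ k ∈ range (L + 1), (s + cM) ^ k ≤ ∑ _k ∈ range (L + 1), (s + cM) ^ L :=
    sum_le_sum fun k hk => pow_le_pow_right₀ (by linarith) (Nat.lt_succ_iff.1 (mem_range.1 hk))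
  refine h1.trans ?_
  rw [sum_const, card_range, nsmul_eq_mul]
  have hl : 0 ≤ Real.log (s + 2) := Real.log_nonneg (by linarith)
  have hL : (0 : ℝ) ≤ L := Nat.cast_nonneg L
  have h2 : s + cM ≤ Real.exp (cM + Real.log (s + 2)) := by
    rw [Real.exp_add, Real.exp_log (by linarith)]
    have := Real.add_one_le_exp cM
    nlinarith
  have h3 : ((L + 1 : ℕ) : ℝ) ≤ Real.exp L := by push_cast; exact Real.add_one_le_exp _
  calc ((L + 1 : ℕ) : ℝ) * (s + cM) ^ L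
      ≤ Real.exp L * Real.exp (cM + Real.log (s + 2)) ^ L := by gcongr
    _ = Real.exp (L + L * (cM + Real.log (s + 2))) := by
        rw [← Real.exp_nat_mul, ← Real.exp_add]
    _ ≤ _ := by
        apply Real.exp_le_exp.2
        nlinarith [mul_nonneg (mul_nonneg (by linarith : 0 ≤ cM) hL) hl]

theorem Col1_reduce {Δ σ s e : ℝ} {L : ℕ} (hs : 0 ≤ s)
    (A : Finset ((List ℕ × ℕ) × (List ℕ × ℕ))) (hA : ∀ q ∈ A, Col Δ σ s e L q)
    (Q : List ℕ → (List ℕ × ℕ) × (List ℕ × ℕ) → Prop) (hQ : ∀ q ∈ A, Q (col1C q) (col1R q))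
    {D : ℝ} (hD : 0 ≤ D)
    (h : ∀ (c : List ℕ) (A' : Finset ((List ℕ × ℕ) × (List ℕ × ℕ))), (∀ q ∈ A', Q c q) →
      ∑ q ∈ A', 1 / ((pm q.1.1 * q.1.2 : ℕ) : ℝ) ≤ D) :
    ∑ q ∈ A, 1 / ((pm q.1.1 * q.1.2 : ℕ) : ℝ) ≤
      Real.exp ((cM + 1) * L + (cM + 1) * L * Real.log (s + 2)) * D := by
  refine sum_le_of_inj A (fun q => (col1C q, col1R q)) ?_ _
    (fun u => wt u.1 * (1 / ((pm u.2.1.1 * u.2.1.2 : ℕ) : ℝ))) ?_
    (fun u => (u.1.length ≤ L ∧ ∀ p ∈ u.1, p.Prime ∧ LL p ≤ s) ∧ Q u.1 u.2) ?_ _ ?_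
  · intro q hq q' hq' he
    have hq1 := hA q hq
    have hq2 := hA q' hq'
    simp only [Prod.mk.injEq, col1R] at he
    obtain ⟨e1, ⟨e2, e3⟩, e4, e5⟩ := he
    have m1 : ∀ p, (p ∈ q.1.1 ∧ p ∈ q.2.1) ↔ (p ∈ q'.1.1 ∧ p ∈ q'.2.1) := fun p => by
      have : p ∈ col1C q ↔ p ∈ col1C q' := by rw [e1]
      simpa only [col1C, List.mem_filter, decide_eq_true_eq] using this
    have m2 : ∀ p, (p ∈ q.1.1 ∧ p ∉ q.2.1) ↔ (p ∈ q'.1.1 ∧ p ∉ q'.2.1) := fun p => by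
      have := congrArg (fun l => p ∈ l) e2
      simpa only [List.mem_filter, Bool.not_eq_true', decide_eq_false_iff_not, eq_iff_iff]
        using this
    have m3 : ∀ p, (p ∈ q.2.1 ∧ p ∉ q.1.1) ↔ (p ∈ q'.2.1 ∧ p ∉ q'.1.1) := fun p => by
      have := congrArg (fun l => p ∈ l) e4
      simpa only [List.mem_filter, Bool.not_eq_true', decide_eq_false_iff_not, eq_iff_iff]
        using this
    have f1 : q.1.1 = q'.1.1 := Dec.ext hq1.1.2.1 hq2.1.2.1 fun p => by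
      have := m1 p; have := m2 p; tauto
    have f2 : q.2.1 = q'.2.1 := Dec.ext hq1.2.1.2.1 hq2.2.1.2.1 fun p => by
      have := m1 p; have := m3 p; tauto
    exact Prod.ext (Prod.ext f1 e3) (Prod.ext f2 e5)
  · intro q _
    apply le_of_eq
    simp only [wt]
    rw [← Col1_pm1 q, div_mul_div_comm, one_mul]
    push_cast
    simp only [col1R, mul_assoc]
  · intro q hq
    have hq1 := hA q hq
    exact ⟨⟨(List.length_filter_le _ _).trans hq1.1.1, fun p hp =>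
      ⟨(hq1.1.2.2.1 p (List.mem_of_mem_filter hp)).1,
        (hq1.1.2.2.1 p (List.mem_of_mem_filter hp)).2.2⟩⟩, hQ q hq⟩
  · intro S hS
    refine sum_fib_le S wt (fun _ q => 1 / ((pm q.1.1 * q.1.2 : ℕ) : ℝ)) (fun _ => D) _
      (fun c => c.length ≤ L ∧ ∀ p ∈ c, p.Prime ∧ LL p ≤ s) Q (fun c _ => wt_nonneg c)
      (fun A' hA' => ?_) (fun c _ A' hA' => h c A' hA') hS
    rw [← sum_mul]
    exact mul_le_mul_of_nonneg_right (Col1_lists hs L A' hA') hD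

/-- Cancel the common primes.  For `q = ((l, e₁), (l', e₂))` put `c = l.filter (· ∈ l')`,
`l₁ = l.filter (· ∉ l')`, `l₁' = l'.filter (· ∉ l)`.  Then `pm l = pm c * pm l₁`,
`pm l' = pm c * pm l₁'` (`pm_filter_mul`, `Dec.ext`), the head of `l` is the head of `l₁`,
`Dec.lv_sublist` preserves the slack, and `q ↦ (c, ((l₁, e₁), (l₁', e₂)))` is injective
(`Dec.ext`).  The lists `c` have length `≤ L` and total weight
`≤ ∑_{k ≤ L} (s + cM)^k` (`sum_lists_le`, `mert_up0`).  In the second part the head of `l'` is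
not in `l` either (its `LL` exceeds `lv l 1`, and it differs from the head of `l`), and `Y` is
replaced by `Y / pm c` (`sum_fib_le`). -/
theorem col : ∃ C : ℝ, 1 ≤ C ∧ ∀ (Δ σ s e : ℝ) (L : ℕ)
    (A : Finset ((List ℕ × ℕ) × (List ℕ × ℕ))), 0 ≤ Δ → 0 ≤ σ → 0 ≤ s →
    (∀ q ∈ A, Col Δ σ s e L q) →
    ∑ q ∈ A, 1 / ((pm q.1.1 * q.1.2 : ℕ) : ℝ) ≤ Real.exp (-e + Er C Δ σ s L) ∧
    ∀ Λ Y T : ℝ, 1 ≤ T → s ≤ Λ + 2 → σ ≤ Λ - 2 * Δ - 4 → (∀ q ∈ A, ColTop Δ Λ Y T q) →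
      ∑ q ∈ A, 1 / ((pm q.1.1 * q.1.2 : ℕ) : ℝ) ≤
        (Real.log T + 1) * Real.exp (-Λ) * Real.exp (-e + Er C Δ σ s L) := by
  obtain ⟨C, hC, H⟩ := col_disj
  have hc := one_le_cM
  refine ⟨C + (cM + 1), by linarith, fun Δ σ s e L A hΔ hσ hs hA => ⟨?_, ?_⟩⟩
  · refine (Col1_reduce hs A hA (fun _ q => Col Δ σ s e L q ∧ ∀ p ∈ q.1.1, p ∉ q.2.1)
      (fun q hq => ⟨(Col1_col (hA q hq)).1, (Col1_col (hA q hq)).2.1⟩)
      (D := Real.exp (-e + Er C Δ σ s L)) (by positivity)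
      fun c A' hA' => (H Δ σ s e L A' hΔ hσ hs hA').1).trans
      (Col1_absorb hΔ hσ hs (by linarith) le_rfl e)
  · intro Λ Y T hT h1 h2 hTop
    have hF : 0 ≤ (Real.log T + 1) * Real.exp (-Λ) := by
      have := Real.log_nonneg hT
      positivity
    refine (Col1_reduce hs A hA (fun c q => (Col Δ σ s e L q ∧ ∀ p ∈ q.1.1, p ∉ q.2.1) ∧
        ColTop Δ Λ (Y / pm c) T q)
      (fun q hq => ⟨⟨(Col1_col (hA q hq)).1, (Col1_col (hA q hq)).2.1⟩,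
        Col1_top hΔ hσ h2 (hA q hq) (hTop q hq)⟩)
      (D := (Real.log T + 1) * Real.exp (-Λ) * Real.exp (-e + Er C Δ σ s L)) (by positivity)
      fun c A' hA' => (H Δ σ s e L A' hΔ hσ hs fun q hq => (hA' q hq).1).2 Λ _ T hT h1 h2
        fun q hq => (hA' q hq).2).trans ?_
    rw [mul_left_comm]
    exact mul_le_mul_of_nonneg_left (Col1_absorb hΔ hσ hs (by linarith) le_rfl e) hF

end Crest.Agent.R020
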