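import Crest.Agent.R020.Bas1
import Crest.Agent.R008.Mertens

set_option autoImplicit false

namespace Crest.Agent.R020

open Finset Filter Topology Crest.Agent.R008 Crest.Agent.R026 Crest.NumberTheoryR.TotientScale

theorem mert_aux_tail (A : Finset ℕ) : ∀ X : ℝ, 1 < X → (∀ n ∈ A, X ≤ n) →
    ∑ n ∈ A, 1 / ((n : ℝ) * ((n : ℝ) - 1)) ≤ 1 / (X - 1) := by
  induction A using Finset.induction_on_min with
  | empty => intro X hX _; simp only [sum_empty]; exact div_nonneg zero_le_one (by linarith)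
  | insert a A ha ih =>
    intro X hX h
    have h1 : X ≤ a := h a (mem_insert_self _ _)
    have h2 := ih ((a : ℝ) + 1) (by linarith) fun n hn => by exact_mod_cast ha n hn
    rw [sum_insert fun h => lt_irrefl _ (ha a h)]
    have h3 : (0 : ℝ) < a - 1 := by linarith
    have h4 : (0 : ℝ) < a := by linarith
    have h5 : 1 / ((a : ℝ) * (a - 1)) + 1 / ((a : ℝ) + 1 - 1) = 1 / ((a : ℝ) - 1) := by
      rw [add_sub_cancel_right]
      field_simp
      ring
    have h6 : 1 / ((a : ℝ) - 1) ≤ 1 / (X - 1) :=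
      one_div_le_one_div_of_le (by linarith) (by linarith)
    linarith

theorem mert_aux_two (w : ℝ) (hw : 0 ≤ w) : 2 < Real.exp (Real.exp w) :=
  lt_of_lt_of_le (lt_trans (by norm_num) Real.exp_one_gt_d9)
    (Real.exp_le_exp.2 (Real.one_le_exp hw))

theorem mert_aux_inv {p : ℕ} (hp : p.Prime) : 1 / (p : ℝ) ≤ 1 / ((p : ℝ) - 1) := by
  have : (2 : ℝ) ≤ p := by exact_mod_cast hp.two_le
  exact one_div_le_one_div_of_le (by linarith) (by linarith)

theorem mert_aux_pow (j : ℕ) {s s' : ℝ} (h0 : 0 ≤ s) (h : s ≤ s') :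
    (j + 1) * ((s' - s) * s ^ j) ≤ s' ^ (j + 1) - s ^ (j + 1) ∧
      s' ^ (j + 1) - s ^ (j + 1) ≤ (j + 1) * ((s' - s) * s' ^ j) := by
  induction j with
  | zero => simp
  | succ j ih =>
    obtain ⟨h1, h2⟩ := ih
    have e : s' ^ (j + 1 + 1) - s ^ (j + 1 + 1) =
        s' * (s' ^ (j + 1) - s ^ (j + 1)) + (s' - s) * s ^ (j + 1) := by ring
    have h3 : s ^ (j + 1) ≤ s' ^ (j + 1) := pow_le_pow_left₀ h0 h _
    have h4 : 0 ≤ s' - s := sub_nonneg.2 h
    push_cast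
    rw [e]
    constructor
    · have a1 := mul_le_mul_of_nonneg_left h1 h0
      have a2 := mul_le_mul_of_nonneg_right h (sub_nonneg.2 h3)
      calc _ = s * ((j + 1) * ((s' - s) * s ^ j)) + (s' - s) * s ^ (j + 1) := by ring
        _ ≤ _ := by linarith
    · have a1 := mul_le_mul_of_nonneg_left h2 (h0.trans h)
      have a2 := mul_le_mul_of_nonneg_left h3 h4
      calc _ ≤ s' * ((j + 1) * ((s' - s) * s' ^ j)) + (s' - s) * s' ^ (j + 1) := by linarith
        _ = _ := by ring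

/-- Mertens' theorem on the `LL` scale (from `mertens2`; `1 / (p - 1) - 1 / p ≤ 2 / p ^ 2`).
For the upper bound use `x = max 2 (exp (exp τ) / 2)` or treat the boundary separately. -/
theorem mertLL : ∃ C : ℝ, 1 ≤ C ∧
    (∀ (τ w : ℝ) (A : Finset ℕ), τ ≤ w → (∀ p ∈ A, p.Prime ∧ τ ≤ LL p ∧ LL p ≤ w) →
      ∑ p ∈ A, 1 / ((p : ℝ) - 1) ≤ w - τ + C) ∧
    (∀ τ w : ℝ, 0 ≤ τ → w - τ - C ≤ ∑ p ∈ PL w, ind (τ < LL p) / (p : ℝ)) := by
  classical
  obtain ⟨C, hC, hM⟩ := mertens2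
  have key : ∀ τ w : ℝ, 0 ≤ τ → τ ≤ w →
      |∑ p ∈ primesIoc (Real.exp (Real.exp τ)) (Real.exp (Real.exp w)), (1 : ℝ) / p - (w - τ)| ≤
        C := by
    intro τ w h0 h
    simpa only [Real.log_exp] using hM _ _ (mert_aux_two τ h0).le
      (Real.exp_le_exp.2 (Real.exp_le_exp.2 h))
  refine ⟨C + 2, by linarith, fun τ w A h hA => ?_, fun τ w h => ?_⟩
  · rcases A.eq_empty_or_nonempty with rfl | ⟨p₀, hp₀⟩
    · simp only [sum_empty]; linarith
    have hw : 0 ≤ w := (LL_nonneg _).trans (hA p₀ hp₀).2.2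
    have h1 := (abs_le.1 (key (max τ 0) w (le_max_right _ _) (max_le h hw))).2
    set x := Real.exp (Real.exp (max τ 0)) with hx
    have hx0 : 0 ≤ x := (Real.exp_pos _).le
    have hsub : A.erase ⌊x⌋₊ ⊆ primesIoc x (Real.exp (Real.exp w)) := by
      intro p hp
      obtain ⟨hne, hpA⟩ := mem_erase.1 hp
      obtain ⟨hpp, hp1, hp2⟩ := hA p hpA
      refine (mem_primesIoc hx0 (Real.exp_pos _).le).2 ⟨hpp, ?_, le_exp_of_LL hp2⟩
      by_contra hle
      rw [not_lt] at hle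
      have h2 : p + 1 ≤ ⌊x⌋₊ := Nat.succ_le_of_lt (lt_of_le_of_ne (Nat.le_floor hle) hne)
      have h3 : (p : ℝ) + 1 ≤ x := le_trans (by exact_mod_cast h2) (Nat.floor_le hx0)
      have h4 : (2 : ℝ) ≤ p := by exact_mod_cast hpp.two_le
      rcases le_or_gt τ 0 with h5 | h5
      · rw [hx, max_eq_right h5, Real.exp_zero] at h3
        linarith [Real.exp_one_lt_d9]
      · have := exp_le_of_LL (by linarith) h5 hp1
        rw [hx, max_eq_left h5.le] at h3
        linarith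
    have h2 : ∑ p ∈ A, (1 : ℝ) / p ≤ 1 + ∑ p ∈ A.erase ⌊x⌋₊, (1 : ℝ) / p := by
      by_cases hm : ⌊x⌋₊ ∈ A
      · rw [← add_sum_erase _ _ hm]
        have : (1 : ℝ) ≤ (⌊x⌋₊ : ℕ) := by exact_mod_cast (hA _ hm).1.one_le
        have := (div_le_one (by linarith)).2 this
        linarith
      · rw [erase_eq_of_notMem hm]
        linarith
    have h3 : ∑ p ∈ A.erase ⌊x⌋₊, (1 : ℝ) / p ≤
        ∑ p ∈ primesIoc x (Real.exp (Real.exp w)), (1 : ℝ) / p :=
      sum_le_sum_of_subset_of_nonneg hsub fun _ _ _ => by positivity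
    have h4 := mert_aux_tail A 2 one_lt_two fun p hp => by exact_mod_cast (hA p hp).1.two_le
    have h5 : ∑ p ∈ A, 1 / ((p : ℝ) - 1) =
        ∑ p ∈ A, (1 : ℝ) / p + ∑ p ∈ A, 1 / ((p : ℝ) * ((p : ℝ) - 1)) := by
      rw [← sum_add_distrib]
      refine sum_congr rfl fun p hp => ?_
      have h6 : (2 : ℝ) ≤ p := by exact_mod_cast (hA p hp).1.two_le
      have h7 : (p : ℝ) - 1 ≠ 0 := by linarith
      have h8 : (p : ℝ) ≠ 0 := by linarith
      field_simp
      ring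
    have h6 := le_max_left τ 0
    norm_num at h4
    simp only [one_div, mul_inv_rev] at h1 h2 h3 h5 ⊢
    linarith
  · have hnn : ∀ p : ℕ, 0 ≤ ind (τ < LL p) / (p : ℝ) := fun p =>
      div_nonneg (ind_nonneg _) (Nat.cast_nonneg _)
    rcases le_or_gt w τ with hw | hw
    · exact le_trans (by linarith) (sum_nonneg fun p _ => hnn p)
    have h1 := (abs_le.1 (key τ w h hw.le)).1
    have h2 : ∑ p ∈ primesIoc (Real.exp (Real.exp τ)) (Real.exp (Real.exp w)), (1 : ℝ) / p =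
        ∑ p ∈ primesIoc (Real.exp (Real.exp τ)) (Real.exp (Real.exp w)),
          ind (τ < LL p) / (p : ℝ) := by
      refine sum_congr rfl fun p hp => ?_
      have := ((mem_primesIoc (Real.exp_pos _).le (Real.exp_pos _).le).1 hp).2.1
      rw [ind_pos (lt_of_not_ge fun hle => absurd (le_exp_of_LL hle) (not_le.2 this))]
    have h3 : ∑ p ∈ primesIoc (Real.exp (Real.exp τ)) (Real.exp (Real.exp w)),
          ind (τ < LL p) / (p : ℝ) ≤ ∑ p ∈ PL w, ind (τ < LL p) / (p : ℝ) := by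
      refine sum_le_sum_of_subset_of_nonneg (fun p hp => ?_) fun p _ _ => hnn p
      obtain ⟨hpp, -, hp2⟩ := (mem_primesIoc (Real.exp_pos _).le (Real.exp_pos _).le).1 hp
      exact mem_PL.2 ⟨hpp, LL_le_of_le_exp (by exact_mod_cast hpp.one_le) (h.trans hw.le) hp2⟩
    linarith

/-- The constant of Mertens' theorem. -/
noncomputable def cM : ℝ := Classical.choose mertLL

theorem one_le_cM : 1 ≤ cM := (Classical.choose_spec mertLL).1

theorem mert_up {τ w : ℝ} (h : τ ≤ w) {A : Finset ℕ}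
    (hA : ∀ p ∈ A, p.Prime ∧ τ ≤ LL p ∧ LL p ≤ w) : ∑ p ∈ A, 1 / ((p : ℝ) - 1) ≤ w - τ + cM :=
  (Classical.choose_spec mertLL).2.1 τ w A h hA

theorem mert_lo {τ : ℝ} (w : ℝ) (h : 0 ≤ τ) :
    w - τ - cM ≤ ∑ p ∈ PL w, ind (τ < LL p) / (p : ℝ) :=
  (Classical.choose_spec mertLL).2.2 τ w h

theorem mert_up0 {w : ℝ} (h : 0 ≤ w) {A : Finset ℕ} (hA : ∀ p ∈ A, p.Prime ∧ LL p ≤ w) :
    ∑ p ∈ A, 1 / ((p : ℝ) - 1) ≤ w + cM := by
  simpa using mert_up h (A := A) fun p hp => ⟨(hA p hp).1, LL_nonneg _, (hA p hp).2⟩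

theorem mert_PL_le {w : ℝ} (h : 0 ≤ w) : ∑ p ∈ PL w, 1 / (p : ℝ) ≤ w + cM := by
  exact (sum_le_sum fun p hp => mert_aux_inv (mem_PL.1 hp).1).trans
    (mert_up0 h fun p hp => mem_PL.1 hp)

theorem mert_PL_ge (w : ℝ) : w - cM ≤ ∑ p ∈ PL w, 1 / (p : ℝ) := by
  have := mert_lo (τ := 0) w le_rfl
  rw [sub_zero] at this
  exact this.trans (sum_le_sum fun p _ =>
    div_le_div_of_nonneg_right (ind_le_one _) (Nat.cast_nonneg _))

/-- `∑_{p ∈ A} 1 / p ≤ min w s + cM` with an indicator. -/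
theorem mert_ind_le {w : ℝ} (h : 0 ≤ w) {A : Finset ℕ} (hA : ∀ p ∈ A, p.Prime) :
    ∑ p ∈ A, ind (LL p ≤ w) / (p : ℝ) ≤ w + cM := by
  classical
  have e : ∑ p ∈ A, ind (LL p ≤ w) / (p : ℝ) = ∑ p ∈ A.filter (fun p : ℕ => LL p ≤ w), 1 / (p : ℝ) := by
    rw [← sum_ind_mul]
    exact sum_congr rfl fun p _ => by rw [mul_one_div]
  rw [e]
  exact (sum_le_sum fun p hp => mert_aux_inv (hA p (mem_filter.1 hp).1)).trans
    (mert_up0 h fun p hp => ⟨hA p (mem_filter.1 hp).1, (mem_filter.1 hp).2⟩)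

theorem sum_inv_sq_primes {A : Finset ℕ} (hA : ∀ p ∈ A, p.Prime) :
    ∑ p ∈ A, (1 / (p : ℝ)) ^ 2 ≤ 1 := by
  have := sum_inv_sq_le 2 one_le_two A fun p hp => by exact_mod_cast (hA p hp).two_le
  simpa using this

/-- `∑_{n ≥ X} 1 / (n (n - 1)) ≤ 1 / (X - 1) ≤ 2 / X` with `X = exp (exp σ) ≥ 2`. -/
theorem sum_inv_sq_tail {σ : ℝ} (h : 0 < σ) {A : Finset ℕ} (hA : ∀ p ∈ A, p.Prime ∧ σ ≤ LL p) :
    ∑ p ∈ A, 1 / ((p : ℝ) * ((p : ℝ) - 1)) ≤ 2 * Real.exp (-Real.exp σ) := by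
  have h2 := mert_aux_two σ h.le
  refine (mert_aux_tail A _ (by linarith) fun p hp =>
    exp_le_of_LL (by exact_mod_cast (hA p hp).1.one_le) h (hA p hp).2).trans ?_
  rw [Real.exp_neg, ← div_eq_mul_inv, div_le_div_iff₀ (by linarith) (by linarith)]
  linarith

theorem Vp_nonneg (k : ℕ) (s : ℝ) : 0 ≤ Vp k s := by
  unfold Vp
  split_ifs with h
  · positivity
  · exact le_rfl

theorem Vp_mono (k : ℕ) {s s' : ℝ} (h : s ≤ s') : Vp k s ≤ Vp k s' := by
  by_cases h0 : 0 ≤ s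
  · unfold Vp
    rw [if_pos h0, if_pos (h0.trans h)]
    exact div_le_div_of_nonneg_right (pow_le_pow_left₀ h0 h k) (Nat.cast_nonneg _)
  · refine le_trans ?_ (Vp_nonneg k s')
    unfold Vp
    rw [if_neg h0]

theorem mert_aux_Vp_nonpos (j : ℕ) {s : ℝ} (h : s ≤ 0) : Vp (j + 1) s = 0 := by
  unfold Vp
  split_ifs with h0
  · rw [le_antisymm h h0]
    simp
  · rfl

theorem mert_aux_step (j : ℕ) {s s' : ℝ} (h0 : 0 ≤ s) (h : s ≤ s') :
    (s' - s) * Vp j s ≤ Vp (j + 1) s' - Vp (j + 1) s ∧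
      Vp (j + 1) s' - Vp (j + 1) s ≤ (s' - s) * Vp j s' := by
  obtain ⟨h1, h2⟩ := mert_aux_pow j h0 h
  have hf : (0 : ℝ) < j.factorial := by exact_mod_cast j.factorial_pos
  have hj : (0 : ℝ) < j + 1 := by positivity
  unfold Vp
  simp only [if_pos h0, if_pos (h0.trans h), Nat.factorial_succ]
  push_cast
  rw [← sub_div, ← mul_div_assoc, ← mul_div_assoc, div_le_div_iff₀ hf (mul_pos hj hf),
    div_le_div_iff₀ (mul_pos hj hf) hf]
  constructor <;> nlinarith

/-- Convexity: `Vp j` is the derivative of `Vp (j + 1)`. -/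
theorem Vp_step (j : ℕ) {s s' : ℝ} (h : s ≤ s') :
    (s' - s) * Vp j s ≤ Vp (j + 1) s' - Vp (j + 1) s ∧
      Vp (j + 1) s' - Vp (j + 1) s ≤ (s' - s) * Vp j s' := by
  by_cases h0 : 0 ≤ s
  · exact mert_aux_step j h0 h
  have hs : Vp j s = 0 := by unfold Vp; rw [if_neg h0]
  rw [not_le] at h0
  rw [hs, mert_aux_Vp_nonpos j h0.le, mul_zero, sub_zero]
  refine ⟨Vp_nonneg _ _, ?_⟩
  rcases le_total s' 0 with h1 | h1
  · rw [mert_aux_Vp_nonpos j h1]
    exact mul_nonneg (sub_nonneg.2 h) (Vp_nonneg _ _)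
  · have h2 := (mert_aux_step j le_rfl h1).2
    rw [mert_aux_Vp_nonpos j le_rfl, sub_zero] at h2
    exact h2.trans (mul_le_mul_of_nonneg_right (by linarith) (Vp_nonneg _ _))

/-- Sums of a monotone function over primes, upper bound.
Let `F u = Vp (j + 1) (s - c u) / c` and `M(A) = ∑_{p ∈ A} 1 / (p - 1)`.  Induction on `A`
(`Finset.induction_on_max`) for `∑ ≤ F (τ - cM) - F (τ - cM + M(A))`: for the largest prime `p`,
`τ - cM + M(A) ≤ LL p` by `mert_up`. -/
theorem mon_up (j : ℕ) {c : ℝ} (hc : 0 < c) (s τ : ℝ) {A : Finset ℕ}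
    (hA : ∀ p ∈ A, p.Prime ∧ τ ≤ LL p) :
    ∑ p ∈ A, Vp j (s - c * LL p) / ((p : ℝ) - 1) ≤ Vp (j + 1) (s - c * (τ - cM)) / c := by
  have key : ∀ A : Finset ℕ, (∀ p ∈ A, p.Prime ∧ τ ≤ LL p) →
      c * ∑ p ∈ A, Vp j (s - c * LL p) / ((p : ℝ) - 1) ≤ Vp (j + 1) (s - c * (τ - cM)) -
        Vp (j + 1) (s - c * (τ - cM + ∑ p ∈ A, 1 / ((p : ℝ) - 1))) := by
    intro A
    induction A using Finset.induction_on_max with
    | empty => intro _; simp
    | insert a A ha ih =>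
      intro hA
      have hna : a ∉ A := fun h => lt_irrefl _ (ha a h)
      have h1 := ih fun p hp => hA p (mem_insert_of_mem hp)
      obtain ⟨hap, hτ⟩ := hA a (mem_insert_self _ _)
      have h2 := mert_up hτ (A := insert a A) fun p hp => ⟨(hA p hp).1, (hA p hp).2,
        LL_mono_nat (by
          rcases mem_insert.1 hp with rfl | hp
          · exact le_rfl
          · exact (ha p hp).le)⟩
      rw [sum_insert hna] at h2 ⊢
      rw [sum_insert hna]
      set M := ∑ p ∈ A, 1 / ((p : ℝ) - 1)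
      have h3 : (2 : ℝ) ≤ a := by exact_mod_cast hap.two_le
      have h4 : 0 < 1 / ((a : ℝ) - 1) := one_div_pos.2 (by linarith)
      set e := 1 / ((a : ℝ) - 1) with he
      have h5 := (Vp_step j (s := s - c * (τ - cM + (e + M))) (s' := s - c * (τ - cM + M))
        (by nlinarith)).1
      have h6 : Vp j (s - c * LL a) ≤ Vp j (s - c * (τ - cM + (e + M))) :=
        Vp_mono j (by nlinarith)
      have h7 := mul_le_mul_of_nonneg_left h6 (mul_pos hc h4).le
      rw [div_eq_mul_one_div (Vp j (s - c * LL a)), ← he]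
      nlinarith
  rw [le_div_iff₀ hc, mul_comm]
  linarith [key A hA, Vp_nonneg (j + 1) (s - c * (τ - cM + ∑ p ∈ A, 1 / ((p : ℝ) - 1)))]

/-- Lower bound.  With `A_N` the primes `p < N` of `PL w` with `τ < LL p`, and
`M(A) = ∑ 1 / p`, show `F (τ + cM) - F (τ + cM + M(A_N)) ≤ ∑_{A_N}` by induction on `N`; when the
prime `p` is added, `LL p ≤ τ + cM + M(A_p)`: apply `mert_lo` to all `u < LL p`
(`le_of_forall_lt`; `LL` is strictly increasing where it is positive, but only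
`LL r ≤ u < LL p → r < p` is needed).  Finally `F (τ + cM + M) = 0` since `τ + cM + M ≥ w`. -/
theorem mon_lo (j : ℕ) {c s τ w : ℝ} (hc : 0 < c) (hτ : 0 ≤ τ) (hs : s ≤ c * w) :
    Vp (j + 1) (s - c * (τ + cM)) / c ≤
      ∑ p ∈ PL w, ind (τ < LL p) * (Vp j (s - c * LL p) / ((p : ℝ) - 1)) := by
  classical
  set P := (PL w).filter (fun p : ℕ => τ < LL p) with hP
  have hsum : ∀ v : ℝ, ∑ p ∈ PL v, ind (τ < LL p) / (p : ℝ) =
      ∑ p ∈ (PL v).filter (fun p : ℕ => τ < LL p), 1 / (p : ℝ) := fun v => by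
    rw [← sum_ind_mul]
    exact sum_congr rfl fun p _ => by rw [mul_one_div]
  have key : ∀ A : Finset ℕ, A ⊆ P → (∀ p ∈ A, ∀ r ∈ P, r < p → r ∈ A) →
      Vp (j + 1) (s - c * (τ + cM)) - Vp (j + 1) (s - c * (τ + cM + ∑ p ∈ A, 1 / (p : ℝ))) ≤
        c * ∑ p ∈ A, Vp j (s - c * LL p) / ((p : ℝ) - 1) := by
    intro A
    induction A using Finset.induction_on_max with
    | empty => intro _ _; simp
    | insert a A ha ih =>
      intro hA hd
      have hna : a ∉ A := fun h => lt_irrefl _ (ha a h)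
      have h1 := ih ((subset_insert _ _).trans hA) fun p hp r hr hrp =>
        (mem_insert.1 (hd p (mem_insert_of_mem hp) r hr hrp)).resolve_left
          (hrp.trans (ha p hp)).ne
      obtain ⟨hap, haw⟩ := mem_PL.1 (mem_filter.1 (hA (mem_insert_self _ _))).1
      have h2 : LL a ≤ τ + cM + ∑ p ∈ A, 1 / (p : ℝ) := by
        refine le_of_forall_lt_imp_le_of_dense fun v hv => ?_
        have h3 := mert_lo v hτ
        rw [hsum] at h3
        have h4 : ∑ p ∈ (PL v).filter (fun p : ℕ => τ < LL p), 1 / (p : ℝ) ≤ ∑ p ∈ A, 1 / (p : ℝ) := by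
          refine sum_le_sum_of_subset_of_nonneg (fun r hr => ?_) fun _ _ _ => by positivity
          obtain ⟨hr1, hr2⟩ := mem_filter.1 hr
          obtain ⟨hr3, hr4⟩ := mem_PL.1 hr1
          have hra : r < a := lt_of_LL_lt (hr4.trans_lt hv)
          exact (mem_insert.1 (hd a (mem_insert_self _ _) r
            (mem_filter.2 ⟨mem_PL.2 ⟨hr3, hr4.trans (hv.le.trans haw)⟩, hr2⟩) hra)).resolve_left hra.ne
        linarith
      rw [sum_insert hna, sum_insert hna]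
      set M := ∑ p ∈ A, 1 / (p : ℝ)
      have h4 : 0 < 1 / (a : ℝ) := one_div_pos.2 (by exact_mod_cast hap.pos)
      have h8 := mert_aux_inv hap
      rw [div_eq_mul_one_div (Vp j (s - c * LL a))]
      set e := 1 / (a : ℝ) with he
      set e' := 1 / ((a : ℝ) - 1) with he'
      have h5 := (Vp_step j (s := s - c * (τ + cM + (e + M))) (s' := s - c * (τ + cM + M))
        (by nlinarith)).2
      have h6 : Vp j (s - c * (τ + cM + M)) ≤ Vp j (s - c * LL a) := Vp_mono j (by nlinarith)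
      have h7 := mul_le_mul_of_nonneg_left h6 (mul_pos hc h4).le
      have h9 := mul_le_mul_of_nonneg_left h8 (mul_nonneg hc.le (Vp_nonneg j (s - c * LL a)))
      nlinarith
  have h1 := key P subset_rfl fun _ _ r hr _ => hr
  have h2 := mert_lo w hτ
  rw [hsum, ← hP] at h2
  rw [mert_aux_Vp_nonpos j (s := s - c * (τ + cM + ∑ p ∈ P, 1 / (p : ℝ))) (by nlinarith),
    sub_zero] at h1
  rw [sum_ind_mul, div_le_iff₀' hc]
  exact h1

end Crest.Agent.R020
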