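import Crest.Agent.R020.Defs

set_option autoImplicit false

namespace Crest.Agent.R020

open Finset Filter Topology Crest.Agent.R008 Crest.Agent.R026 Crest.NumberTheoryR.TotientScale

/-! ### `LL` -/

theorem LL_nonneg (y : ℝ) : 0 ≤ LL y := le_max_left _ _

theorem bas1_le_iff {y w : ℝ} (hy : 1 < y) :
    Real.log (Real.log y) ≤ w ↔ y ≤ Real.exp (Real.exp w) := by
  rw [Real.log_le_iff_le_exp (Real.log_pos hy), Real.log_le_iff_le_exp (by linarith)]

theorem bas1_ge_iff {y w : ℝ} (hy : 1 < y) :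
    w ≤ Real.log (Real.log y) ↔ Real.exp (Real.exp w) ≤ y := by
  rw [Real.le_log_iff_exp_le (Real.log_pos hy), Real.le_log_iff_exp_le (by linarith)]

theorem bas1_one_lt (w : ℝ) : 1 < Real.exp (Real.exp w) := Real.one_lt_exp_iff.2 (Real.exp_pos w)

theorem LL_mono {y y' : ℝ} (hy : 1 ≤ y) (h : y ≤ y') : LL y ≤ LL y' := by
  rcases hy.eq_or_lt with rfl | hy
  · simp [LL]
  · exact max_le_max le_rfl (Real.log_le_log (Real.log_pos hy) (Real.log_le_log (by linarith) h))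

theorem LL_one : LL 1 = 0 := by simp [LL]

theorem LL_zero : LL 0 = 0 := by simp [LL]

theorem LL_two : LL 2 = 0 := by
  refine max_eq_left (Real.log_nonpos (Real.log_nonneg one_le_two) ?_)
  linarith [Real.log_two_lt_d9]

theorem LL_mono_nat {a b : ℕ} (h : a ≤ b) : LL a ≤ LL b := by
  rcases Nat.eq_zero_or_pos a with rfl | ha
  · rw [Nat.cast_zero, LL_zero]; exact LL_nonneg _
  · exact LL_mono (by exact_mod_cast ha) (by exact_mod_cast h)

theorem lt_of_LL_lt {a b : ℕ} (h : LL a < LL b) : a < b :=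
  not_le.1 fun h' => h.not_ge (LL_mono_nat h')

theorem le_exp_of_LL {y w : ℝ} (h : LL y ≤ w) : y ≤ Real.exp (Real.exp w) := by
  rcases le_or_gt y 1 with hy | hy
  · exact hy.trans (bas1_one_lt w).le
  · exact (bas1_le_iff hy).1 ((le_max_right _ _).trans h)

theorem LL_le_of_le_exp {y w : ℝ} (hy : 1 ≤ y) (hw : 0 ≤ w) (h : y ≤ Real.exp (Real.exp w)) :
    LL y ≤ w := by
  rcases hy.eq_or_lt with rfl | hy
  · rwa [LL_one]
  · exact max_le hw ((bas1_le_iff hy).2 h)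

theorem exp_le_of_LL {y w : ℝ} (hy : 1 ≤ y) (hw : 0 < w) (h : w ≤ LL y) :
    Real.exp (Real.exp w) ≤ y := by
  rcases hy.eq_or_lt with rfl | hy
  · rw [LL_one] at h; linarith
  · rcases le_max_iff.1 h with h | h
    · linarith
    · exact (bas1_ge_iff hy).1 h

theorem exp_lt_of_LL {y w : ℝ} (hy : 1 ≤ y) (hw : 0 ≤ w) (h : w < LL y) :
    Real.exp (Real.exp w) < y :=
  not_le.1 fun h' => h.not_ge (LL_le_of_le_exp hy hw h')

theorem le_LL_of_exp_le {y w : ℝ} (h : Real.exp (Real.exp w) ≤ y) : w ≤ LL y :=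
  ((bas1_ge_iff ((bas1_one_lt w).trans_le h)).2 h).trans (le_max_right _ _)

theorem LL_exp_exp {w : ℝ} (hw : 0 ≤ w) : LL (Real.exp (Real.exp w)) = w := by
  rw [LL, Real.log_exp, Real.log_exp, max_eq_right hw]

theorem LL_eq_bigB {x : ℝ} (hx : Real.exp 1 ≤ x) : LL x = bigB x := by
  refine max_eq_right (Real.log_nonneg ?_)
  rwa [Real.le_log_iff_exp_le ((Real.exp_pos 1).trans_le hx)]

theorem exp_bigB {x : ℝ} (hx : 1 < x) : Real.exp (bigB x) = Real.log x :=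
  Real.exp_log (Real.log_pos hx)

/-- `log y ≤ exp (LL y)`. -/
theorem log_le_exp_LL {y : ℝ} (hy : 1 ≤ y) : Real.log y ≤ Real.exp (LL y) :=
  (Real.log_le_iff_le_exp (by linarith)).2 (le_exp_of_LL le_rfl)

/-- `LL (y ^ 2) ≤ LL y + 1` in a flexible form. -/
theorem LL_le_add_one {y y' : ℝ} (hy : 1 ≤ y) (hy' : 1 ≤ y') (h : y' ≤ y ^ 2) :
    LL y' ≤ LL y + 1 := by
  refine LL_le_of_le_exp hy' (by linarith [LL_nonneg y]) (h.trans ?_)
  rw [← Real.log_le_iff_le_exp (by positivity), Real.log_pow, Real.exp_add]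
  have h1 := log_le_exp_LL hy
  have h2 : 2 ≤ Real.exp 1 := by linarith [Real.add_one_le_exp 1]
  have h3 := Real.exp_pos (LL y)
  push_cast
  nlinarith

theorem mem_PL {w : ℝ} {r : ℕ} : r ∈ PL w ↔ r.Prime ∧ LL r ≤ w := by
  classical
  unfold PL
  rw [mem_filter, mem_primesIoc le_rfl (Real.exp_pos _).le]
  exact ⟨fun h => ⟨h.1.1, h.2⟩, fun h =>
    ⟨⟨h.1, by exact_mod_cast h.1.pos, le_exp_of_LL h.2⟩, h.2⟩⟩

/-! ### Counting prime factors -/

theorem bas1_sum_mul (f : ℕ → ℝ) {a b : ℕ} (ha : a ≠ 0) (hb : b ≠ 0) :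
    ∑ r ∈ (a * b).primeFactors, f r * ((a * b).factorization r : ℝ) =
      ∑ r ∈ a.primeFactors, f r * (a.factorization r : ℝ) +
        ∑ r ∈ b.primeFactors, f r * (b.factorization r : ℝ) := by
  have key : ∀ c : ℕ, c ∣ a * b → ∑ r ∈ c.primeFactors, f r * (c.factorization r : ℝ) =
      ∑ r ∈ (a * b).primeFactors, f r * (c.factorization r : ℝ) := by
    intro c hc
    refine sum_subset (Nat.primeFactors_mono hc (mul_ne_zero ha hb)) fun r _ hr => ?_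
    rw [← Nat.support_factorization, Finsupp.notMem_support_iff] at hr
    rw [hr, Nat.cast_zero, mul_zero]
  rw [key a (dvd_mul_right a b), key b (dvd_mul_left b a), ← sum_add_distrib,
    Nat.factorization_mul ha hb]
  refine sum_congr rfl fun r _ => ?_
  rw [Finsupp.add_apply, Nat.cast_add, mul_add]

theorem Nw_nonneg (n : ℕ) (w : ℝ) : 0 ≤ Nw n w :=
  sum_nonneg fun _ _ => mul_nonneg (ind_nonneg _) (Nat.cast_nonneg _)

theorem Nb_nonneg (n : ℕ) (σ w : ℝ) : 0 ≤ Nb n σ w :=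
  sum_nonneg fun _ _ => mul_nonneg (ind_nonneg _) (Nat.cast_nonneg _)

theorem Nw_one (w : ℝ) : Nw 1 w = 0 := by simp [Nw]

theorem Nb_one (σ w : ℝ) : Nb 1 σ w = 0 := by simp [Nb]

theorem Nw_mul {a b : ℕ} (ha : a ≠ 0) (hb : b ≠ 0) (w : ℝ) :
    Nw (a * b) w = Nw a w + Nw b w :=
  bas1_sum_mul (fun r => ind (LL r ≤ w)) ha hb

theorem Nb_mul {a b : ℕ} (ha : a ≠ 0) (hb : b ≠ 0) (σ w : ℝ) :
    Nb (a * b) σ w = Nb a σ w + Nb b σ w :=
  bas1_sum_mul (fun r => ind (σ < LL r ∧ LL r ≤ w)) ha hb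

theorem Nb_prod {ι : Type*} (s : Finset ι) (f : ι → ℕ) (hf : ∀ i ∈ s, f i ≠ 0) (σ w : ℝ) :
    Nb (∏ i ∈ s, f i) σ w = ∑ i ∈ s, Nb (f i) σ w := by
  classical
  induction s using Finset.induction_on with
  | empty => simp [Nb_one]
  | insert i s hi ih =>
    rw [prod_insert hi, sum_insert hi, Nb_mul (hf i (mem_insert_self _ _))
      (prod_ne_zero_iff.2 fun j hj => hf j (mem_insert_of_mem hj)),
      ih fun j hj => hf j (mem_insert_of_mem hj)]

theorem Nw_prime {r : ℕ} (hr : r.Prime) (w : ℝ) : Nw r w = ind (LL r ≤ w) := by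
  simp [Nw, hr.primeFactors, hr.factorization]

theorem Nw_mono (n : ℕ) {w w' : ℝ} (h : w ≤ w') : Nw n w ≤ Nw n w' :=
  sum_le_sum fun _ _ => mul_le_mul_of_nonneg_right (ind_mono fun h' => h'.trans h)
    (Nat.cast_nonneg _)

theorem Nb_mono (n : ℕ) (σ : ℝ) {w w' : ℝ} (h : w ≤ w') : Nb n σ w ≤ Nb n σ w' :=
  sum_le_sum fun _ _ => mul_le_mul_of_nonneg_right (ind_mono fun h' => ⟨h'.1, h'.2.trans h⟩)
    (Nat.cast_nonneg _)

theorem Nb_eq (n : ℕ) {σ w : ℝ} (h : σ ≤ w) : Nb n σ w = Nw n w - Nw n σ := by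
  unfold Nb Nw
  rw [← sum_sub_distrib]
  refine sum_congr rfl fun r _ => ?_
  rw [← sub_mul]
  congr 1
  by_cases h1 : LL r ≤ σ
  · rw [ind_neg fun h' => h'.1.not_ge h1, ind_pos h1, ind_pos (h1.trans h), sub_self]
  · rw [ind_neg h1, sub_zero]
    exact ind_congr ⟨fun h' => h'.2, fun h' => ⟨not_le.1 h1, h'⟩⟩

theorem Nb_of_le (n : ℕ) {σ w : ℝ} (h : w ≤ σ) : Nb n σ w = 0 :=
  sum_eq_zero fun _ _ => by rw [ind_neg fun h' => h'.1.not_ge (h'.2.trans h), zero_mul]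

theorem Nb_le_Nw (n : ℕ) (σ w : ℝ) : Nb n σ w ≤ Nw n w :=
  sum_le_sum fun _ _ => mul_le_mul_of_nonneg_right (ind_mono fun h' => h'.2) (Nat.cast_nonneg _)

theorem Nb_smooth {σ : ℝ} {n : ℕ} (h : Sm σ n) (w : ℝ) : Nb n σ w = 0 :=
  sum_eq_zero fun r hr => by
    rw [ind_neg fun h' => h'.1.not_ge (h.2 r (Nat.prime_of_mem_primeFactors hr)
      (Nat.dvd_of_mem_primeFactors hr)), zero_mul]

theorem Nb_dvd {a b : ℕ} (hb : b ≠ 0) (h : a ∣ b) (σ w : ℝ) : Nb a σ w ≤ Nb b σ w := by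
  obtain ⟨c, rfl⟩ := h
  rw [Nb_mul (left_ne_zero_of_mul hb) (right_ne_zero_of_mul hb)]
  linarith [Nb_nonneg c σ w]

/-- Beyond the smoothness bound the count is constant. -/
theorem Nw_smooth {s : ℝ} {n : ℕ} (h : Sm s n) {w : ℝ} (hw : s ≤ w) : Nw n w = Nw n s := by
  have := Nb_eq n hw
  rw [Nb_smooth h] at this
  linarith

/-- `2 ^ Ω(n) ≤ n`. -/
theorem Nw_le_log (n : ℕ) (w : ℝ) : Nw n w ≤ Real.log n / Real.log 2 := by
  have h2 : 0 < Real.log 2 := Real.log_pos one_lt_two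
  rw [le_div_iff₀ h2]
  induction n using Nat.recOnMul with
  | zero => simp [Nw]
  | one => simp [Nw]
  | prime p hp =>
    rw [Nw_prime hp]
    calc ind (LL p ≤ w) * Real.log 2 ≤ 1 * Real.log 2 := by gcongr; exact ind_le_one _
      _ ≤ Real.log p := by
        rw [one_mul]; exact Real.log_le_log two_pos (by exact_mod_cast hp.two_le)
  | mul a b iha ihb =>
    rcases eq_or_ne a 0 with rfl | ha
    · simp [Nw]
    rcases eq_or_ne b 0 with rfl | hb
    · simp [Nw]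
    rw [Nw_mul ha hb, Nat.cast_mul, Real.log_mul (by exact_mod_cast ha) (by exact_mod_cast hb)]
    linarith

theorem exists_prime_of_Nw_lt {n : ℕ} {w w' : ℝ} (h : Nw n w < Nw n w') :
    ∃ r : ℕ, r.Prime ∧ r ∣ n ∧ w < LL r ∧ LL r ≤ w' := by
  obtain ⟨r, hr, h⟩ := exists_lt_of_sum_lt h
  refine ⟨r, Nat.prime_of_mem_primeFactors hr, Nat.dvd_of_mem_primeFactors hr, ?_⟩
  by_contra hc
  refine h.not_ge (mul_le_mul_of_nonneg_right (ind_mono fun h' => ?_) (Nat.cast_nonneg _))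
  by_contra h1
  exact hc ⟨not_le.1 h1, h'⟩

/-! ### Completely multiplicative functions -/

theorem cm_one (z : ℕ → ℝ) : cm z 1 = 1 := by
  simp [cm]

theorem cm_mul (z : ℕ → ℝ) {a b : ℕ} (ha : a ≠ 0) (hb : b ≠ 0) :
    cm z (a * b) = cm z a * cm z b := by
  have e : ∀ n : ℕ, cm z n = n.factorization.prod fun r k => z r ^ k := fun _ => rfl
  rw [e, e, e, Nat.factorization_mul ha hb,
    Finsupp.prod_add_index' (fun _ => pow_zero _) fun _ _ _ => pow_add _ _ _]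

theorem cm_prod (z : ℕ → ℝ) {ι : Type*} (s : Finset ι) (f : ι → ℕ) (hf : ∀ i ∈ s, f i ≠ 0) :
    cm z (∏ i ∈ s, f i) = ∏ i ∈ s, cm z (f i) := by
  classical
  induction s using Finset.induction_on with
  | empty => simp [cm_one]
  | insert a s ha ih =>
    rw [prod_insert ha, prod_insert ha, cm_mul z (hf a (mem_insert_self _ _))
      (prod_ne_zero_iff.2 fun i hi => hf i (mem_insert_of_mem hi)),
      ih fun i hi => hf i (mem_insert_of_mem hi)]

theorem cm_prime (z : ℕ → ℝ) {r : ℕ} (hr : r.Prime) : cm z r = z r := by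
  simp [cm, hr.primeFactors, hr.factorization]

theorem cm_nonneg {z : ℕ → ℝ} (hz : ∀ r : ℕ, r.Prime → 0 ≤ z r) (n : ℕ) : 0 ≤ cm z n := by
  exact prod_nonneg fun r hr => pow_nonneg (hz r (Nat.prime_of_mem_primeFactors hr)) _

theorem cm_pos {z : ℕ → ℝ} (hz : ∀ r : ℕ, r.Prime → 0 < z r) (n : ℕ) : 0 < cm z n := by
  exact prod_pos fun r hr => pow_pos (hz r (Nat.prime_of_mem_primeFactors hr)) _

theorem cm_congr {z z' : ℕ → ℝ} {n : ℕ} (h : ∀ r : ℕ, r.Prime → r ∣ n → z r = z' r) :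
    cm z n = cm z' n := by
  exact prod_congr rfl fun r hr => by
    rw [h r (Nat.prime_of_mem_primeFactors hr) (Nat.dvd_of_mem_primeFactors hr)]

theorem cm_const_one (n : ℕ) : cm (fun _ => 1) n = 1 := by
  simp [cm]

theorem cm_inv (z : ℕ → ℝ) (n : ℕ) : cm (fun r => (z r)⁻¹) n = (cm z n)⁻¹ := by
  simp [cm]

theorem cm_const (c : ℝ) (n : ℕ) : cm (fun _ => c) n = c ^ n.primeFactorsList.length := by
  rw [cm, prod_pow_eq_pow_sum, ← ArithmeticFunction.cardFactors_apply,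
    ArithmeticFunction.cardFactors_eq_sum_factorization]
  rfl

theorem cm_rpow (η : ℝ) {n : ℕ} (hn : n ≠ 0) : cm (fun r => (r : ℝ) ^ η) n = (n : ℝ) ^ η := by
  have e : (n : ℝ) = ∏ r ∈ n.primeFactors, (r : ℝ) ^ n.factorization r := by
    conv_lhs => rw [← Nat.prod_factorization_pow_eq_self hn]
    rw [Finsupp.prod]
    push_cast
    rfl
  conv_rhs => rw [e]
  rw [← Real.finsetProd_rpow _ _ fun r _ => by positivity]
  refine prod_congr rfl fun r _ => ?_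
  rw [← Real.rpow_natCast, ← Real.rpow_natCast, ← Real.rpow_mul (Nat.cast_nonneg r),
    ← Real.rpow_mul (Nat.cast_nonneg r), mul_comm]

theorem cm_exp (f : ℕ → ℝ) (n : ℕ) : cm (fun r => Real.exp (f r)) n =
    Real.exp (∑ r ∈ n.primeFactors, f r * (n.factorization r : ℝ)) := by
  rw [Real.exp_sum]
  exact prod_congr rfl fun r _ => by rw [mul_comm, Real.exp_nat_mul]

/-! ### Smooth numbers -/

theorem Sm.mono {w w' : ℝ} {n : ℕ} (h : Sm w n) (hw : w ≤ w') : Sm w' n := by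
  exact ⟨h.1, fun r hr hd => (h.2 r hr hd).trans hw⟩

theorem sm_one (w : ℝ) : Sm w 1 := by
  exact ⟨one_ne_zero, fun r hr hd => absurd (Nat.dvd_one.1 hd) hr.ne_one⟩

theorem Sm.mul {w : ℝ} {a b : ℕ} (ha : Sm w a) (hb : Sm w b) : Sm w (a * b) := by
  exact ⟨mul_ne_zero ha.1 hb.1, fun r hr hd => ((Nat.Prime.dvd_mul hr).1 hd).elim (ha.2 r hr) (hb.2 r hr)⟩

theorem Sm.of_dvd {w : ℝ} {a b : ℕ} (hb : Sm w b) (h : a ∣ b) : Sm w a := by
  exact ⟨ne_zero_of_dvd_ne_zero hb.1 h, fun r hr hd => hb.2 r hr (hd.trans h)⟩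

theorem sm_self {n : ℕ} (hn : n ≠ 0) : Sm (LL n) n := by
  exact ⟨hn, fun r _ hd => LL_mono_nat (Nat.le_of_dvd (Nat.pos_of_ne_zero hn) hd)⟩

theorem sm_prime {w : ℝ} {p : ℕ} (hp : p.Prime) (h : LL p ≤ w) : Sm w p := by
  exact (sm_self hp.ne_zero).mono h

theorem sm_pred {w : ℝ} {p : ℕ} (hp : p.Prime) (h : LL p ≤ w) : Sm w (p - 1) := by
  have h2 := hp.two_le
  exact (sm_self (by omega)).mono ((LL_mono_nat (Nat.sub_le p 1)).trans h)

/-- A prime factor of `φ n` divides `n` or `p - 1` for some prime `p ∣ n`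
(`Nat.totient_mul_prod_primeFactors`). -/
theorem Sm.totient {w : ℝ} {n : ℕ} (h : Sm w n) : Sm w (Nat.totient n) := by
  refine ⟨(Nat.totient_pos.2 (Nat.pos_of_ne_zero h.1)).ne', fun r hr hd => ?_⟩
  have h1 : r ∣ n * ∏ p ∈ n.primeFactors, (p - 1) := by
    rw [← Nat.totient_mul_prod_primeFactors]
    exact hd.mul_right _
  rcases (Nat.Prime.dvd_mul hr).1 h1 with h2 | h2
  · exact h.2 r hr h2
  · obtain ⟨p, hp, h3⟩ := (Prime.dvd_finsetProd_iff hr.prime _).1 h2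
    have hp' := Nat.prime_of_mem_primeFactors hp
    exact (sm_pred hp' (h.2 p hp' (Nat.dvd_of_mem_primeFactors hp))).2 r hr h3

theorem Tot.sm {s : ℝ} {v : ℕ} (h : Tot s v) : Sm s v := by
  obtain ⟨n, hn, rfl⟩ := h
  exact hn.totient

theorem Tot.mono {s s' : ℝ} {v : ℕ} (h : Tot s v) (hs : s ≤ s') : Tot s' v := by
  obtain ⟨n, hn, rfl⟩ := h
  exact ⟨n, hn.mono hs, rfl⟩

/-- `φ (p n)` is `(p - 1) φ n` or `p φ n`. -/
theorem totient_prime_mul {p : ℕ} (hp : p.Prime) (n : ℕ) :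
    Nat.totient (p * n) = (p - 1) * Nat.totient n ∨ Nat.totient (p * n) = p * Nat.totient n := by
  by_cases h : p ∣ n
  · exact Or.inr (Nat.totient_mul_of_prime_of_dvd hp h)
  · exact Or.inl (Nat.totient_mul_of_prime_of_not_dvd hp h)

theorem pred_le_totient {p n : ℕ} (hp : p.Prime) (hn : 0 < n) (h : p ∣ n) :
    p - 1 ≤ Nat.totient n := by
  rw [← Nat.totient_prime hp]
  exact Nat.le_of_dvd (Nat.totient_pos.2 hn) (Nat.totient_dvd_of_dvd h)

/-! ### Normal primes -/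

theorem Normal.mono {Δ Δ' : ℝ} {p : ℕ} (h : Normal Δ p) (hΔ : Δ ≤ Δ') : Normal Δ' p := by
  exact fun w hw => (h w hw).trans hΔ

theorem normal_one {Δ : ℝ} (hΔ : 0 ≤ Δ) : Normal Δ 1 := by
  intro w hw
  rw [Nat.cast_one, LL_one, min_eq_right hw]
  simpa [Nw] using hΔ

theorem Normal.nonneg {Δ : ℝ} {p : ℕ} (h : Normal Δ p) : 0 ≤ Δ := by
  exact (abs_nonneg _).trans (h 0 le_rfl)

/-- Small numbers are normal: both terms lie in `[0, log p / log 2]`. -/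
theorem normal_of_le {Δ : ℝ} {p : ℕ} (hp : 1 ≤ p) (h : (p : ℝ) ≤ (2 : ℝ) ^ Δ) : Normal Δ p := by
  intro w hw
  have hp' : (1 : ℝ) ≤ p := by exact_mod_cast hp
  have l2 : 0 < Real.log 2 := Real.log_pos one_lt_two
  have l3 : Real.log 2 ≤ 1 := by linarith [Real.log_two_lt_d9]
  have l0 : 0 ≤ Real.log p := Real.log_nonneg hp'
  have h1 : Real.log p / Real.log 2 ≤ Δ := by
    rw [div_le_iff₀ l2, ← Real.log_rpow two_pos]
    exact Real.log_le_log (by linarith) h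
  have h2 : Real.log ((p - 1 : ℕ) : ℝ) ≤ Real.log p := by
    rcases Nat.eq_zero_or_pos (p - 1) with h0 | h0
    · rw [h0]; simpa using l0
    · exact Real.log_le_log (by exact_mod_cast h0) (by exact_mod_cast Nat.sub_le p 1)
  have h3 : Nw (p - 1) w ≤ Δ :=
    ((Nw_le_log _ w).trans (div_le_div_of_nonneg_right h2 l2.le)).trans h1
  have h4 : LL p ≤ Δ := by
    refine le_trans (max_le l0 (Real.log_le_self l0)) (le_trans ?_ h1)
    rw [le_div_iff₀ l2]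
    exact mul_le_of_le_one_right l0 l3
  have h5 : 0 ≤ min w (LL p) := le_min hw (LL_nonneg _)
  have h6 := min_le_right w (LL (p : ℝ))
  have h7 := Nw_nonneg (p - 1) w
  exact abs_le.2 ⟨by linarith, by linarith⟩

/-- Compare `Nw (p - 1)` at `LL p` and at `LL p - 2 Δ - 1`. -/
theorem Normal.big_prime {Δ : ℝ} {p : ℕ} (h : Normal Δ p) (h1 : 2 * Δ + 1 ≤ LL p) :
    ∃ r : ℕ, r.Prime ∧ r ∣ p - 1 ∧ LL p - 2 * Δ - 1 ≤ LL r := by
  have h0 := h.nonneg
  have h2 := (abs_le.1 (h (LL p) (LL_nonneg _))).1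
  have h3 := (abs_le.1 (h (LL p - 2 * Δ - 1) (by linarith))).2
  rw [min_self] at h2
  rw [min_eq_left (by linarith)] at h3
  obtain ⟨r, hr, hd, h4, -⟩ := exists_prime_of_Nw_lt (n := p - 1) (w := LL p - 2 * Δ - 1)
    (w' := LL p) (by linarith)
  exact ⟨r, hr, hd, h4.le⟩

theorem Normal.Nb_ge {Δ : ℝ} {p : ℕ} (h : Normal Δ p) {σ w : ℝ} (hσ : 0 ≤ σ) (hw : 0 ≤ w) :
    min w (LL p) - σ - 2 * Δ ≤ Nb (p - 1) σ w := by
  have h0 := h.nonneg
  rcases le_total σ w with h1 | h1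
  · have h2 := (abs_le.1 (h w hw)).1
    have h3 := (abs_le.1 (h σ hσ)).2
    have h4 := min_le_left σ (LL (p : ℝ))
    rw [Nb_eq _ h1]
    linarith
  · have h2 := min_le_left w (LL (p : ℝ))
    have h3 := Nb_nonneg (p - 1) σ w
    linarith

theorem Normal.Nb_le {Δ : ℝ} {p : ℕ} (h : Normal Δ p) (σ : ℝ) {w : ℝ} (hw : 0 ≤ w) :
    Nb (p - 1) σ w ≤ min w (LL p) + Δ := by
  have h2 := (abs_le.1 (h w hw)).2
  have h3 := Nb_le_Nw (p - 1) σ w
  linarith

theorem Normal.Nb_abs {Δ : ℝ} {p : ℕ} (h : Normal Δ p) {σ w : ℝ} (hσ : 0 ≤ σ) (hw : σ ≤ w) :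
    |Nb (p - 1) σ w - (min w (LL p) - min σ (LL p))| ≤ 2 * Δ := by
  have h2 := abs_le.1 (h w (hσ.trans hw))
  have h3 := abs_le.1 (h σ hσ)
  rw [Nb_eq _ hw]
  exact abs_le.2 ⟨by linarith [h2.1, h3.2], by linarith [h2.2, h3.1]⟩

end Crest.Agent.R020
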