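import Crest.Agent.R020.Ren1
import Crest.Agent.R020.Bas1

set_option autoImplicit false

namespace Crest.Agent.R020

open Finset Filter Topology Crest.Agent.R008 Crest.Agent.R026 Crest.NumberTheoryR.TotientScale

variable {ρ : ℝ}

theorem tendsto_bigB : Tendsto bigB atTop atTop := by
  exact Real.tendsto_log_atTop.comp Real.tendsto_log_atTop

theorem tendsto_B (ρ : ℝ) : Tendsto (fun q : ℝ × ℕ => bigB q.1) (Fl ρ) atTop :=
  tendsto_bigB.comp (tendsto_fst_Fl ρ)

theorem tendsto_phaseArg (h : Root ρ) : Tendsto (phaseArg ρ) atTop atTop := by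
  have hL : Tendsto (fun x => Real.log (bigB x)) atTop atTop :=
    Real.tendsto_log_atTop.comp tendsto_bigB
  refine Tendsto.atTop_div_const (lam_pos h) ?_
  refine tendsto_atTop_mono' _ ?_ (hL.atTop_div_const (by norm_num : (0 : ℝ) < 2))
  filter_upwards [hL.eventually_gt_atTop 0] with x hx
  have h1 := Real.log_le_sub_one_of_pos (half_pos hx)
  rw [Real.log_div hx.ne' two_ne_zero] at h1
  have h2 := Real.log_two_lt_d9
  linarith

theorem tendsto_m (h : Root ρ) : Tendsto (fun q : ℝ × ℕ => q.2) (Fl ρ) atTop := by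
  rw [← tendsto_natCast_atTop_iff (R := ℝ)]
  have h1 := tendsto_atTop_add_const_right _ (-3) ((tendsto_phaseArg h).comp (tendsto_fst_Fl ρ))
  refine tendsto_atTop_mono' _ ?_ h1
  filter_upwards [ev_Sc ρ] with q hq
  have := hq.2
  simp only [Function.comp_apply]
  linarith

/-- `B = log B * exp (λ * phaseArg)`. -/
theorem bigB_eq (h : Root ρ) {x : ℝ} (hx : 1 < bigB x) (m : ℕ) :
    bigB x = Real.log (bigB x) * (vr ρ ^ (10 * m) * Real.exp (lam ρ * (phaseArg ρ x - m))) := by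
  have hl := lam_pos h
  have hL : 0 < Real.log (bigB x) := Real.log_pos hx
  have e : lam ρ * m + lam ρ * (phaseArg ρ x - m) =
      Real.log (bigB x) - Real.log (Real.log (bigB x)) := by
    unfold phaseArg
    field_simp
    ring
  rw [← exp_lam h, ← Real.exp_add, e, Real.exp_sub, Real.exp_log (zero_lt_one.trans hx),
    Real.exp_log hL]
  field_simp

/-- `log B = λ m + λ θ + log log B` with `0 ≤ θ ≤ 3`. -/
theorem tendsto_logB (h : Root ρ) :
    Tendsto (fun q : ℝ × ℕ => Real.log (bigB q.1) / (lam ρ * q.2)) (Fl ρ) (𝓝 1) := by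
  have hl := lam_pos h
  have hL : Tendsto (fun q : ℝ × ℕ => Real.log (bigB q.1)) (Fl ρ) atTop :=
    Real.tendsto_log_atTop.comp (tendsto_B ρ)
  have h1 : Tendsto (fun q : ℝ × ℕ => Real.log (Real.log (bigB q.1)) / Real.log (bigB q.1))
      (Fl ρ) (𝓝 0) := Real.isLittleO_log_id_atTop.tendsto_div_nhds_zero.comp hL
  have h2 : Tendsto (fun q : ℝ × ℕ => lam ρ * (phaseArg ρ q.1 - q.2) / Real.log (bigB q.1))
      (Fl ρ) (𝓝 0) := by
    refine tendsto_of_tendsto_of_tendsto_of_le_of_le' tendsto_const_nhds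
      (hL.const_div_atTop (lam ρ * 3)) ?_ ?_
    · filter_upwards [ev_Sc ρ, hL.eventually_gt_atTop 0] with q hq hq0
      have := hq.1
      positivity
    · filter_upwards [ev_Sc ρ, hL.eventually_gt_atTop 0] with q hq hq0
      have := hq.2
      gcongr
  have h3 := (((tendsto_const_nhds (x := (1 : ℝ))).sub h1).sub h2).inv₀ (by norm_num)
  rw [sub_zero, sub_zero, inv_one] at h3
  refine h3.congr' ?_
  filter_upwards [hL.eventually_gt_atTop 0] with q hq
  rw [← inv_div (lam ρ * q.2)]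
  congr 1
  unfold phaseArg
  field_simp
  ring

theorem ev_SB (h : Root ρ) : ∀ᶠ q in Fl ρ, SB ρ (bigB q.1) q.2 := by
  have hl := lam_pos h
  have hL : Tendsto (fun q : ℝ × ℕ => Real.log (bigB q.1)) (Fl ρ) atTop :=
    Real.tendsto_log_atTop.comp (tendsto_B ρ)
  filter_upwards [ev_Sc ρ, hL.eventually_ge_atTop 1, (tendsto_B ρ).eventually_gt_atTop 1,
    (tendsto_m h).eventually_ge_atTop 1,
    (tendsto_logB h).eventually (eventually_le_nhds (by norm_num : (1 : ℝ) < 2))]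
    with q hq hL1 hB hm h2
  have hm' : (1 : ℝ) ≤ q.2 := by exact_mod_cast hm
  have hv := pow_pos (vr_pos h) (10 * q.2)
  have e := bigB_eq h hB q.2
  have hθ : 0 ≤ lam ρ * (phaseArg ρ q.1 - q.2) := mul_nonneg hl.le hq.1
  have hlo : lam ρ * q.2 ≤ Real.log (bigB q.1) := by
    have e2 : lam ρ * q.2 + lam ρ * (phaseArg ρ q.1 - q.2) =
        Real.log (bigB q.1) - Real.log (Real.log (bigB q.1)) := by
      unfold phaseArg
      field_simp
      ring
    have := Real.log_nonneg hL1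
    linarith
  have hup : Real.log (bigB q.1) ≤ 2 * (lam ρ * q.2) := by
    rwa [div_le_iff₀ (by positivity)] at h2
  have he1 : 1 ≤ Real.exp (lam ρ * (phaseArg ρ q.1 - q.2)) := Real.one_le_exp hθ
  have he2 : Real.exp (lam ρ * (phaseArg ρ q.1 - q.2)) ≤ vr ρ ^ 30 := by
    have := exp_lam h 3
    rw [show 10 * 3 = 30 from rfl] at this
    rw [← this]
    exact Real.exp_le_exp.2 (mul_le_mul_of_nonneg_left (by exact_mod_cast hq.2) hl.le)
  constructor
  · calc lam ρ * (q.2 * vr ρ ^ (10 * q.2)) = (lam ρ * q.2) * (vr ρ ^ (10 * q.2) * 1) := by ring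
      _ ≤ Real.log (bigB q.1) *
          (vr ρ ^ (10 * q.2) * Real.exp (lam ρ * (phaseArg ρ q.1 - q.2))) := by gcongr
      _ = _ := e.symm
  · calc bigB q.1 = _ := e
      _ ≤ (2 * (lam ρ * q.2)) * (vr ρ ^ (10 * q.2) * vr ρ ^ 30) := by gcongr
      _ = _ := by ring

theorem SB.nonneg (h : Root ρ) {B : ℝ} {m : ℕ} (hB : SB ρ B m) : 0 ≤ B := by
  have hl := lam_pos h
  have hv := vr_pos h
  exact le_trans (by positivity) hB.1

theorem SB.pos (h : Root ρ) {B : ℝ} {m : ℕ} (hB : SB ρ B m) (hm : 1 ≤ m) : 0 < B := by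
  have hl := lam_pos h
  have hv := vr_pos h
  have hm' : (0 : ℝ) < m := by exact_mod_cast hm
  exact lt_of_lt_of_le (by positivity) hB.1

/-- `B` lies between `C ϱ^(10 m)` and `ϱ^(11 m) / C` for large `m`. -/
theorem SB.large (h : Root ρ) (C : ℝ) : ∃ m₀ : ℕ, ∀ (B : ℝ) (m : ℕ), SB ρ B m → m₀ ≤ m →
    C * vr ρ ^ (10 * m) ≤ B ∧ C * (B + 2) ≤ vr ρ ^ (11 * m) := by
  have hl := lam_pos h
  have hv := vr_pos h
  obtain ⟨d₀, hd₀⟩ := poly_le_vr h (|C| * (2 * lam ρ * vr ρ ^ 30 + 2)) 1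
  refine ⟨max d₀ ⌈C / lam ρ⌉₊, fun B m hB hm => ⟨?_, ?_⟩⟩
  · have h1 : C / lam ρ ≤ m := Nat.ceil_le.1 ((le_max_right _ _).trans hm)
    rw [div_le_iff₀ hl] at h1
    calc C * vr ρ ^ (10 * m) ≤ (m * lam ρ) * vr ρ ^ (10 * m) := by gcongr
      _ = lam ρ * (m * vr ρ ^ (10 * m)) := by ring
      _ ≤ B := hB.1
  · have h1 := hd₀ m ((le_max_left _ _).trans hm)
    have h0 := hB.nonneg h
    have h2 := one_le_vr_pow h (10 * m)
    have hm0 : (0 : ℝ) ≤ m := Nat.cast_nonneg m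
    have h3 : B + 2 ≤ (2 * lam ρ * vr ρ ^ 30 + 2) * ((m : ℝ) + 1) ^ 1 * vr ρ ^ (10 * m) := by
      have h4 := hB.2
      have h5 : 0 ≤ 2 * lam ρ * vr ρ ^ 30 * vr ρ ^ (10 * m) := by positivity
      have h6 : 0 ≤ (m : ℝ) * vr ρ ^ (10 * m) := by positivity
      nlinarith
    calc C * (B + 2) ≤ |C| * (B + 2) := by gcongr; exact le_abs_self C
      _ ≤ |C| * ((2 * lam ρ * vr ρ ^ 30 + 2) * ((m : ℝ) + 1) ^ 1 * vr ρ ^ (10 * m)) := by gcongr
      _ = (|C| * (2 * lam ρ * vr ρ ^ 30 + 2) * ((m : ℝ) + 1) ^ 1) * vr ρ ^ (10 * m) := by ring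
      _ ≤ vr ρ ^ m * vr ρ ^ (10 * m) := by gcongr
      _ = vr ρ ^ (11 * m) := by ring

theorem ev_large (h : Root ρ) (C : ℝ) : ∀ᶠ q in Fl ρ,
    C * vr ρ ^ (10 * q.2) ≤ bigB q.1 ∧ C * (bigB q.1 + 2) ≤ vr ρ ^ (11 * q.2) := by
  obtain ⟨m₀, hm₀⟩ := SB.large h C
  filter_upwards [ev_SB h, (tendsto_m h).eventually_ge_atTop m₀] with q h1 h2
  exact hm₀ _ _ h1 h2

theorem ev_poly (h : Root ρ) (C : ℝ) (a : ℕ) : ∀ᶠ q in Fl ρ,
    C * ((q.2 : ℝ) + 1) ^ a ≤ vr ρ ^ q.2 := by
  obtain ⟨d₀, hd₀⟩ := poly_le_vr h C a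
  filter_upwards [(tendsto_m h).eventually_ge_atTop d₀] with q h1
  exact hd₀ _ h1

/-- Every prime is at most `exp (exp (B - ϱ^(8 m))) = x ^ exp (-ϱ^(8 m))`, and
`m exp (-ϱ^(8 m)) → 0`. -/
theorem small_pm (h : Root ρ) {η : ℝ} (hη : 0 < η) (N : ℝ) : ∀ᶠ q in Fl ρ, ∀ (l : List ℕ) (v : ℕ),
    l.length ≤ q.2 → (∀ p ∈ l, LL p ≤ bigB q.1 - vr ρ ^ (8 * q.2)) → (v : ℝ) ≤ N →
    ((pm l * v : ℕ) : ℝ) ≤ q.1 ^ η := by
  have hB := tendsto_B ρ
  have hx := tendsto_fst_Fl ρ
  have hN : Tendsto (fun q : ℝ × ℕ => q.1 ^ (η / 2)) (Fl ρ) atTop :=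
    (tendsto_rpow_atTop (half_pos hη)).comp hx
  filter_upwards [ev_poly h (2 / η) 1, ev_large h 1, hN.eventually_ge_atTop N,
    hx.eventually_gt_atTop 1] with q h1 h2 h3 h4 l v hl hp hv
  have hv0 := vr_gt h
  set T := vr ρ ^ (8 * q.2) with hT
  have hx0 : 0 < q.1 := zero_lt_one.trans h4
  have hlx : 0 < Real.log q.1 := Real.log_pos h4
  have hT1 : vr ρ ^ q.2 ≤ T := vr_pow_mono h (by omega)
  have hm : (q.2 : ℝ) * Real.exp (-T) ≤ η / 2 := by
    have e1 : T ≤ Real.exp T := by linarith [Real.add_one_le_exp T]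
    have e2 : 2 / η * (q.2 : ℝ) ≤ Real.exp T := by
      have : 2 / η * (q.2 : ℝ) ≤ 2 / η * ((q.2 : ℝ) + 1) ^ 1 := by
        gcongr; linarith
      linarith
    rw [Real.exp_neg, ← div_eq_mul_inv, div_le_iff₀ (Real.exp_pos T)]
    rw [div_mul_eq_mul_div, div_le_iff₀ hη] at e2
    linarith
  set E := Real.exp (Real.exp (bigB q.1 - T)) with hE
  have hE1 : 1 ≤ E := Real.one_le_exp (Real.exp_pos _).le
  have hpm : ∀ l : List ℕ, (∀ p ∈ l, LL p ≤ bigB q.1 - T) → (pm l : ℝ) ≤ E ^ l.length := by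
    intro l
    induction l with
    | nil => intro _; simp [pm]
    | cons p l ih =>
      intro hp
      have i1 := ih fun r hr => hp r (List.mem_cons_of_mem _ hr)
      have i2 : (p : ℝ) ≤ E := le_exp_of_LL (hp p List.mem_cons_self)
      have i3 : ((p - 1 : ℕ) : ℝ) ≤ p := by exact_mod_cast Nat.sub_le p 1
      have i4 : pm (p :: l) = (p - 1) * pm l := by simp [pm]
      rw [i4, Nat.cast_mul, List.length_cons, pow_succ']
      exact mul_le_mul (i3.trans i2) i1 (Nat.cast_nonneg _) (zero_le_one.trans hE1)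
  have hEm : E ^ q.2 ≤ q.1 ^ (η / 2) := by
    rw [hE, ← Real.exp_nat_mul, Real.rpow_def_of_pos hx0, Real.exp_le_exp, sub_eq_add_neg,
      Real.exp_add, exp_bigB h4]
    calc (q.2 : ℝ) * (Real.log q.1 * Real.exp (-T)) = Real.log q.1 * (q.2 * Real.exp (-T)) := by
          ring
      _ ≤ Real.log q.1 * (η / 2) := by gcongr
  have hfin : q.1 ^ η = q.1 ^ (η / 2) * q.1 ^ (η / 2) := by
    rw [← Real.rpow_add hx0, add_halves]
  rw [Nat.cast_mul, hfin]
  exact mul_le_mul (((hpm l hp).trans (pow_le_pow_right₀ hE1 hl)).trans hEm) (hv.trans h3)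
    (Nat.cast_nonneg _) (Real.rpow_nonneg hx0.le _)

theorem tendsto_mIndex (h : Root ρ) :
    Tendsto (fun x : ℝ => (x, mIndex ρ x)) atTop (Fl ρ) := by
  unfold Fl
  rw [tendsto_inf, tendsto_comap_iff, tendsto_principal]
  refine ⟨tendsto_id, ?_⟩
  filter_upwards [(tendsto_phaseArg h).eventually_ge_atTop 0] with x hx
  have h1 := Nat.floor_le hx
  have h2 := Nat.lt_floor_add_one (phaseArg ρ x)
  refine ⟨?_, ?_⟩
  · simp only [mIndex]; linarith
  · simp only [mIndex]; linarith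

theorem Scale_log_step {f g : ℝ → ℝ} (hg : Tendsto g atTop atTop)
    (h : Tendsto (fun x => f x / g x) atTop (𝓝 1)) :
    Tendsto (fun x => Real.log (f x) - Real.log (g x)) atTop (𝓝 0) := by
  have h1 := h.log one_ne_zero
  rw [Real.log_one] at h1
  refine h1.congr' ?_
  filter_upwards [hg.eventually_gt_atTop 0,
    h.eventually (eventually_gt_nhds (by norm_num : (0 : ℝ) < 1))] with x h2 h3
  have h4 : f x ≠ 0 := by
    rintro h5
    rw [h5, zero_div] at h3
    exact lt_irrefl _ h3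
  exact Real.log_div h4 h2.ne'

theorem Scale_ratio {f g : ℝ → ℝ} (hg : Tendsto g atTop atTop)
    (h : Tendsto (fun x => f x - g x) atTop (𝓝 0)) :
    Tendsto (fun x => f x / g x) atTop (𝓝 1) := by
  have h1 := (h.div_atTop hg).add_const 1
  rw [zero_add] at h1
  refine h1.congr' ?_
  filter_upwards [hg.eventually_gt_atTop 0] with x h2
  field_simp
  ring

theorem tendsto_phaseArg_mul (h : Root ρ) {c : ℝ} (hc : 0 < c) :
    Tendsto (fun x : ℝ => phaseArg ρ (c * x) - phaseArg ρ x) atTop (𝓝 0) := by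
  have h0 : Tendsto (fun x : ℝ => Real.log (c * x) / Real.log x) atTop (𝓝 1) := by
    have := (Real.tendsto_log_atTop.const_div_atTop (Real.log c)).add_const 1
    rw [zero_add] at this
    refine this.congr' ?_
    filter_upwards [eventually_gt_atTop 1] with x hx
    have := Real.log_pos hx
    rw [Real.log_mul hc.ne' (by positivity)]
    field_simp
  have t0 : Tendsto (fun x : ℝ => Real.log x) atTop atTop := Real.tendsto_log_atTop
  have h1 := Scale_log_step t0 h0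
  have t1 := Real.tendsto_log_atTop.comp t0
  have h2 := Scale_log_step t1 (Scale_ratio t1 h1)
  have t2 := Real.tendsto_log_atTop.comp t1
  have h3 := Scale_log_step t2 (Scale_ratio t2 h2)
  have h4 := (h2.sub h3).div_const (lam ρ)
  rw [sub_zero, zero_div] at h4
  refine h4.congr fun x => ?_
  simp only [phaseArg, bigB, Function.comp_apply]
  ring

/-- With `m = mIndex x - 1` one has `phaseArg x - m ∈ [1, 2)`. -/
theorem tendsto_mIndex_mul (h : Root ρ) {c : ℝ} (hc : 0 < c) :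
    Tendsto (fun x : ℝ => (c * x, mIndex ρ x - 1)) atTop (Fl ρ) := by
  unfold Fl
  rw [tendsto_inf, tendsto_comap_iff, tendsto_principal]
  refine ⟨tendsto_id.const_mul_atTop hc, ?_⟩
  have ht := tendsto_phaseArg_mul h hc
  filter_upwards [(tendsto_phaseArg h).eventually_ge_atTop 1,
    ht.eventually (eventually_ge_nhds (by norm_num : (-1 : ℝ) < 0)),
    ht.eventually (eventually_le_nhds (by norm_num : (0 : ℝ) < 1))] with x hx h3 h4
  have h1 := Nat.floor_le (zero_le_one.trans hx)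
  have h2 := Nat.lt_floor_add_one (phaseArg ρ x)
  have h5 : 1 ≤ ⌊phaseArg ρ x⌋₊ := Nat.le_floor (by exact_mod_cast hx)
  refine ⟨?_, ?_⟩
  · simp only [mIndex]; rw [Nat.cast_sub h5]; push_cast; linarith
  · simp only [mIndex]; rw [Nat.cast_sub h5]; push_cast; linarith

/-- Every phase occurs for arbitrarily large `x` (intermediate value theorem). -/
theorem exists_phase (h : Root ρ) {θ : ℝ} (h0 : 0 ≤ θ) (h1 : θ < 1) (X : ℝ) :
    ∃ x : ℝ, X ≤ x ∧ phase ρ x = θ := by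
  obtain ⟨X₀, hX₀⟩ := eventually_atTop.1 ((tendsto_bigB.eventually_gt_atTop 1).and
    (eventually_gt_atTop (1 : ℝ)))
  set a := max X X₀ with ha
  have hcont : ContinuousOn (phaseArg ρ) (Set.Ici a) := by
    intro x hx
    obtain ⟨h2, h3⟩ := hX₀ x ((le_max_right _ _).trans hx)
    have c1 : ContinuousAt Real.log x := Real.continuousAt_log (by positivity)
    have c2 : ContinuousAt bigB x := c1.log (Real.log_pos h3).ne'
    have c3 : ContinuousAt (fun x => Real.log (bigB x)) x := c2.log (by positivity)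
    have c4 : ContinuousAt (fun x => Real.log (Real.log (bigB x))) x :=
      c3.log (Real.log_pos h2).ne'
    exact ((c3.sub c4).div_const _).continuousWithinAt
  set N := ⌈phaseArg ρ a⌉₊ with hN
  have hNa : phaseArg ρ a ≤ N + θ := by linarith [Nat.le_ceil (phaseArg ρ a)]
  obtain ⟨b, hb1, hb2⟩ := (((tendsto_phaseArg h).eventually_ge_atTop (N + θ)).and
    (eventually_ge_atTop a)).exists
  obtain ⟨x, hx1, hx2⟩ := intermediate_value_Icc hb2 (hcont.mono Set.Icc_subset_Ici_self)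
    ⟨hNa, hb1⟩
  refine ⟨x, (le_max_left _ _).trans hx1.1, ?_⟩
  have hf : ⌊(N : ℝ) + θ⌋₊ = N := by
    rw [Nat.floor_eq_iff (by positivity)]
    constructor <;> linarith
  rw [phase, mIndex, hx2, hf]
  ring

theorem ev_phase (h : Root ρ) : ∀ᶠ x in atTop, 0 ≤ phase ρ x ∧ phase ρ x < 1 := by
  filter_upwards [(tendsto_phaseArg h).eventually_ge_atTop 0] with x hx
  have h1 := Nat.floor_le hx
  have h2 := Nat.lt_floor_add_one (phaseArg ρ x)
  refine ⟨?_, ?_⟩
  · simp only [phase, mIndex]; linarith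
  · simp only [phase, mIndex]; linarith

end Crest.Agent.R020
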