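import Crest.Agent.R020.Ren2
import Crest.Agent.R020.Scale
import Crest.Agent.R020.Mert

set_option autoImplicit false

namespace Crest.Agent.R020

open Finset Filter Topology Crest.Agent.R008 Crest.Agent.R026 Crest.NumberTheoryR.TotientScale

theorem prod_g_pos (k : ℕ) : 0 < ∏ i ∈ range k, gSeq (i + 1) := prod_pos fun _ _ => g_pos _

theorem Vol_nonneg (k : ℕ) (s : ℝ) : 0 ≤ Vol k s := by
  refine div_nonneg ?_ (prod_g_pos k).le
  unfold Vp
  split_ifs with h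
  · positivity
  · exact le_rfl

theorem vol_of_nonneg (k : ℕ) {s : ℝ} (h : 0 ≤ s) :
    Vol k s = s ^ k / (k.factorial : ℝ) / ∏ i ∈ range k, gSeq (i + 1) := by
  unfold Vol Vp
  rw [if_pos h]

theorem vol_of_neg (k : ℕ) {s : ℝ} (h : s < 0) : Vol k s = 0 := by
  unfold Vol Vp
  rw [if_neg (not_le.2 h), zero_div]

theorem Vol_mono (k : ℕ) {s s' : ℝ} (h : s ≤ s') : Vol k s ≤ Vol k s' := by
  rcases lt_or_ge s 0 with hs | hs
  · rw [vol_of_neg k hs]; exact Vol_nonneg k s'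
  · rw [vol_of_nonneg k hs, vol_of_nonneg k (hs.trans h)]
    have := prod_g_pos k
    gcongr

theorem Vol_pos (k : ℕ) {s : ℝ} (h : 0 < s) : 0 < Vol k s := by
  rw [vol_of_nonneg k h.le]
  have := prod_g_pos k
  positivity

theorem Vol_zero {s : ℝ} (h : 0 ≤ s) : Vol 0 s = 1 := by
  rw [vol_of_nonneg 0 h]; simp

theorem Vol_succ (k : ℕ) {s : ℝ} (h : 0 ≤ s) :
    Vol (k + 1) s = Vol k s * (s / (((k : ℝ) + 1) * gSeq (k + 1))) := by
  rw [vol_of_nonneg _ h, vol_of_nonneg _ h, prod_range_succ, Nat.factorial_succ, pow_succ]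
  have := (prod_g_pos k).ne'
  have := (g_pos (k + 1)).ne'
  have : (k.factorial : ℝ) ≠ 0 := by positivity
  push_cast
  field_simp

theorem Vol_eq_prod {j k : ℕ} (hjk : j ≤ k) {s : ℝ} (h : 0 < s) :
    Vol j s = Vol k s * ∏ l ∈ Ioc j k, ((l : ℝ) * gSeq l / s) := by
  induction k, hjk using Nat.le_induction with
  | base => simp
  | succ k hk ih =>
    rw [prod_Ioc_succ_top hk, Vol_succ k h.le, ih]
    have := (g_pos (k + 1)).ne'
    push_cast
    field_simp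

theorem Vol_scale (k : ℕ) {s Y : ℝ} (h : 0 < s) (hY : Y ≤ s) :
    Vol k (s - Y) = (1 - Y / s) ^ k * Vol k s := by
  rw [vol_of_nonneg k (sub_nonneg.2 hY), vol_of_nonneg k h.le,
    show s - Y = (1 - Y / s) * s by field_simp, mul_pow]
  ring

/-- `(1 - t) ^ k ≤ exp (-k t)` for all real `t ≤ 1`; `Y` may have either sign. -/
theorem Vol_sub_le (k : ℕ) {s : ℝ} (h : 0 < s) (Y : ℝ) :
    Vol k (s - Y) ≤ Real.exp (-(k * Y / s)) * Vol k s := by
  rcases le_or_gt Y s with hY | hY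
  · rw [Vol_scale k h hY]
    refine mul_le_mul_of_nonneg_right ?_ (Vol_nonneg k s)
    rw [show -(k * Y / s) = k * (-(Y / s)) by ring, Real.exp_nat_mul]
    refine pow_le_pow_left₀ (sub_nonneg.2 ((div_le_one h).2 hY)) ?_ k
    linarith [Real.add_one_le_exp (-(Y / s))]
  · rw [vol_of_neg k (by linarith)]
    exact mul_nonneg (Real.exp_pos _).le (Vol_nonneg k s)

theorem Vol_add_le (k : ℕ) {s : ℝ} (h : 0 < s) (P : ℝ) :
    Vol k (s + P) ≤ Real.exp (k * P / s) * Vol k s := by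
  have := Vol_sub_le k h (-P)
  rwa [sub_neg_eq_add, show -(k * -P / s) = k * P / s by ring] at this

/-- Bernoulli's inequality. -/
theorem le_Vol_sub (k : ℕ) {s Y : ℝ} (h : 0 < s) (hY : Y ≤ s) :
    (1 - k * Y / s) * Vol k s ≤ Vol k (s - Y) := by
  rw [Vol_scale k h hY]
  refine mul_le_mul_of_nonneg_right ?_ (Vol_nonneg k s)
  have h1 : Y / s ≤ 1 := (div_le_one h).2 hY
  have := one_add_mul_le_pow (a := -(Y / s)) (by linarith) k
  rwa [← sub_eq_add_neg, show 1 + k * -(Y / s) = 1 - k * Y / s by ring] at this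

/-- `exp (-2 t) ≤ 1 - t` for `0 ≤ t ≤ 1/2`. -/
theorem exp_le_Vol_sub (k : ℕ) {s Y : ℝ} (h : 0 < s) (h0 : 0 ≤ Y) (hY : Y ≤ s / 2) :
    Real.exp (-(2 * (k * Y / s))) * Vol k s ≤ Vol k (s - Y) := by
  rw [Vol_scale k h (by linarith)]
  refine mul_le_mul_of_nonneg_right ?_ (Vol_nonneg k s)
  rw [show -(2 * (k * Y / s)) = k * (-(2 * (Y / s))) by ring, Real.exp_nat_mul]
  refine pow_le_pow_left₀ (Real.exp_pos _).le ?_ k
  have h1 : 0 ≤ Y / s := div_nonneg h0 h.le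
  have h2 : Y / s ≤ 1 / 2 := by rw [div_le_iff₀ h]; linarith
  rw [Real.exp_neg, inv_le_iff_one_le_mul₀ (Real.exp_pos _)]
  nlinarith [Real.add_one_le_exp (2 * (Y / s))]

theorem scaleG_eq (ρ : ℝ) {x : ℝ} (hx : 0 ≤ bigB x) : scaleG ρ x = Vol (mIndex ρ x) (bigB x) := by
  rw [vol_of_nonneg _ hx, scaleG, div_div]

variable {ρ : ℝ}

/-- `l g_l / B ≤ m ϱ^(10 l) / (λ m ϱ^(10 m))`. -/
theorem V1 (h : Root ρ) {B : ℝ} {m j k : ℕ} (hB : SB ρ B m) (hjk : j ≤ k) (hk : k ≤ m) :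
    Vol j B ≤ Vol k B * ∏ l ∈ Ioc j k, (1 / (lam ρ * vr ρ ^ (10 * (m - l)))) := by
  rcases Nat.eq_zero_or_pos m with rfl | hm
  · obtain rfl : k = 0 := by omega
    obtain rfl : j = 0 := by omega
    simp
  have hB0 := SB.pos h hB hm
  rw [Vol_eq_prod hjk hB0]
  refine mul_le_mul_of_nonneg_left (prod_le_prod (fun l _ => ?_) fun l hl => ?_) (Vol_nonneg k B)
  · have := (g_pos l).le
    positivity
  · have hl' : l ≤ m := (mem_Ioc.1 hl).2.trans hk
    have h1 := lam_pos h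
    have h2 := vr_pos h
    rw [div_le_div_iff₀ hB0 (by positivity), one_mul]
    refine le_trans ?_ hB.1
    have e : vr ρ ^ (10 * m) = vr ρ ^ (10 * l) * vr ρ ^ (10 * (m - l)) := by
      rw [← pow_add]; congr 1; omega
    have h3 : (l : ℝ) * gSeq l ≤ m * vr ρ ^ (10 * l) :=
      mul_le_mul (by exact_mod_cast hl') (g_le h l) (g_pos l).le (Nat.cast_nonneg m)
    calc (l : ℝ) * gSeq l * (lam ρ * vr ρ ^ (10 * (m - l)))
        ≤ m * vr ρ ^ (10 * l) * (lam ρ * vr ρ ^ (10 * (m - l))) := by gcongr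
      _ = _ := by rw [e]; ring

theorem vol_prod_bdd (h : Root ρ) {a : ℝ} (ha : 0 < a) : ∃ C : ℝ, 1 ≤ C ∧ ∀ m j k : ℕ, k ≤ m →
    ∏ l ∈ Ioc j k, (a * (1 / (lam ρ * vr ρ ^ (10 * (m - l))))) ≤ C := by
  classical
  have h1 := lam_pos h
  have h2 := vr_pos h
  obtain ⟨d₀, hd⟩ := poly_le_vr h (a / lam ρ) 0
  have hc : 1 ≤ max 1 (a / lam ρ) := le_max_left _ _
  refine ⟨max 1 (a / lam ρ) ^ d₀, one_le_pow₀ hc, fun m j k hk => ?_⟩
  refine le_trans (prod_le_prod (g := fun l => if m - l < d₀ then max 1 (a / lam ρ) else 1)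
    (fun l _ => by positivity) fun l _ => ?_) ?_
  · have e : a * (1 / (lam ρ * vr ρ ^ (10 * (m - l)))) = a / lam ρ / vr ρ ^ (10 * (m - l)) := by
      field_simp
    rw [e]
    split_ifs with hl
    · exact (div_le_self (by positivity) (one_le_vr_pow h _)).trans (le_max_right _ _)
    · have := hd (m - l) (not_lt.1 hl)
      rw [pow_zero, mul_one] at this
      rw [div_le_one (by positivity)]
      exact this.trans (vr_pow_mono h (by omega))
  · rw [prod_ite, prod_const_one, mul_one, prod_const]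
    refine pow_le_pow_right₀ hc ?_
    refine le_trans (card_le_card (t := Ioc (m - d₀) m) fun l hl => ?_) (by simp; omega)
    simp only [mem_filter, mem_Ioc] at hl ⊢
    omega

/-- Only boundedly many factors in `V1` exceed one, and each is at most `max 1 (1 / λ)`. -/
theorem V1' (h : Root ρ) : ∃ C : ℝ, 1 ≤ C ∧ ∀ (B : ℝ) (m j k : ℕ), SB ρ B m → j ≤ k → k ≤ m →
    Vol j B ≤ C * Vol k B := by
  obtain ⟨C, hC, H⟩ := vol_prod_bdd h one_pos
  refine ⟨C, hC, fun B m j k hB hjk hk => (V1 h hB hjk hk).trans ?_⟩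
  rw [mul_comm]
  refine mul_le_mul_of_nonneg_right ?_ (Vol_nonneg k B)
  simpa only [one_mul] using H m j k hk

/-- The product in `V1` with `k = m` is `λ^(-D) ϱ^(-10 D (D-1) / 2)`, `D = m - j`. -/
theorem V1'' (h : Root ρ) (C₁ : ℝ) : ∃ d₀ : ℕ, ∀ (B : ℝ) (m j : ℕ), SB ρ B m → j + d₀ ≤ m →
    Vol j B * Real.exp (C₁ * ((m - j : ℕ) : ℝ)) ≤ Vol m B := by
  obtain ⟨C, hC, H⟩ := vol_prod_bdd h (Real.exp_pos (C₁ + 1))
  refine ⟨⌈C⌉₊, fun B m j hB hj => ?_⟩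
  have h1 := H m j m le_rfl
  rw [prod_mul_distrib, prod_const, Nat.card_Ioc, ← Real.exp_nat_mul] at h1
  have h2 := V1 h hB (show j ≤ m by omega) le_rfl
  set Q := ∏ l ∈ Ioc j m, (1 / (lam ρ * vr ρ ^ (10 * (m - l))))
  have h3 : C ≤ Real.exp ((m - j : ℕ) : ℝ) := by
    have : C ≤ ((m - j : ℕ) : ℝ) := (Nat.le_ceil C).trans (by exact_mod_cast (by omega))
    linarith [Real.add_one_le_exp ((m - j : ℕ) : ℝ)]
  have h4 : Q * Real.exp (C₁ * ((m - j : ℕ) : ℝ)) ≤ 1 := by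
    refine le_of_mul_le_mul_right ?_ (Real.exp_pos ((m - j : ℕ) : ℝ))
    rw [one_mul, mul_assoc, ← Real.exp_add, mul_comm Q]
    refine le_trans (le_of_eq ?_) (h1.trans h3)
    congr 2
    ring
  calc _ ≤ Vol m B * Q * Real.exp (C₁ * ((m - j : ℕ) : ℝ)) := by gcongr
    _ ≤ Vol m B * 1 := by
      rw [mul_assoc]; exact mul_le_mul_of_nonneg_left h4 (Vol_nonneg m B)
    _ = _ := mul_one _

theorem Vol_ge (h : Root ρ) : ∃ c : ℝ, 0 < c ∧ ∀ (B : ℝ) (m k : ℕ), SB ρ B m → k ≤ m →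
    c ≤ Vol k B := by
  obtain ⟨C, hC, H⟩ := V1' h
  have hC0 : 0 < C := by linarith
  refine ⟨1 / C, by positivity, fun B m k hB hk => ?_⟩
  have h1 := H B m 0 k hB (Nat.zero_le _) hk
  rw [Vol_zero (hB.nonneg h)] at h1
  rw [div_le_iff₀ hC0]
  linarith

/-- A geometric series with ratio `ϱ^(-3)`. -/
theorem V3 (h : Root ρ) (C₁ : ℝ) : ∃ C : ℝ, 1 ≤ C ∧ ∀ m k : ℕ, k ≤ m →
    ∑ i ∈ range (k + 1), gSeq i * (vr ρ ^ (7 * (m - i)) + C₁) ≤
      C * vr ρ ^ (10 * k + 7 * (m - k)) := by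
  have hv := vr_gt h
  have hv0 := vr_pos h
  set q : ℝ := (vr ρ ^ 3)⁻¹ with hq
  have h3 : 1 < vr ρ ^ 3 := one_lt_pow₀ hv (by norm_num)
  have hq0 : 0 ≤ q := by positivity
  have hq1 : q < 1 := inv_lt_one_of_one_lt₀ h3
  have hS : ∀ n : ℕ, ∑ i ∈ range n, q ^ i ≤ (1 - q)⁻¹ := fun n =>
    (tsum_geometric_of_lt_one hq0 hq1) ▸
      (summable_geometric_of_lt_one hq0 hq1).sum_le_tsum _ (fun _ _ => by positivity)
  have h1q : 1 ≤ (1 - q)⁻¹ := by
    rw [le_inv_comm₀ one_pos (by linarith)]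
    linarith
  have hC1 : 1 ≤ 1 + |C₁| := by linarith [abs_nonneg C₁]
  refine ⟨(1 + |C₁|) * (1 - q)⁻¹, one_le_mul_of_one_le_of_one_le hC1 h1q, fun m k hk => ?_⟩
  have key : ∀ i ∈ range (k + 1), gSeq i * (vr ρ ^ (7 * (m - i)) + C₁) ≤
      (1 + |C₁|) * vr ρ ^ (10 * k + 7 * (m - k)) * q ^ (k - i) := by
    intro i hi
    have hi' : i ≤ k := Nat.lt_succ_iff.1 (mem_range.1 hi)
    have h1 : vr ρ ^ (7 * (m - i)) + C₁ ≤ (1 + |C₁|) * vr ρ ^ (7 * (m - i)) := by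
      have := one_le_vr_pow h (7 * (m - i))
      nlinarith [le_abs_self C₁, abs_nonneg C₁]
    have h2 : vr ρ ^ (10 * k + 7 * (m - k)) * q ^ (k - i) =
        vr ρ ^ (10 * i) * vr ρ ^ (7 * (m - i)) := by
      have e : 10 * k + 7 * (m - k) = 10 * i + 7 * (m - i) + 3 * (k - i) := by omega
      rw [e, pow_add, pow_add, hq, inv_pow, ← pow_mul]
      field_simp
    calc gSeq i * (vr ρ ^ (7 * (m - i)) + C₁)
        ≤ gSeq i * ((1 + |C₁|) * vr ρ ^ (7 * (m - i))) :=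
          mul_le_mul_of_nonneg_left h1 (g_pos i).le
      _ ≤ vr ρ ^ (10 * i) * ((1 + |C₁|) * vr ρ ^ (7 * (m - i))) :=
          mul_le_mul_of_nonneg_right (g_le h i) (by positivity)
      _ = _ := by rw [mul_assoc (1 + |C₁|), h2]; ring
  refine (sum_le_sum key).trans ?_
  rw [← mul_sum]
  have h4 : ∑ i ∈ range (k + 1), q ^ (k - i) ≤ (1 - q)⁻¹ := by
    have := sum_range_reflect (fun i => q ^ i) (k + 1)
    simp only [Nat.add_sub_cancel] at this
    rw [this]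
    exact hS _
  calc _ ≤ (1 + |C₁|) * vr ρ ^ (10 * k + 7 * (m - k)) * (1 - q)⁻¹ :=
        mul_le_mul_of_nonneg_left h4 (by positivity)
    _ = _ := by ring

/-- `g_i a_{k-i+j+1} ≤ ϱ^(10 k) ρ^(k-i) (k - i + 1) (j + 1)`. -/
theorem V3' (h : Root ρ) : ∃ C : ℝ, 1 ≤ C ∧ ∀ k j : ℕ,
    ∑ i ∈ range (k + 1), gSeq i * aCoef (k - i + j + 1) ≤
      C * ((j : ℝ) + 1) * vr ρ ^ (10 * k) := by
  have hv0 := vr_pos h
  have h0 := h.1
  have hs : Summable (fun d : ℕ => ((d : ℝ) + 1) * ρ ^ d) := by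
    have hn : ‖ρ‖ < 1 := by rw [Real.norm_eq_abs, abs_of_pos h0]; exact h.2.1
    have h1 := summable_pow_mul_geometric_of_norm_lt_one 1 hn
    have h2 := summable_geometric_of_norm_lt_one hn
    refine (h1.add h2).congr fun d => ?_
    ring
  refine ⟨max 1 (∑' d : ℕ, ((d : ℝ) + 1) * ρ ^ d), le_max_left _ _, fun k j => ?_⟩
  have key : ∀ i ∈ range (k + 1), gSeq i * aCoef (k - i + j + 1) ≤
      ((j : ℝ) + 1) * vr ρ ^ (10 * k) * ((((k - i : ℕ) : ℝ) + 1) * ρ ^ (k - i)) := by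
    intro i hi
    have hi' : i ≤ k := Nat.lt_succ_iff.1 (mem_range.1 hi)
    have h1 : aCoef (k - i + j + 1) ≤ (((k - i : ℕ) : ℝ) + 1) * ((j : ℝ) + 1) := by
      refine (a_le _).trans ?_
      push_cast
      have : (0 : ℝ) ≤ ((k - i : ℕ) : ℝ) * j := by positivity
      nlinarith
    have h2 : vr ρ ^ (10 * k) * ρ ^ (k - i) = vr ρ ^ (10 * i) := by
      have e : 10 * k = 10 * i + 10 * (k - i) := by omega
      rw [e, pow_add, mul_assoc, vr_pow_mul h, mul_one]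
    calc gSeq i * aCoef (k - i + j + 1)
        ≤ vr ρ ^ (10 * i) * ((((k - i : ℕ) : ℝ) + 1) * ((j : ℝ) + 1)) :=
          mul_le_mul (g_le h i) h1 (a_nonneg (by omega)) (by positivity)
      _ = _ := by rw [← h2]; ring
  refine (sum_le_sum key).trans ?_
  rw [← mul_sum]
  have h4 : ∑ i ∈ range (k + 1), (((k - i : ℕ) : ℝ) + 1) * ρ ^ (k - i) ≤
      max 1 (∑' d : ℕ, ((d : ℝ) + 1) * ρ ^ d) := by
    have := sum_range_reflect (fun d : ℕ => ((d : ℝ) + 1) * ρ ^ d) (k + 1)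
    simp only [Nat.add_sub_cancel] at this
    rw [this]
    exact (hs.sum_le_tsum _ (fun _ _ => by positivity)).trans (le_max_right _ _)
  calc _ ≤ ((j : ℝ) + 1) * vr ρ ^ (10 * k) * max 1 (∑' d : ℕ, ((d : ℝ) + 1) * ρ ^ d) :=
        mul_le_mul_of_nonneg_left h4 (by positivity)
    _ = _ := by ring

/-- `l g_l / B ≥ (m / 2) c ϱ^(10 (m - M)) / (2 λ ϱ^30 m ϱ^(10 m))` for `m - M < l ≤ m`. -/
theorem V4 (h : Root ρ) (M : ℕ) : ∃ c : ℝ, 0 < c ∧ ∀ (B : ℝ) (m : ℕ), SB ρ B m → 2 * M ≤ m →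
    c * Vol m B ≤ Vol (m - M) B := by
  obtain ⟨c, hc, -, hg⟩ := g_lower h
  have hv0 := vr_pos h
  have hl := lam_pos h
  set c₀ : ℝ := c / (4 * lam ρ * vr ρ ^ 30 * vr ρ ^ (10 * M)) with hc₀
  have hc0 : 0 < c₀ := by positivity
  refine ⟨c₀ ^ M, by positivity, fun B m hB hm => ?_⟩
  rcases Nat.eq_zero_or_pos m with rfl | hm0
  · obtain rfl : M = 0 := by omega
    simp
  have hB0 := hB.pos h hm0
  rw [Vol_eq_prod (Nat.sub_le m M) hB0, mul_comm]
  refine mul_le_mul_of_nonneg_left ?_ (Vol_nonneg _ _)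
  have hcard : (Ioc (m - M) m).card = M := by rw [Nat.card_Ioc]; omega
  calc c₀ ^ M = ∏ _l ∈ Ioc (m - M) m, c₀ := by rw [prod_const, hcard]
    _ ≤ _ := by
      refine prod_le_prod (fun _ _ => hc0.le) fun l hl' => ?_
      obtain ⟨hl1, hl2⟩ := mem_Ioc.1 hl'
      rw [le_div_iff₀ hB0]
      have h1 : (m : ℝ) ≤ 2 * l := by exact_mod_cast (by omega : m ≤ 2 * l)
      have h2 : c * vr ρ ^ (10 * (m - M)) ≤ gSeq l :=
        (mul_le_mul_of_nonneg_left (vr_pow_mono h (by omega)) hc.le).trans (hg l)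
      have h3 : vr ρ ^ (10 * m) = vr ρ ^ (10 * (m - M)) * vr ρ ^ (10 * M) := by
        rw [← pow_add]; congr 1; omega
      calc c₀ * B ≤ c₀ * (2 * lam ρ * vr ρ ^ 30 * (m * vr ρ ^ (10 * m))) :=
            mul_le_mul_of_nonneg_left hB.2 hc0.le
        _ = (m / 2) * (c * vr ρ ^ (10 * (m - M))) := by
            rw [h3, hc₀]; field_simp; ring
        _ ≤ l * gSeq l := mul_le_mul (by linarith) h2 (by positivity) (by positivity)

/-- A budget change of size `P ϱ^(10 m)` costs a constant factor. -/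
theorem Vol_add_SB (h : Root ρ) {B P : ℝ} {m k : ℕ} (hB : SB ρ B m) (hk : k ≤ m) (hP : 0 ≤ P) :
    Vol k (B + P * vr ρ ^ (10 * m)) ≤ Real.exp (P / lam ρ) * Vol k B := by
  have hv0 := vr_pos h
  have hl := lam_pos h
  rcases Nat.eq_zero_or_pos m with rfl | hm0
  · obtain rfl : k = 0 := by omega
    have hB0 := hB.nonneg h
    rw [Vol_zero hB0, Vol_zero (by positivity), mul_one]
    exact Real.one_le_exp (by positivity)
  have hB0 := hB.pos h hm0
  refine (Vol_add_le k hB0 _).trans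
    (mul_le_mul_of_nonneg_right (Real.exp_le_exp.2 ?_) (Vol_nonneg _ _))
  rw [div_le_div_iff₀ hB0 hl]
  have h1 : (k : ℝ) ≤ m := by exact_mod_cast hk
  calc (k : ℝ) * (P * vr ρ ^ (10 * m)) * lam ρ = P * (lam ρ * (k * vr ρ ^ (10 * m))) := by ring
    _ ≤ P * (lam ρ * (m * vr ρ ^ (10 * m))) := by gcongr
    _ ≤ P * B := mul_le_mul_of_nonneg_left hB.1 hP

end Crest.Agent.R020
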