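import Crest.Agent.R020.Simp
import Crest.Agent.R020.Vol

set_option autoImplicit false

namespace Crest.Agent.R020

open Finset Filter Topology Crest.Agent.R008 Crest.Agent.R026 Crest.NumberTheoryR.TotientScale

variable {ρ : ℝ}

theorem TopW_bud (h : Root ρ) : ∃ P : ℝ, 1 ≤ P ∧ ∀ m j : ℕ, j ≤ m →
    -∑ i ∈ range (j + 1), gSeq i * be ρ m i + cM * ∑ i ∈ range (j + 1), gSeq i ≤
      P * vr ρ ^ (10 * m) := by
  obtain ⟨P, hP, hV⟩ := V3 h cM
  refine ⟨P, hP, fun m j hj => ?_⟩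
  calc _ = ∑ i ∈ range (j + 1), gSeq i * (vr ρ ^ (7 * (m - i)) + cM) := by
        rw [mul_sum, ← sum_neg_distrib, ← sum_add_distrib]
        refine sum_congr rfl fun i _ => ?_
        rw [be]
        ring
    _ ≤ P * vr ρ ^ (10 * j + 7 * (m - j)) := hV m j hj
    _ ≤ _ := mul_le_mul_of_nonneg_left (vr_pow_mono h (by omega)) (by linarith)

theorem TopW_SU (h : Root ρ) : ∃ P : ℝ, 1 ≤ P ∧ ∀ (B : ℝ) (m j : ℕ) (A : Finset (List ℕ)),
    j ≤ m → Fam a0 (be ρ m) B j A → ∑ l ∈ A, wt l ≤ Vol j (B + P * vr ρ ^ (10 * m)) := by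
  obtain ⟨P, hP, hb⟩ := TopW_bud h
  exact ⟨P, hP, fun B m j A hj hA =>
    (SU_g B j _ A hA).trans (Vol_mono j (by linarith [hb m j hj]))⟩

theorem TopW_prod (f : ℕ → ℝ) (k J : ℕ) :
    ∏ l ∈ Ioc k (k + J), f l = ∏ i ∈ range J, f (k + i + 1) := by
  induction J with
  | zero => simp
  | succ J ih => rw [← add_assoc, prod_Ioc_succ_top (by omega), prod_range_succ, ih]

/-- `SU_g`, `V3`, `Vol_add_SB`. -/
theorem top1 (h : Root ρ) : ∃ C : ℝ, 1 ≤ C ∧ ∀ (B : ℝ) (m j : ℕ) (A : Finset (List ℕ)),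
    SB ρ B m → j ≤ m → Fam a0 (be ρ m) B j A → ∑ l ∈ A, wt l ≤ C * Vol j B := by
  obtain ⟨P, hP, hS⟩ := TopW_SU h
  have hl := lam_pos h
  exact ⟨Real.exp (P / lam ρ), Real.one_le_exp (by positivity), fun B m j A hB hj hA =>
    (hS B m j A hj hA).trans (Vol_add_SB h hB hj (by linarith))⟩

/-- `SU_g`: `∑ g_i a_{j+1-i} = g_{j+1} ≥ c ϱ^(10 (j+1))`.  With `s = B + P ϱ^(10 m)`, which is at
most `C m ϱ^(10 m)`, use `Vol_sub_le` and `Vol_add_SB`. -/
theorem top2 (h : Root ρ) : ∃ C c : ℝ, 1 ≤ C ∧ 0 < c ∧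
    ∀ (B w : ℝ) (m j d : ℕ) (A : Finset (List ℕ)), SB ρ B m → j + 1 + d = m → 0 ≤ w →
      Fam a0 (fun i => aCoef (j + 1 - i) * w + be ρ m i) B j A →
      ∑ l ∈ A, wt l ≤ C * Real.exp (-(c * (j / m) * (w / vr ρ ^ (10 * d)))) * Vol j B := by
  obtain ⟨P, hP, hb⟩ := TopW_bud h
  obtain ⟨c, hc, -, hg⟩ := g_lower h
  have hl := lam_pos h
  have hv := vr_pos h
  refine ⟨Real.exp (P / lam ρ), c / (2 * lam ρ * vr ρ ^ 30 + P), Real.one_le_exp (by positivity),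
    by positivity, fun B w m j d A hB hm hw hA => ?_⟩
  have hB0 := hB.nonneg h
  have hm1 : (1 : ℝ) ≤ m := by exact_mod_cast (show 1 ≤ m by omega)
  have hs : 0 < B + P * vr ρ ^ (10 * m) := by positivity
  have h1 : ∑ i ∈ range (j + 1), gSeq i * (aCoef (j + 1 - i) * w + be ρ m i) =
      gSeq (j + 1) * w + ∑ i ∈ range (j + 1), gSeq i * be ρ m i := by
    rw [g_succ, sum_mul, ← sum_add_distrib]
    exact sum_congr rfl fun i _ => by ring
  have h2 : ∑ l ∈ A, wt l ≤ Vol j (B + P * vr ρ ^ (10 * m) - c * vr ρ ^ (10 * (j + 1)) * w) := by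
    refine (SU_g B j _ A hA).trans (Vol_mono j ?_)
    rw [h1]
    linarith [hb m j (by omega), mul_le_mul_of_nonneg_right (hg (j + 1)) hw]
  have h3 : B + P * vr ρ ^ (10 * m) ≤
      (2 * lam ρ * vr ρ ^ 30 + P) * (m * vr ρ ^ (10 * m)) := by
    have h4 : P * vr ρ ^ (10 * m) ≤ P * (m * vr ρ ^ (10 * m)) :=
      mul_le_mul_of_nonneg_left (le_mul_of_one_le_left (by positivity) hm1) (by linarith)
    linarith [hB.2]
  have h4 : c / (2 * lam ρ * vr ρ ^ 30 + P) * (j / m) * (w / vr ρ ^ (10 * d)) ≤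
      j * (c * vr ρ ^ (10 * (j + 1)) * w) / (B + P * vr ρ ^ (10 * m)) := by
    have h5 : vr ρ ^ (10 * m) = vr ρ ^ (10 * (j + 1)) * vr ρ ^ (10 * d) := by
      rw [← pow_add, ← hm]
      congr 1
      ring
    calc _ = j * (c * vr ρ ^ (10 * (j + 1)) * w) /
          ((2 * lam ρ * vr ρ ^ 30 + P) * (m * vr ρ ^ (10 * m))) := by
          rw [h5]
          field_simp
      _ ≤ _ := by gcongr
  calc _ ≤ _ := h2
    _ ≤ _ := Vol_sub_le j hs _
    _ ≤ Real.exp (-(c / (2 * lam ρ * vr ρ ^ 30 + P) * (j / m) * (w / vr ρ ^ (10 * d)))) *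
        (Real.exp (P / lam ρ) * Vol j B) :=
        mul_le_mul (Real.exp_le_exp.2 (neg_le_neg h4)) (Vol_add_SB h hB (by omega) (by linarith))
          (Vol_nonneg _ _) (Real.exp_pos _).le
    _ = _ := by ring

/-- An unusually small entry.  Split at the position `k` (`sum_split_le`), `M = m - k`.
The prefix has weight `≤ C Vol k B` (`Con.take`, `top1`), the entry `≤ K ϱ^(10 M) + cM`
(`mert_up0`), and the rest satisfies `Con a0 (be ρ (M - 1)) (K ϱ^(10 M))` (`Con.drop`,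
`Con.mono`), so that by `SU_g`, `V3` its weight is at most
`((K + C) ϱ^(10 M))^(J-1) / ((J-1)! ∏_{i=1}^{J-1} c ϱ^(10 i))` (`g_lower`).  Finally `V1` gives
`Vol k B ≤ Vol (k+J) B ∏_{i<J} 1 / (λ ϱ^(10 (M-1-i)))`; each `i < J` contributes a factor
`(K + C) ϱ^10 / (c λ)`. -/
theorem lowy (h : Root ρ) : ∃ C : ℝ, 1 ≤ C ∧
    ∀ (B K : ℝ) (m k J : ℕ) (A : Finset (List ℕ)), SB ρ B m → 1 ≤ J → k + J ≤ m → 0 ≤ K →
      Fam a0 (be ρ m) B (k + J) A → (∀ l ∈ A, lv l k ≤ K * vr ρ ^ (10 * (m - k))) →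
      ∑ l ∈ A, wt l ≤ C * ((C * (K + 1)) ^ J / ((J - 1).factorial : ℝ)) * Vol (k + J) B := by
  obtain ⟨C₁, hC₁, h₁⟩ := top1 h
  obtain ⟨P, hP, hS⟩ := TopW_SU h
  obtain ⟨c, hc, -, hg⟩ := g_lower h
  have hl := lam_pos h
  have hv := vr_pos h
  have hcM := one_le_cM
  have hE0 : 0 ≤ (cM + P) * vr ρ ^ 10 / (c * lam ρ) := by positivity
  refine ⟨C₁ + (cM + P) * vr ρ ^ 10 / (c * lam ρ), by linarith,
    fun B K m k J A hB hJ hm hK hA hlow => ?_⟩
  obtain ⟨J, rfl⟩ : ∃ J', J = J' + 1 := ⟨J - 1, by omega⟩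
  obtain ⟨M, rfl⟩ : ∃ M, m = k + (M + 1) := ⟨m - k - 1, by omega⟩
  have hJM : J ≤ M := by omega
  simp only [Nat.add_sub_cancel_left] at hlow
  rw [Nat.add_sub_cancel]
  have hT : 0 ≤ K * vr ρ ^ (10 * (M + 1)) := by positivity
  have hX := one_le_vr_pow h (10 * (M + 1))
  have hD := Vol_nonneg J (K * vr ρ ^ (10 * (M + 1)) + P * vr ρ ^ (10 * M))
  have hmain : ∑ l ∈ A, wt l ≤ C₁ * Vol k B * (K * vr ρ ^ (10 * (M + 1)) + cM) *
      Vol J (K * vr ρ ^ (10 * (M + 1)) + P * vr ρ ^ (10 * M)) := by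
    refine sum_split_le A k
      (fun u => (u.1.length = k ∧ Pr u.1 ∧ Con a0 (be ρ (k + (M + 1))) B u.1) ∧
        LL u.2 ≤ K * vr ρ ^ (10 * (M + 1)))
      (fun _ l => l.length = J ∧ Pr l ∧ Con a0 (be ρ M) (K * vr ρ ^ (10 * (M + 1))) l)
      (fun _ => Vol J (K * vr ρ ^ (10 * (M + 1)) + P * vr ρ ^ (10 * M))) _ (fun S hS' => ?_)
      (fun u _ _ S hS' => hS _ M J S hJM hS') fun l hl' => ?_
    · rw [← sum_mul]
      refine mul_le_mul_of_nonneg_right ?_ hD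
      have h2 := sum_pair_le S wt (fun p : ℕ => 1 / ((p : ℝ) - 1)) (C₁ * Vol k B)
        (K * vr ρ ^ (10 * (M + 1)) + cM)
        (fun l => l.length = k ∧ Pr l ∧ Con a0 (be ρ (k + (M + 1))) B l)
        (fun p => p.Prime ∧ LL p ≤ K * vr ρ ^ (10 * (M + 1))) (fun l _ => wt_nonneg l)
        (fun A' hA' => h₁ B _ k A' hB (by omega) hA') (fun A' hA' => mert_up0 hT hA')
        fun u hu => ⟨(hS' u hu).2.1, (hS' u hu).1, (hS' u hu).2.2⟩
      simpa only [mul_one_div] using h2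
    · obtain ⟨h2, h3, h4⟩ := hA l hl'
      have h5 : k < l.length := by omega
      refine ⟨h5, h3, ⟨⟨by simp only [List.length_take]; omega, h3.take k, h4.take k⟩, hlow l hl'⟩,
        by simp only [List.length_drop]; omega, h3.drop _,
        (h4.drop h5).mono (fun i _ => le_of_eq ?_) (hlow l hl')⟩
      simp only [be]
      congr 3
      omega
  have hE : 0 ≤ (cM + P) * (K + 1) * vr ρ ^ (10 * (M + 1)) := by positivity
  have h2 : K * vr ρ ^ (10 * (M + 1)) + cM ≤ (cM + P) * (K + 1) * vr ρ ^ (10 * (M + 1)) := by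
    have h3 : K + cM ≤ (cM + P) * (K + 1) := by nlinarith
    calc _ ≤ K * vr ρ ^ (10 * (M + 1)) + cM * vr ρ ^ (10 * (M + 1)) := by
          gcongr
          exact le_mul_of_one_le_right (by linarith) hX
      _ = (K + cM) * vr ρ ^ (10 * (M + 1)) := by ring
      _ ≤ _ := by gcongr
  have h3 : K * vr ρ ^ (10 * (M + 1)) + P * vr ρ ^ (10 * M) ≤
      (cM + P) * (K + 1) * vr ρ ^ (10 * (M + 1)) := by
    have h3 : K + P ≤ (cM + P) * (K + 1) := by nlinarith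
    calc _ ≤ K * vr ρ ^ (10 * (M + 1)) + P * vr ρ ^ (10 * (M + 1)) := by
          gcongr
          · exact (vr_gt h).le
          · omega
      _ = (K + P) * vr ρ ^ (10 * (M + 1)) := by ring
      _ ≤ _ := by gcongr
  have h4 := V1 h hB (show k ≤ k + (J + 1) by omega) hm
  rw [TopW_prod] at h4
  have hgp : ∏ i ∈ range J, gSeq (i + 1) = ∏ i ∈ range (J + 1), gSeq i := by
    rw [prod_range_succ', g_zero, mul_one]
  have h5 : (∏ i ∈ range (J + 1), 1 / (lam ρ * vr ρ ^ (10 * (k + (M + 1) - (k + i + 1))))) *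
      (((cM + P) * (K + 1) * vr ρ ^ (10 * (M + 1))) ^ (J + 1) / ∏ i ∈ range (J + 1), gSeq i) ≤
      ((C₁ + (cM + P) * vr ρ ^ 10 / (c * lam ρ)) * (K + 1)) ^ (J + 1) := by
    rw [← card_range (J + 1), ← prod_const, ← prod_const, card_range, ← prod_div_distrib,
      ← prod_mul_distrib]
    refine prod_le_prod (fun i _ => by have := g_pos i; positivity) fun i hi => ?_
    have hi' := mem_range.1 hi
    have h6 : vr ρ ^ (10 * (M + 1)) =
        vr ρ ^ (10 * (k + (M + 1) - (k + i + 1))) * vr ρ ^ (10 * i) * vr ρ ^ 10 := by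
      rw [← pow_add, ← pow_add]
      congr 1
      omega
    calc _ ≤ 1 / (lam ρ * vr ρ ^ (10 * (k + (M + 1) - (k + i + 1)))) *
          ((cM + P) * (K + 1) * vr ρ ^ (10 * (M + 1)) / (c * vr ρ ^ (10 * i))) := by
          gcongr
          exact hg i
      _ = (cM + P) * vr ρ ^ 10 / (c * lam ρ) * (K + 1) := by
          rw [h6]
          field_simp
      _ ≤ _ := by gcongr; linarith
  have hV := Vol_nonneg (k + (J + 1)) B
  have hV' := Vol_nonneg k B
  have hgp0 := prod_g_pos J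
  calc _ ≤ _ := hmain
    _ ≤ C₁ * (Vol (k + (J + 1)) B *
          ∏ i ∈ range (J + 1), 1 / (lam ρ * vr ρ ^ (10 * (k + (M + 1) - (k + i + 1))))) *
        ((cM + P) * (K + 1) * vr ρ ^ (10 * (M + 1))) *
        Vol J ((cM + P) * (K + 1) * vr ρ ^ (10 * (M + 1))) := by
        refine mul_le_mul (mul_le_mul (by gcongr) h2 (by positivity) (by positivity))
          (Vol_mono J h3) hD (by positivity)
    _ = C₁ * ((∏ i ∈ range (J + 1), 1 / (lam ρ * vr ρ ^ (10 * (k + (M + 1) - (k + i + 1))))) *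
        (((cM + P) * (K + 1) * vr ρ ^ (10 * (M + 1))) ^ (J + 1) / ∏ i ∈ range (J + 1), gSeq i) /
          (J.factorial : ℝ)) * Vol (k + (J + 1)) B := by
        rw [Vol.eq_1 J, Vp, if_pos hE, ← hgp, pow_succ _ J]
        ring
    _ ≤ _ := by
        refine mul_le_mul_of_nonneg_right (mul_le_mul (by linarith)
          (div_le_div_of_nonneg_right h5 (by positivity)) ?_ (by linarith)) hV
        rw [← hgp]
        positivity

end Crest.Agent.R020
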