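import Crest.Agent.R020.L2
import Crest.Agent.R020.Col1
import Crest.Agent.R020.TopW

set_option autoImplicit false

namespace Crest.Agent.R020

open Finset Filter Topology Crest.Agent.R008 Crest.Agent.R026 Crest.NumberTheoryR.TotientScale

variable {ρ : ℝ}

theorem L3_mem {x : ℝ} {m J k i : ℕ} {𝒯 : Finset Tail} {e : Tpl × Tpl} :
    e ∈ CP ρ x m J k 𝒯 i ↔ (e.1 ∈ Tup ρ x m J k 𝒯 ∧ e.2 ∈ Tup ρ x m J k 𝒯) ∧ tv e.1 = tv e.2 ∧
      (fl e.1).take i = (fl e.2).take i ∧ (fl e.2).getD i 1 < (fl e.1).getD i 1 := by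
  unfold CP
  rw [mem_filter, mem_product]

theorem L3_head {τ : Tpl} {i : ℕ} (hi : i < (fl τ).length) :
    (sd τ i).1 ≠ [] ∧ (sd τ i).1.getD 0 1 = (fl τ).getD i 1 := by
  unfold sd
  rw [List.drop_eq_getElem_cons hi, List.getD_eq_getElem _ _ hi]
  exact ⟨List.cons_ne_nil _ _, rfl⟩

theorem L3_col {τ τ' : Tpl} {i L : ℕ} {Δ σ s e : ℝ} (hi : i < (fl τ).length)
    (hi' : i < (fl τ').length) (hp : Pr (fl τ ++ τ.1.1.q)) (h1 : Side Δ σ s L (sd τ i))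
    (h2 : Side Δ σ s L (sd τ' i)) (htv : tv τ = tv τ') (ht : (fl τ).take i = (fl τ').take i)
    (hlt : (fl τ').getD i 1 < (fl τ).getD i 1)
    (hs : ∑ j ∈ Icc 1 L, aCoef j * lv (sd τ i).1 j + e ≤ lv (sd τ i).1 0) :
    Col Δ σ s e L (sd τ i, sd τ' i) := by
  refine ⟨h1, h2, ?_, (L3_head hi).1, fun hm => ?_, hs⟩
  · have hpos : 0 < pm ((fl τ).take i) :=
      pm_pos fun p hp' => hp p (List.mem_append_left _ (List.mem_of_mem_take hp'))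
    rw [tv_eq τ i, tv_eq τ' i, ← ht] at htv
    exact Nat.eq_of_mul_eq_mul_left hpos htv
  · have := h2.2.1.le_head hm
    rw [(L3_head hi).2, (L3_head hi').2] at this
    omega

theorem L3_cof (τ : Tpl) (j : ℕ) :
    pm (τ.1.2.take j) * (pm (sd τ (j + 1)).1 * (sd τ (j + 1)).2) = pm τ.1.2 * τ.1.1.val := by
  simp only [sd, fl, List.drop_succ_cons, pm_append, Tail.val]
  rw [← pm_take_mul_drop τ.1.2 j]
  ring

theorem L3_exp {c : ℝ} (hc : 0 ≤ c) (d : ℕ) :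
    c * Real.exp (-((c + 1) * ((d : ℝ) + 1) ^ 2)) ≤ (1 / 2) ^ d := by
  have h1 : (2 : ℝ) ^ d ≤ Real.exp d := by
    rw [← Real.exp_one_pow]
    exact pow_le_pow_left₀ zero_le_two (by linarith [Real.add_one_le_exp 1]) d
  have h2 : c ≤ Real.exp c := by linarith [Real.add_one_le_exp c]
  have hd : (0 : ℝ) ≤ d := Nat.cast_nonneg d
  have h3 : c * 2 ^ d ≤ Real.exp ((c + 1) * ((d : ℝ) + 1) ^ 2) :=
    calc c * 2 ^ d ≤ Real.exp c * Real.exp d := by gcongr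
      _ = Real.exp (c + d) := (Real.exp_add _ _).symm
      _ ≤ _ := Real.exp_le_exp.2 (by nlinarith [mul_nonneg hc hd, mul_nonneg hc (sq_nonneg (d : ℝ))])
  rw [Real.exp_neg, one_div, inv_pow, ← div_eq_mul_inv, ← one_div, div_le_div_iff₀ (Real.exp_pos _)
    (by positivity), one_mul]
  exact h3

/-- Collisions at the top level.  `1 ≤ x / tv`, the map `e ↦ (sd e.1 0, sd e.2 0)` is injective
(`sd_inj`, `sum_le_of_inj`) with values in `Col` and `ColTop` (`side_top`, `tv_eq`,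
`Dec.le_head`) for `Δ = ϱ^(6 m)`, `Λ = B - 1`, `s = B + 1 ≤ ϱ^(11 m)`, `Y = x / log² x`,
`T = log² x`, `log T = 2 B`, `exp (-Λ) = e / log x`; `col`, `Er_small`. -/
theorem L3a (h : Root ρ) {ε : ℝ} (hε : 0 < ε) {J M' : ℕ} {K : ℝ} {𝒯 : Finset Tail}
    (hT : Tails ρ J M' K 𝒯) : ∀ᶠ q in Fl ρ,
    ((CP ρ q.1 q.2 J (q.2 - (M' + J)) 𝒯 0).card : ℝ) ≤ ε * (q.1 / Real.log q.1) := by
  obtain ⟨C, hC, hcol⟩ := col
  obtain ⟨d₀, hd₀⟩ := Er_small h C (11 * Real.log (vr ρ))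
  filter_upwards [tup_struct h hT, side_top h hT, ev_large h 8, ev_large h (2 * Real.exp 2 / ε),
    ev_poly h 7 0, (tendsto_m h).eventually_ge_atTop d₀, (tendsto_m h).eventually_ge_atTop (2 * M'),
    (tendsto_fst_Fl ρ).eventually_ge_atTop (Real.exp 1)] with q h1 h2 h3 h4 h5 h6 h7 h8
  obtain ⟨x, m⟩ := q
  dsimp only at *
  have hx1 : 1 < x := lt_of_lt_of_le (by linarith [Real.add_one_le_exp 1]) h8
  have hx0 : 0 < x := by linarith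
  have hl1 : 1 ≤ Real.log x := (Real.le_log_iff_exp_le hx0).2 h8
  have v6 := one_le_vr_pow h (6 * m)
  have v610 : vr ρ ^ (6 * m) ≤ vr ρ ^ (10 * m) := vr_pow_mono h (by omega)
  have vσ : vr ρ ^ (11 * M') ≤ vr ρ ^ (6 * m) := vr_pow_mono h (by omega)
  have v8 : 7 * vr ρ ^ (6 * m) ≤ vr ρ ^ (8 * m) := by
    rw [pow_zero, mul_one] at h5
    calc 7 * vr ρ ^ (6 * m) ≤ vr ρ ^ m * vr ρ ^ (6 * m) := by gcongr
      _ = vr ρ ^ (7 * m) := by rw [← pow_add]; congr 1; ring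
      _ ≤ _ := vr_pow_mono h (by omega)
  have hB : 0 ≤ bigB x := by linarith [h3.1]
  have hσ0 : 0 ≤ vr ρ ^ (11 * M') := (pow_pos (vr_pos h) _).le
  have hEr := hd₀ m (m + 1) (vr ρ ^ (11 * M')) (bigB x + 1) h6 le_rfl hσ0 vσ (by linarith)
    (by linarith [h3.2])
  have htv : ∀ τ : Tpl, tv τ = pm (sd τ 0).1 * (sd τ 0).2 := fun τ => by
    rw [tv_eq τ 0, List.take_zero, pm_nil, one_mul]
  have key : ∑ e ∈ CP ρ x m J (m - (M' + J)) 𝒯 0, 1 / x ≤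
      (Real.log (Real.log x ^ 2) + 1) * Real.exp (-(bigB x - 1)) *
        Real.exp (-(vr ρ ^ (7 * m) - 1) +
          Er C (vr ρ ^ (6 * m)) (vr ρ ^ (11 * M')) (bigB x + 1) (m + 1)) := by
    refine sum_le_of_inj _ (fun e => (sd e.1 0, sd e.2 0)) (fun e he e' he' hee => ?_) _
      (fun u => 1 / ((pm u.1.1 * u.1.2 : ℕ) : ℝ)) (fun e he => ?_)
      (fun u => Col (vr ρ ^ (6 * m)) (vr ρ ^ (11 * M')) (bigB x + 1) (vr ρ ^ (7 * m) - 1) (m + 1) u ∧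
        ColTop (vr ρ ^ (6 * m)) (bigB x - 1) (x / Real.log x ^ 2) (Real.log x ^ 2) u)
      (fun e he => ?_) _ fun A hA => ?_
    · obtain ⟨⟨a1, a2⟩, -⟩ := L3_mem.1 he
      obtain ⟨⟨b1, b2⟩, -⟩ := L3_mem.1 he'
      exact Prod.ext
        (sd_inj hT (mem_Tup.1 a1).1 (mem_Tup.1 b1).1 (h1 _ a1).1 (h1 _ b1).1 rfl
          (congrArg Prod.fst hee))
        (sd_inj hT (mem_Tup.1 a2).1 (mem_Tup.1 b2).1 (h1 _ a2).1 (h1 _ b2).1 rfl
          (congrArg Prod.snd hee))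
    · obtain ⟨⟨a1, -⟩, -⟩ := L3_mem.1 he
      obtain ⟨-, -, -, -, -, t1, t2⟩ := h1 _ a1
      rw [← htv]
      exact one_div_le_one_div_of_le (lt_trans (by positivity) t2) ((mem_VS hx0.le).1 t1).1
    · obtain ⟨⟨a1, a2⟩, a3, a4, a5⟩ := L3_mem.1 he
      obtain ⟨l1, p1, -, -, -, t1, t2⟩ := h1 _ a1
      obtain ⟨s1, s2, s3, s4⟩ := h2 _ a1
      obtain ⟨r1, -, r3, r4⟩ := h2 _ a2
      refine ⟨L3_col (by simp [fl]) (by simp [fl]) p1 s1 r1 a3 a4 a5 s2, s3, r3,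
        s4.trans (by linarith), r4.trans (by linarith), ?_, ?_⟩
      · rw [← htv]; exact t2
      · rw [← htv, div_mul_cancel₀ _ (by positivity)]
        exact ((mem_VS hx0.le).1 t1).1
    · exact (hcol _ _ _ _ _ A (by linarith) hσ0 (by linarith) fun u hu => (hA u hu).1).2 _ _ _
        (one_le_pow₀ hl1) (by linarith) (by linarith [h3.1]) fun u hu => (hA u hu).2
  rw [sum_const, nsmul_eq_mul, mul_one_div, div_le_iff₀ hx0, Real.log_pow] at key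
  refine key.trans ?_
  have e1 : Real.exp (-(bigB x - 1)) = Real.exp 1 / Real.log x := by
    rw [neg_sub, Real.exp_sub, exp_bigB hx1]
  have hv : 0 < vr ρ ^ (11 * m) := pow_pos (vr_pos h) _
  have hlog : 0 ≤ Real.log (vr ρ) := Real.log_nonneg (vr_gt h).le
  have hm : (0 : ℝ) ≤ m := Nat.cast_nonneg m
  have e2 : Real.exp (-(vr ρ ^ (7 * m) - 1) +
      Er C (vr ρ ^ (6 * m)) (vr ρ ^ (11 * M')) (bigB x + 1) (m + 1)) ≤
      Real.exp 1 / vr ρ ^ (11 * m) := by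
    rw [← Real.exp_log hv, ← Real.exp_sub, Real.log_pow]
    refine Real.exp_le_exp.2 ?_
    push_cast
    nlinarith [mul_nonneg hlog hm, mul_nonneg hlog (sq_nonneg (m : ℝ))]
  have e3 : (((2 : ℕ) : ℝ) * bigB x + 1) * Real.exp 2 ≤ ε * vr ρ ^ (11 * m) := by
    have := h4.2
    rw [div_mul_eq_mul_div, div_le_iff₀ hε] at this
    push_cast
    nlinarith [Real.exp_pos 2]
  have e4 : Real.exp 2 = Real.exp 1 * Real.exp 1 := by rw [← Real.exp_add]; norm_num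
  change (((2 : ℕ) : ℝ) * bigB x + 1) * _ * _ * x ≤ _
  rw [e1]
  calc (((2 : ℕ) : ℝ) * bigB x + 1) * (Real.exp 1 / Real.log x) * _ * x
      ≤ (((2 : ℕ) : ℝ) * bigB x + 1) * (Real.exp 1 / Real.log x) *
        (Real.exp 1 / vr ρ ^ (11 * m)) * x := by gcongr
    _ = (((2 : ℕ) : ℝ) * bigB x + 1) * Real.exp 2 / vr ρ ^ (11 * m) * (x / Real.log x) := by
        rw [e4]; ring
    _ ≤ _ := by
        refine mul_le_mul_of_nonneg_right ((div_le_iff₀ hv).2 e3) (by positivity)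

/-- Collisions at the level `i ≥ 1`, `d = m - i ≥ M' + J`.  Here `p₀ = p₀'`; the map
`e ↦ ((l.take (i - 1), (sd e.1 i, sd e.2 i)), p₀)` is injective (`sd_inj`).  For fixed first
component there are at most `4 C (x / log x) / r` primes `p₀` (`cnt1` with `η = 1/4`,
`cof_small`), `r = pm (l.take (i-1)) * (pm (sd).1 * (sd).2)` (`tv_eq`); `sum_fib_le`,
`sum_pair_le` with `top1` (`Con.take`, `Con.mono`) and `col` (`side_mid`; cancel the common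
prefix in `tv_eq`); `σ = ϱ^(11 M') ≤ ϱ^(6 d)`, `Er_small`. -/
theorem L3b (h : Root ρ) : ∃ M₀ : ℕ, ∀ (J M' : ℕ) (K : ℝ) (𝒯 : Finset Tail), M₀ ≤ M' + J → M' ≤ J →
    Tails ρ J M' K 𝒯 → ∀ᶠ q in Fl ρ, ∀ i, 1 ≤ i → i ≤ q.2 - (M' + J) →
    ((CP ρ q.1 q.2 J (q.2 - (M' + J)) 𝒯 i).card : ℝ) ≤
      q.1 / Real.log q.1 * ((1 / 2) ^ (q.2 - i) * Vol (i - 1) (bigB q.1)) := by
  obtain ⟨C, hC, hcol⟩ := col
  obtain ⟨C₁, hC₁, hcnt⟩ := cnt1
  obtain ⟨C₂, hC₂, htop⟩ := top1 h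
  obtain ⟨d₀, hd₀⟩ := Er_small h C (C₁ / (1 / 2) * C₂ + 1)
  refine ⟨d₀, fun J M' K 𝒯 hM hMJ hT => ?_⟩
  filter_upwards [tup_struct h hT, side_mid h hT, cof_small h (η := 1 - 1 / 2) (by norm_num) hT,
    ev_SB h, (tendsto_fst_Fl ρ).eventually_gt_atTop 1] with q h1 h2 h3 h4 hx1 i hi1 hik
  obtain ⟨x, m⟩ := q
  dsimp only at *
  obtain ⟨j, rfl⟩ : ∃ j, i = j + 1 := ⟨i - 1, by omega⟩
  rw [Nat.add_sub_cancel]
  set d := m - (j + 1) with hd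
  have hx0 : 0 < x := by linarith
  have hl0 : 0 < Real.log x := Real.log_pos hx1
  have hσ0 : 0 ≤ vr ρ ^ (11 * M') := (pow_pos (vr_pos h) _).le
  have hΔ0 : 0 ≤ vr ρ ^ (6 * d) := (pow_pos (vr_pos h) _).le
  have hs0 : 0 ≤ vr ρ ^ (11 * d) := (pow_pos (vr_pos h) _).le
  have hEr := hd₀ d (d + 1) (vr ρ ^ (11 * M')) (vr ρ ^ (11 * d)) (by omega) le_rfl hσ0
    (vr_pow_mono h (by omega)) hs0 le_rfl
  have htake : ∀ τ : Tpl, (fl τ).take (j + 1) = τ.2 :: τ.1.2.take j := fun τ => rfl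
  have key : ∑ e ∈ CP ρ x m J (m - (M' + J)) 𝒯 (j + 1), (1 : ℝ) ≤
      C₁ / (1 / 2) * (x / Real.log x) * (C₂ * Vol j (bigB x) * Real.exp (-vr ρ ^ (7 * d) +
        Er C (vr ρ ^ (6 * d)) (vr ρ ^ (11 * M')) (vr ρ ^ (11 * d)) (d + 1))) := by
    refine sum_le_of_inj _ (fun e => ((e.1.1.2.take j, (sd e.1 (j + 1), sd e.2 (j + 1))), e.1.2))
      (fun e he e' he' hee => ?_) _ (fun _ => (1 : ℝ) * 1) (fun e he => by norm_num)
      (fun u => (((u.1.1.length = j ∧ Pr u.1.1 ∧ Con a0 (be ρ m) (bigB x) u.1.1) ∧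
          Col (vr ρ ^ (6 * d)) (vr ρ ^ (11 * M')) (vr ρ ^ (11 * d)) (vr ρ ^ (7 * d)) (d + 1) u.1.2) ∧
          1 ≤ pm u.1.1 * (pm u.1.2.1.1 * u.1.2.1.2) ∧
          ((pm u.1.1 * (pm u.1.2.1.1 * u.1.2.1.2) : ℕ) : ℝ) ≤ x ^ (1 - 1 / 2 : ℝ)) ∧
        u.2.Prime ∧ (((u.2 - 1) * (pm u.1.1 * (pm u.1.2.1.1 * u.1.2.1.2)) : ℕ) : ℝ) ≤ x)
      (fun e he => ?_) _ fun S hS => ?_
    · obtain ⟨⟨a1, a2⟩, -, a4, -⟩ := L3_mem.1 he
      obtain ⟨⟨b1, b2⟩, -, b4, -⟩ := L3_mem.1 he'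
      simp only [Prod.mk.injEq] at hee
      obtain ⟨⟨c1, c2, c3⟩, c4⟩ := hee
      have c5 : (fl e.1).take (j + 1) = (fl e'.1).take (j + 1) := by rw [htake, htake, c1, c4]
      exact Prod.ext
        (sd_inj hT (mem_Tup.1 a1).1 (mem_Tup.1 b1).1 (h1 _ a1).1 (h1 _ b1).1 c5 c2)
        (sd_inj hT (mem_Tup.1 a2).1 (mem_Tup.1 b2).1 (h1 _ a2).1 (h1 _ b2).1
          (by rw [← a4, ← b4, c5]) c3)
    · obtain ⟨⟨a1, a2⟩, a3, a4, a5⟩ := L3_mem.1 he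
      obtain ⟨l1, p1, -, -, -, t1, -⟩ := h1 _ a1
      obtain ⟨s1, s2⟩ := h2 _ a1 _ hi1 hik
      obtain ⟨m1, m2, m3⟩ := mem_Tup.1 a1
      obtain ⟨g1, g2, g3⟩ := mem_Reg.1 (mem_Gd.1 m2).1
      obtain ⟨o1, o2⟩ := h3 _ m1 _ m2
      dsimp only
      rw [L3_cof]
      refine ⟨⟨⟨⟨by rw [List.length_take, g1]; omega, Pr.take (fun p hp => (g2 p hp).1) j,
        (g3.mono (fun i _ => ?_) le_rfl).take j⟩,
        L3_col (by omega) (by rw [(h1 _ a2).1]; omega) p1 s1 (h2 _ a2 _ hi1 hik).1 a3 a4 a5 s2⟩,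
        o1, o2⟩, p1 _ (by simp [fl]), ((mem_VS hx0.le).1 t1).1⟩
      have := Tail.beta_nonneg (hT.1 _ m1).lam_nonneg J (m - (M' + J)) i
      have := be_nonpos h m i
      linarith
    · refine sum_fib_le S (fun _ => 1) (fun _ _ => 1) (fun a => C₁ / (1 / 2) * (x / Real.log x) /
        ((pm a.1 * (pm a.2.1.1 * a.2.1.2) : ℕ) : ℝ)) _
        (fun a => ((a.1.length = j ∧ Pr a.1 ∧ Con a0 (be ρ m) (bigB x) a.1) ∧
          Col (vr ρ ^ (6 * d)) (vr ρ ^ (11 * M')) (vr ρ ^ (11 * d)) (vr ρ ^ (7 * d)) (d + 1) a.2) ∧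
          1 ≤ pm a.1 * (pm a.2.1.1 * a.2.1.2) ∧
          ((pm a.1 * (pm a.2.1.1 * a.2.1.2) : ℕ) : ℝ) ≤ x ^ (1 - 1 / 2 : ℝ))
        (fun a p => p.Prime ∧ (((p - 1) * (pm a.1 * (pm a.2.1.1 * a.2.1.2)) : ℕ) : ℝ) ≤ x)
        (fun _ _ => zero_le_one) (fun A hA => ?_) (fun a ha A hA => ?_) hS
      · have := sum_pair_le A wt (fun u => 1 / ((pm u.1.1 * u.1.2 : ℕ) : ℝ)) _ _
          (fun l => l.length = j ∧ Pr l ∧ Con a0 (be ρ m) (bigB x) l)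
          (Col (vr ρ ^ (6 * d)) (vr ρ ^ (11 * M')) (vr ρ ^ (11 * d)) (vr ρ ^ (7 * d)) (d + 1))
          (fun a _ => wt_nonneg a) (fun A' hA' => htop (bigB x) m j A' h4 (by omega) hA')
          (fun A' hA' => (hcol _ _ _ _ _ A' hΔ0 hσ0 hs0 hA').1) fun a ha => (hA a ha).1
        refine le_trans (le_of_eq ?_) (mul_le_mul_of_nonneg_left this (by positivity))
        rw [mul_sum]
        refine sum_congr rfl fun a _ => ?_
        rw [wt, Nat.cast_mul (pm a.1), one_div_mul_one_div, one_mul, mul_one_div]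
      · rw [sum_const, nsmul_eq_mul, mul_one]
        exact hcnt x (1 / 2) _ A hx1 (by norm_num) ha.2.1 ha.2.2 hA
  rw [sum_const, nsmul_eq_mul, mul_one] at key
  refine key.trans ?_
  have hV := Vol_nonneg j (bigB x)
  have e1 := L3_exp (c := C₁ / (1 / 2) * C₂) (by positivity) d
  have e2 : Real.exp (-vr ρ ^ (7 * d) +
      Er C (vr ρ ^ (6 * d)) (vr ρ ^ (11 * M')) (vr ρ ^ (11 * d)) (d + 1)) ≤
      Real.exp (-((C₁ / (1 / 2) * C₂ + 1) * ((d : ℝ) + 1) ^ 2)) := Real.exp_le_exp.2 (by linarith)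
  calc C₁ / (1 / 2) * (x / Real.log x) * (C₂ * Vol j (bigB x) * _)
      ≤ C₁ / (1 / 2) * (x / Real.log x) * (C₂ * Vol j (bigB x) *
        Real.exp (-((C₁ / (1 / 2) * C₂ + 1) * ((d : ℝ) + 1) ^ 2))) := by gcongr
    _ = x / Real.log x * ((C₁ / (1 / 2) * C₂ *
        Real.exp (-((C₁ / (1 / 2) * C₂ + 1) * ((d : ℝ) + 1) ^ 2))) * Vol j (bigB x)) := by ring
    _ ≤ _ := by gcongr

end Crest.Agent.R020
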