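import Crest.Agent.R020.L1
import Crest.Agent.R020.L3

set_option autoImplicit false

namespace Crest.Agent.R020

open Finset Filter Topology Crest.Agent.R008 Crest.Agent.R026 Crest.NumberTheoryR.TotientScale

variable {ρ : ℝ}

/-- Two different lists of the same length first differ somewhere. -/
theorem exists_first_diff {l l' : List ℕ} (hl : l.length = l'.length) (hne : l ≠ l') :
    ∃ i, i < l.length ∧ l.take i = l'.take i ∧ l.getD i 1 ≠ l'.getD i 1 := by
  induction l generalizing l' with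
  | nil =>
    cases l' with
    | nil => exact absurd rfl hne
    | cons b l' => simp at hl
  | cons a l ih =>
    cases l' with
    | nil => simp at hl
    | cons b l' =>
      by_cases hab : a = b
      · subst hab
        obtain ⟨i, h1, h2, h3⟩ := ih (by simpa using hl) fun e => hne (by rw [e])
        exact ⟨i + 1, by simpa using h1, by simp [h2], by simpa using h3⟩
      · exact ⟨0, by simp, by simp, by simpa using hab⟩

/-- If any two different elements of a fibre are related in one of the two directions, then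
`#T ≤ #image + #related pairs`: choose one element `c v` in each fibre and send `τ ≠ c (f τ)` to
`(τ, c)` or `(c, τ)`. -/
theorem card_le_image_add {α : Type} (T : Finset α) (f : α → ℕ) (E : Finset (α × α))
    (hE : ∀ a ∈ T, ∀ b ∈ T, a ≠ b → f a = f b → (a, b) ∈ E ∨ (b, a) ∈ E) :
    T.card ≤ (T.image f).card + 2 * E.card := by
  classical
  rcases T.eq_empty_or_nonempty with rfl | ⟨a₀, -⟩
  · simp
  have : Nonempty α := ⟨a₀⟩
  have h1 : (T.filter fun a => a = Function.invFunOn f (T : Set α) (f a)).card ≤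
      (T.image f).card := by
    refine card_le_card_of_injOn f (fun a ha => mem_image_of_mem f (mem_filter.1 ha).1)
      fun a ha b hb e => ?_
    rw [(mem_filter.1 ha).2, (mem_filter.1 hb).2, e]
  have h2 : (T.filter fun a => ¬ a = Function.invFunOn f (T : Set α) (f a)) ⊆
      E.image Prod.fst ∪ E.image Prod.snd := fun a ha => by
    obtain ⟨a1, a2⟩ := mem_filter.1 ha
    rcases hE a a1 _ (Function.invFunOn_apply_mem (f := f) a1) a2
      (Function.invFunOn_apply_eq (f := f) a1).symm with e | e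
    · exact mem_union_left _ (mem_image_of_mem _ e)
    · exact mem_union_right _ (mem_image_of_mem _ e)
  have h3 := (card_le_card h2).trans ((card_union_le _ _).trans
    (add_le_add card_image_le card_image_le))
  have h4 := card_filter_add_card_filter_not (s := T)
    fun a => a = Function.invFunOn f (T : Set α) (f a)
  omega

/-- `card_le_image_add` with `E = ⋃_{i ≤ k} CP i` (`exists_first_diff`; if `fl τ = fl τ'` and
`tv τ = tv τ'` then the values of the tails agree, so `τ = τ'`), `tup_struct`, `count_eq`. -/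
theorem card_Tup_le (h : Root ρ) {J M' : ℕ} {K : ℝ} {𝒯 : Finset Tail} (hT : Tails ρ J M' K 𝒯) :
    ∀ᶠ q in Fl ρ, ((Tup ρ q.1 q.2 J (q.2 - (M' + J)) 𝒯).card : ℝ) ≤ totientCount q.1 +
      2 * ∑ i ∈ range (q.2 - (M' + J) + 1), ((CP ρ q.1 q.2 J (q.2 - (M' + J)) 𝒯 i).card : ℝ) := by
  classical
  filter_upwards [tup_struct h hT, (tendsto_fst_Fl ρ).eventually_ge_atTop 0] with q hq hx
  have key := card_le_image_add (Tup ρ q.1 q.2 J (q.2 - (M' + J)) 𝒯) tv
    ((range (q.2 - (M' + J) + 1)).biUnion (CP ρ q.1 q.2 J (q.2 - (M' + J)) 𝒯))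
    fun a ha b hb hne e => by
      obtain ⟨a1, a2, -⟩ := hq a ha
      obtain ⟨b1, -⟩ := hq b hb
      have hfl : fl a ≠ fl b := fun e' => by
        obtain ⟨⟨t, l⟩, p⟩ := a
        obtain ⟨⟨t', l'⟩, p'⟩ := b
        have h0 : 0 < pm (p :: l) := pm_pos fun r hr => a2 r (List.mem_append_left _ hr)
        obtain ⟨rfl, rfl⟩ := List.cons.inj e'
        simp only [tv, ← mul_assoc, ← pm_cons] at e
        obtain rfl : t = t' := hT.2 (mem_Tup.1 ha).1 (mem_Tup.1 hb).1
          (Nat.eq_of_mul_eq_mul_left h0 e)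
        exact hne rfl
      obtain ⟨i, h1, h2, h3⟩ := exists_first_diff (a1.trans b1.symm) hfl
      rw [a1] at h1
      rcases h3.lt_or_gt with h4 | h4
      · exact Or.inr (mem_biUnion.2 ⟨i, mem_range.2 h1,
          mem_filter.2 ⟨mem_product.2 ⟨hb, ha⟩, e.symm, h2.symm, h4⟩⟩)
      · exact Or.inl (mem_biUnion.2 ⟨i, mem_range.2 h1,
          mem_filter.2 ⟨mem_product.2 ⟨ha, hb⟩, e, h2, h4⟩⟩)
  have h1 : ((Tup ρ q.1 q.2 J (q.2 - (M' + J)) 𝒯).image tv).card ≤ totientCount q.1 := by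
    rw [count_eq hx]
    refine card_le_card fun v hv => ?_
    obtain ⟨τ, hτ, rfl⟩ := mem_image.1 hv
    exact (hq τ hτ).2.2.2.2.2.1
  have h2 := key.trans (add_le_add h1 (Nat.mul_le_mul_left 2 card_biUnion_le))
  exact_mod_cast h2

/-- The lower bound: `card_sigma`, `cnt3`, `cof_small`, `L1`, `L3a` (`Vol_ge`), `L3b` (`V1'`). -/
theorem lower (h : Root ρ) : ∃ C c : ℝ, 1 ≤ C ∧ 0 < c ∧ ∀ ε : ℝ, 0 < ε → ∃ M₀ : ℕ,
    ∀ (M' J : ℕ) (K : ℝ) (𝒯 : Finset Tail), M₀ ≤ M' + J → M' ≤ J → 0 ≤ K → Tails ρ J M' K 𝒯 →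
    ∀ᶠ q in Fl ρ, q.1 / Real.log q.1 *
      ((1 - ε - C * Real.exp (-(c * K))) * Main 𝒯 J (q.2 - (M' + J)) (bigB q.1) -
        ε * Vol (q.2 - (M' + J)) (bigB q.1)) ≤ totientCount q.1 := by
  obtain ⟨C, c, hC, hc, hL1⟩ := L1 h
  obtain ⟨M₁, hL3⟩ := L3b h
  obtain ⟨C₁, hC₁, hV⟩ := V1' h
  obtain ⟨c₀, hc₀, hV0⟩ := Vol_ge h
  refine ⟨C, c, hC, hc, fun ε hε => ?_⟩
  obtain ⟨δ, hδ, hδ1, hδ2⟩ : ∃ δ : ℝ, 0 < δ ∧ δ ≤ 1 ∧ 3 * δ ≤ ε :=
    ⟨min 1 (ε / 3), lt_min one_pos (by positivity), min_le_left _ _,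
      by linarith [min_le_right 1 (ε / 3)]⟩
  obtain ⟨M₂, hL1⟩ := hL1 δ hδ
  obtain ⟨M₃, hM₃⟩ := exists_pow_lt_of_lt_one (show 0 < δ / (4 * C₁) by positivity)
    (show (1 / 2 : ℝ) < 1 by norm_num)
  refine ⟨max M₁ (max M₂ M₃), fun M' J K 𝒯 hM hJ hK hT => ?_⟩
  simp only [max_le_iff] at hM
  filter_upwards [card_Tup_le h hT, hL1 M' J K 𝒯 hM.2.1 hK hT, hL3 J M' K 𝒯 hM.1 hJ hT,
    L3a h (show 0 < δ * c₀ / 2 by positivity) hT, cnt3 h hδ,
    cof_small h (show (0 : ℝ) < 1 / 2 by norm_num) hT, ev_SB h,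
    (tendsto_fst_Fl ρ).eventually_gt_atTop 1, (tendsto_m h).eventually_ge_atTop (M' + J)]
    with q h1 h2 h3 h4 h5 h6 hB hx hm
  have hN : 0 < q.1 / Real.log q.1 := div_pos (by linarith) (Real.log_pos hx)
  obtain ⟨k, hk⟩ : ∃ k, q.2 - (M' + J) = k := ⟨_, rfl⟩
  rw [hk] at h1 h2 h3 h4 h6 ⊢
  have hkm : k ≤ q.2 := by omega
  generalize q.1 / Real.log q.1 = N at h3 h4 h5 hN ⊢
  have hMain : 0 ≤ Main 𝒯 J k (bigB q.1) :=
    sum_nonneg fun t _ => div_nonneg (Vol_nonneg _ _) (Nat.cast_nonneg _)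
  have hVol := Vol_nonneg k (bigB q.1)
  have k1 : (1 - δ) * N * ∑ t ∈ 𝒯, (∑ l ∈ Gd ρ (bigB q.1) q.2 J k t, wt l) / (t.val : ℝ) ≤
      ((Tup ρ q.1 q.2 J k 𝒯).card : ℝ) := by
    rw [Tup, card_sigma, Nat.cast_sum, sum_sigma, mul_sum]
    refine sum_le_sum fun t ht => ?_
    rw [sum_div, mul_sum]
    refine sum_le_sum fun l hl => ?_
    refine le_trans (le_of_eq ?_) (h5 _ (h6 t ht l hl).1 (h6 t ht l hl).2)
    rw [wt, div_div, Nat.cast_mul, mul_one_div]
  have k2 : ∀ j, j ≤ k → ∑ i ∈ range j, (1 / 2 : ℝ) ^ (q.2 - (i + 1)) ≤ 2 * (1 / 2) ^ (q.2 - j) := by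
    intro j
    induction j with
    | zero => intro _; rw [sum_range_zero]; positivity
    | succ j ih =>
      intro hj
      have := ih (by omega)
      rw [sum_range_succ]
      rw [show q.2 - j = q.2 - (j + 1) + 1 by omega, pow_succ] at this
      linarith
  have k3 : ∑ i ∈ range k, ((CP ρ q.1 q.2 J k 𝒯 (i + 1)).card : ℝ) ≤
      N * (δ / 2 * Vol k (bigB q.1)) := by
    calc _ ≤ ∑ i ∈ range k, N * (C₁ * Vol k (bigB q.1)) * (1 / 2 : ℝ) ^ (q.2 - (i + 1)) := by
          refine sum_le_sum fun i hi => ?_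
          have hi' := mem_range.1 hi
          refine (h3 (i + 1) (by omega) (by omega)).trans ?_
          rw [mul_assoc, mul_comm (C₁ * _)]
          gcongr
          exact hV _ _ _ _ hB (by omega) hkm
      _ ≤ N * (C₁ * Vol k (bigB q.1)) * (2 * (1 / 2) ^ (q.2 - k)) := by
          rw [← mul_sum]
          exact mul_le_mul_of_nonneg_left (k2 k le_rfl) (by positivity)
      _ ≤ N * (C₁ * Vol k (bigB q.1)) * (2 * (δ / (4 * C₁))) := by
          gcongr
          exact (pow_le_pow_of_le_one (by norm_num) (by norm_num) (by omega)).trans hM₃.le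
      _ = _ := by field_simp; ring
  have k4 : ((CP ρ q.1 q.2 J k 𝒯 0).card : ℝ) ≤ N * (δ / 2 * Vol k (bigB q.1)) := by
    refine h4.trans ?_
    have := hV0 _ _ _ hB hkm
    calc δ * c₀ / 2 * N = N * (δ / 2 * c₀) := by ring
      _ ≤ _ := by gcongr
  rw [sum_range_succ'] at h1
  have hE : 0 ≤ C * Real.exp (-(c * K)) := by positivity
  generalize C * Real.exp (-(c * K)) = E at h2 hE ⊢
  generalize Main 𝒯 J k (bigB q.1) = A at h2 hMain ⊢
  generalize Vol k (bigB q.1) = V at h2 hVol k3 k4 ⊢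
  generalize ∑ t ∈ 𝒯, (∑ l ∈ Gd ρ (bigB q.1) q.2 J k t, wt l) / (t.val : ℝ) = S at h2 k1
  have k5 : (1 - ε - E) * A - ε * V ≤ (1 - δ) * S - 2 * δ * V := by
    have a1 := mul_le_mul_of_nonneg_left h2 (sub_nonneg.2 hδ1)
    have a2 : 0 ≤ (ε - 2 * δ + δ ^ 2 + δ * E) * A :=
      mul_nonneg (by nlinarith [mul_nonneg hδ.le hE]) hMain
    have a3 : 0 ≤ (ε - 3 * δ + δ ^ 2) * V := mul_nonneg (by nlinarith) hVol
    nlinarith
  have k6 := mul_le_mul_of_nonneg_left k5 hN.le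
  linarith

end Crest.Agent.R020
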