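import Crest.Agent.R020.U3
import Crest.Agent.R020.Low
import Crest.Agent.R020.Lim

set_option autoImplicit false

namespace Crest.Agent.R020

open Finset Filter Topology Crest.Agent.R008 Crest.Agent.R026 Crest.NumberTheoryR.TotientScale

variable {ρ : ℝ}

/-- The normalised count. -/
noncomputable def FF (q : ℝ × ℕ) : ℝ :=
  (totientCount q.1 : ℝ) / (q.1 / Real.log q.1 * Vol q.2 (bigB q.1))

theorem Apx_K {C c δ : ℝ} (hC : 1 ≤ C) (hc : 0 < c) (hδ : 0 < δ) (hδ1 : δ ≤ 1) :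
    ∃ K : ℝ, 0 ≤ K ∧ C * Real.exp (-(c * K)) ≤ δ := by
  have h1 : 1 ≤ C / δ := by rw [le_div_iff₀ hδ]; linarith
  refine ⟨Real.log (C / δ) / c, div_nonneg (Real.log_nonneg h1) hc.le, le_of_eq ?_⟩
  rw [mul_div_cancel₀ _ hc.ne', Real.exp_neg, Real.exp_log (by linarith)]
  field_simp

theorem Apx_pos (h : Root ρ) : ∀ᶠ q in Fl ρ,
    0 < q.1 / Real.log q.1 ∧ 0 < bigB q.1 ∧ SB ρ (bigB q.1) q.2 := by
  filter_upwards [(tendsto_fst_Fl ρ).eventually (eventually_gt_atTop 1),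
    (tendsto_B ρ).eventually (eventually_gt_atTop 0), ev_SB h] with q h1 h2 h3
  exact ⟨div_pos (by linarith) (Real.log_pos h1), h2, h3⟩

theorem Apx_main_nonneg (𝒯 : Finset Tail) (J k : ℕ) (B : ℝ) : 0 ≤ Main 𝒯 J k B :=
  sum_nonneg fun _ _ => div_nonneg (Vol_nonneg _ _) (Nat.cast_nonneg _)

/-- The single tail in the proof of Ford's lower bound. -/
noncomputable def Apx_tail (L : ℝ) : Tail := ⟨[], 1, fun j => if j = 0 then L / aCoef 1 else 0⟩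

theorem Apx_beta (L : ℝ) {J : ℕ} (hJ : 1 ≤ J) (k i : ℕ) :
    (Apx_tail L).beta J k i = aCoef (k - i + 1) * (L / aCoef 1) := by
  unfold Tail.beta Apx_tail
  rw [sum_eq_single 0]
  · simp
  · intro j _ hj
    simp [hj]
  · intro hj
    exact absurd (mem_range.2 (by omega)) hj

theorem Apx_H (L : ℝ) {J : ℕ} (hJ : 1 ≤ J) (k : ℕ) :
    (Apx_tail L).H J k = gSeq (k + 1) * (L / aCoef 1) := by
  unfold Tail.H
  rw [g_succ, sum_mul]
  refine sum_congr rfl fun i hi => ?_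
  have hi' := mem_range.1 hi
  rw [Apx_beta L hJ, show k - i + 1 = k + 1 - i by omega, mul_assoc]

theorem Apx_val (L : ℝ) : (Apx_tail L).val = 1 := by
  simp [Tail.val, Apx_tail, pm_nil]

theorem Apx_tails (h : Root ρ) {K : ℝ} (hK : 0 ≤ K) {J : ℕ} (hJ : 1 ≤ J) :
    Tails ρ J 0 K {Apx_tail (K * vr ρ ^ (10 * J))} := by
  have ha := a_pos (le_refl 1)
  have hv := vr_pos h
  refine ⟨fun t ht => ?_, by simp⟩
  rw [mem_singleton.1 ht]
  refine ⟨by simp [Apx_tail], by simp [Apx_tail, Dec], by simp [Apx_tail], sm_one _,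
    by simp [Apx_tail], fun j => ?_, fun p hp h' => ?_, ?_⟩
  · rw [lv_of_le (by simp [Apx_tail])]
    simp only [Apx_tail]
    split_ifs
    · positivity
    · exact le_rfl
  · rcases h' with h' | h'
    · simp [Apx_tail] at h'
    · exact absurd (Nat.dvd_one.1 h') hp.ne_one
  · rw [Apx_beta _ hJ, zero_add]
    refine le_of_eq ?_
    simp only [tsub_self, zero_add]
    field_simp

/-- Ford's lower bound.  In `lower` choose `K` with `C exp (-c K) ≤ 1/4`, `M' = 0`,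
`J = M = max M₀ 1` and the single tail `q = []`, `n = 1`,
`lam j = if j = 0 then K ϱ^(10 M) / a₁ else 0`.  Then `val = 1`,
`H = g_{k+1} K ϱ^(10 M) / a₁ ≤ 3 K ϱ^(10 (m + 1))`, so `Main ≥ c₁ Vol k B` with
`c₁ = exp (-6 K ϱ^10 / λ)` (`exp_le_Vol_sub`, `ev_large`); take `ε = min (1/4) (c₁ / 4)` and
use `V4`. -/
theorem ford_low (h : Root ρ) : ∃ c : ℝ, 0 < c ∧ ∀ᶠ q in Fl ρ, c ≤ FF q := by
  obtain ⟨C, c, hC, hc, hlow⟩ := lower h
  obtain ⟨K, hK, hK'⟩ := Apx_K hC hc (show (0 : ℝ) < 1 / 4 by norm_num) (by norm_num)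
  have hl := lam_pos h
  have hv := vr_pos h
  set c₁ : ℝ := Real.exp (-(2 * (3 * K * vr ρ ^ 10 / lam ρ))) with hc₁
  have hc₁0 : 0 < c₁ := Real.exp_pos _
  obtain ⟨M₀, hM₀⟩ := hlow (min (1 / 4) (c₁ / 4)) (by positivity)
  obtain ⟨M, hM1, hM2⟩ : ∃ M : ℕ, 1 ≤ M ∧ M₀ ≤ M := ⟨max 1 M₀, le_max_left _ _, le_max_right _ _⟩
  obtain ⟨c₄, hc₄, h₄⟩ := V4 h M
  refine ⟨c₁ / 4 * c₄, by positivity, ?_⟩
  filter_upwards [hM₀ 0 M K _ (by omega) (Nat.zero_le _) hK (Apx_tails h hK hM1), Apx_pos h,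
    (tendsto_m h).eventually (eventually_ge_atTop (2 * M)),
    ev_large h (6 * K * vr ρ ^ 10)] with q hq ⟨hx, hB, hSB⟩ hm ⟨hL, _⟩
  obtain ⟨x, m⟩ := q
  simp only [zero_add] at hq hx hB hSB hm hL
  obtain ⟨k, rfl⟩ : ∃ k, m = k + M := ⟨m - M, by omega⟩
  have h4 := h₄ _ _ hSB hm
  rw [Nat.add_sub_cancel] at hq h4
  have hV := Vol_pos (k + M) hB
  have hV' := Vol_pos k hB
  have ha := a_one.1
  have hg := g_pos (k + 1)
  have hH0 : 0 ≤ gSeq (k + 1) * (K * vr ρ ^ (10 * M) / aCoef 1) := by positivity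
  have hH : gSeq (k + 1) * (K * vr ρ ^ (10 * M) / aCoef 1) ≤
      3 * K * vr ρ ^ 10 * vr ρ ^ (10 * (k + M)) := by
    calc _ ≤ vr ρ ^ (10 * (k + 1)) * (K * vr ρ ^ (10 * M) / (1 / 3)) := by
          gcongr
          · exact g_le h _
          · linarith
      _ = _ := by ring
  have hmain : c₁ * Vol k (bigB x) ≤
      Main {Apx_tail (K * vr ρ ^ (10 * M))} M k (bigB x) := by
    unfold Main
    rw [sum_singleton, Apx_val, Nat.cast_one, div_one, Apx_H _ hM1]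
    refine le_trans ?_ (exp_le_Vol_sub k hB hH0 (by linarith))
    refine mul_le_mul_of_nonneg_right (Real.exp_le_exp.2 (neg_le_neg ?_)) hV'.le
    refine mul_le_mul_of_nonneg_left ?_ (by norm_num)
    rw [div_le_div_iff₀ hB hl]
    have h5 := hSB.1
    have h6 : (k : ℝ) ≤ ((k + M : ℕ) : ℝ) := by exact_mod_cast Nat.le_add_right _ _
    calc _ ≤ ((k + M : ℕ) : ℝ) * (3 * K * vr ρ ^ 10 * vr ρ ^ (10 * (k + M))) * lam ρ := by
          gcongr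
      _ = 3 * K * vr ρ ^ 10 * (lam ρ * (((k + M : ℕ) : ℝ) * vr ρ ^ (10 * (k + M)))) := by ring
      _ ≤ _ := by gcongr
  unfold FF
  rw [le_div_iff₀ (mul_pos hx hV)]
  refine le_trans ?_ hq
  have e1 : min (1 / 4 : ℝ) (c₁ / 4) ≤ 1 / 4 := min_le_left _ _
  have e2 : min (1 / 4 : ℝ) (c₁ / 4) ≤ c₁ / 4 := min_le_right _ _
  have e3 : 1 / 2 * (c₁ * Vol k (bigB x)) ≤ (1 - min (1 / 4) (c₁ / 4) - C * Real.exp (-(c * K))) *
      Main {Apx_tail (K * vr ρ ^ (10 * M))} M k (bigB x) :=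
    mul_le_mul (by linarith) hmain (by positivity) (by linarith)
  have e4 : min (1 / 4 : ℝ) (c₁ / 4) * Vol k (bigB x) ≤ c₁ / 4 * Vol k (bigB x) := by gcongr
  have e5 : c₁ / 4 * (c₄ * Vol (k + M) (bigB x)) ≤ c₁ / 4 * Vol k (bigB x) := by gcongr
  calc _ = x / Real.log x * (c₁ / 4 * (c₄ * Vol (k + M) (bigB x))) := by ring
    _ ≤ _ := mul_le_mul_of_nonneg_left (by linarith) hx.le

theorem Apx_real {F G P ε δ c₀ C₁ : ℝ} (hε : 0 < ε) (hδ : 0 < δ) (hC₁ : 1 ≤ C₁)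
    (d1 : δ ≤ 1 / 2) (d2 : δ ≤ c₀ / 6) (d3 : δ ≤ ε / 4) (d4 : (3 + C₁) * δ ≤ ε * c₀ / 8)
    (hG : 0 ≤ G) (hF : c₀ ≤ F) (lo : (1 - 2 * δ) * G - δ * C₁ ≤ F) (up : F ≤ (1 + δ) * G + δ)
    (hP : |G - P| ≤ δ) : |F / max P (c₀ / 4) - 1| ≤ ε := by
  obtain ⟨p1, p2⟩ := abs_le.1 hP
  have hc₀ : 0 < c₀ := by linarith
  have h1 : δ * G ≤ G := by nlinarith
  have h2 : c₀ / 4 ≤ P := by nlinarith
  have hP0 : 0 < P := by linarith
  rw [max_eq_left h2, show F / P - 1 = (F - P) / P by field_simp, abs_div, abs_of_pos hP0,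
    div_le_iff₀ hP0, abs_le]
  have h3 : ε * c₀ / 8 ≤ ε / 2 * P := by nlinarith
  have h4 : 2 * δ * P ≤ ε / 2 * P := by nlinarith
  have h5 : (1 + δ) * G ≤ (1 + δ) * (P + δ) := by gcongr; linarith
  have h6 : (1 - 2 * δ) * (P - δ) ≤ (1 - 2 * δ) * G :=
    mul_le_mul_of_nonneg_left (by linarith) (by linarith)
  have h7 : δ * δ ≤ δ := by nlinarith
  have h8 : 0 ≤ δ * P := by positivity
  have h9 : δ ≤ δ * C₁ := by nlinarith
  have h10 : 0 ≤ δ * δ := by positivity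
  constructor <;> nlinarith

/-- Approximation by a continuous function of the phase.  Let `δ > 0` be small in terms of `ε`,
the constant `c₀` of `ford_low` and that of `V1'`.  Choose `K` with `C exp (-c K) ≤ δ`, then
`M'` large, `𝒯` from `upper`, and `Ψ₀` from `lim_main`.  Eventually
`(1 - 2 δ) G - C δ ≤ FF ≤ (1 + δ) G + δ` with `G = Main / Vol m B ≥ 0`, `|G - Ψ₀ θ| ≤ δ`.
Since `FF ≥ c₀` we get `Ψ₀ θ ≥ c₀ / 4`; take `Ψ = max Ψ₀ (c₀ / 4)`. -/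
theorem apx (h : Root ρ) {ε : ℝ} (hε : 0 < ε) : ∃ Ψ : ℝ → ℝ, Continuous Ψ ∧ (∀ θ, 0 < Ψ θ) ∧
    ∀ᶠ q in Fl ρ, |FF q / Ψ (phaseArg ρ q.1 - q.2) - 1| ≤ ε := by
  obtain ⟨c₀, hc₀, hford⟩ := ford_low h
  obtain ⟨C₁, hC₁, hV1⟩ := V1' h
  obtain ⟨C, c, hC, hc, hlow⟩ := lower h
  obtain ⟨δ, hδ, d1, d2, d3, d4⟩ : ∃ δ : ℝ, 0 < δ ∧ δ ≤ 1 / 2 ∧ δ ≤ c₀ / 6 ∧ δ ≤ ε / 4 ∧
      (3 + C₁) * δ ≤ ε * c₀ / 8 := by
    refine ⟨min (min (1 / 2) (c₀ / 6)) (min (ε / 4) (ε * c₀ / 8 / (3 + C₁))), by positivity,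
      (min_le_left _ _).trans (min_le_left _ _), (min_le_left _ _).trans (min_le_right _ _),
      (min_le_right _ _).trans (min_le_left _ _), ?_⟩
    rw [mul_comm, ← le_div_iff₀ (by positivity)]
    exact (min_le_right _ _).trans (min_le_right _ _)
  obtain ⟨K, hK, hK'⟩ := Apx_K hC hc hδ (by linarith)
  obtain ⟨M₀, hM₀⟩ := hlow δ hδ
  obtain ⟨M₁, hM₁⟩ := upper h hδ hK
  obtain ⟨𝒯, hT, hup⟩ := hM₁ (max M₀ M₁) (le_max_right _ _)
  have hM := le_max_left M₀ M₁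
  generalize max M₀ M₁ = M' at hT hup hM
  obtain ⟨Ψ₀, hΨ₀, hlim⟩ := lim_main h 𝒯 (M' ^ 3) (M' + M' ^ 3)
  refine ⟨fun θ => max (Ψ₀ θ) (c₀ / 4), hΨ₀.max continuous_const,
    fun θ => lt_max_of_lt_right (by positivity), ?_⟩
  have hlim' := (Metric.tendsto_nhds.1 hlim) δ hδ
  filter_upwards [hford, hup, hM₀ M' (M' ^ 3) K 𝒯 (by omega) (Nat.le_self_pow (by norm_num) _)
    hK hT, Apx_pos h, hlim'] with q h1 h2 h3 ⟨hx, hB, hSB⟩ h4
  rw [Real.dist_eq, sub_zero] at h4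
  have hV := Vol_pos q.2 hB
  have hM0 := Apx_main_nonneg 𝒯 (M' ^ 3) (q.2 - (M' + M' ^ 3)) (bigB q.1)
  have h5 := hV1 (bigB q.1) q.2 (q.2 - (M' + M' ^ 3)) q.2 hSB (Nat.sub_le _ _) le_rfl
  refine Apx_real hε hδ hC₁ d1 d2 d3 d4 (div_nonneg hM0 hV.le) h1 ?_ ?_ h4.le
  · unfold FF
    rw [le_div_iff₀ (mul_pos hx hV)]
    refine le_trans ?_ h3
    have e1 : (1 - 2 * δ) * Main 𝒯 (M' ^ 3) (q.2 - (M' + M' ^ 3)) (bigB q.1) ≤
        (1 - δ - C * Real.exp (-(c * K))) * Main 𝒯 (M' ^ 3) (q.2 - (M' + M' ^ 3)) (bigB q.1) :=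
      mul_le_mul_of_nonneg_right (by linarith) hM0
    have e2 : δ * Vol (q.2 - (M' + M' ^ 3)) (bigB q.1) ≤ δ * (C₁ * Vol q.2 (bigB q.1)) := by
      gcongr
    calc _ = q.1 / Real.log q.1 * ((1 - 2 * δ) * Main 𝒯 (M' ^ 3) (q.2 - (M' + M' ^ 3)) (bigB q.1) -
          δ * (C₁ * Vol q.2 (bigB q.1))) := by field_simp
      _ ≤ _ := mul_le_mul_of_nonneg_left (by linarith) hx.le
  · unfold FF
    rw [div_le_iff₀ (mul_pos hx hV)]
    refine h2.trans (le_of_eq ?_)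
    field_simp

end Crest.Agent.R020
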