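import Crest.Agent.R020.Defs

set_option autoImplicit false

namespace Crest.Agent.R020

open Finset Filter Topology Crest.Agent.R008 Crest.Agent.R026 Crest.NumberTheoryR.TotientScale

theorem a_zero : aCoef 0 = -1 := by
  simp [aCoef]

/-- `a₁ = 2 log 2 - 1`. -/
theorem a_one : 0.38 ≤ aCoef 1 ∧ aCoef 1 ≤ 0.39 := by
  have h : aCoef 1 = 2 * Real.log 2 - 1 := by
    simp only [aCoef, Nat.cast_one, Real.log_one]; norm_num
  have h1 := Real.log_two_gt_d9
  have h2 := Real.log_two_lt_d9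
  rw [h]; constructor <;> norm_num at * <;> linarith

/-- `a₂ = 3 log 3 - 2 log 2 - 1`; `3 ^ 12 > 2 ^ 19`. -/
theorem a_two : 0.9 ≤ aCoef 2 := by
  have h : aCoef 2 = 3 * Real.log 3 - 2 * Real.log 2 - 1 := by
    simp only [aCoef, Nat.cast_ofNat]; norm_num
  have h1 := Real.log_two_gt_d9
  have h3 : 19 * Real.log 2 ≤ 12 * Real.log 3 := by
    have : Real.log ((2 : ℝ) ^ 19) ≤ Real.log ((3 : ℝ) ^ 12) :=
      Real.log_le_log (by norm_num) (by norm_num)
    rw [Real.log_pow, Real.log_pow] at this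
    exact_mod_cast this
  rw [h]; norm_num at *; linarith

theorem ren1_a_le_log (j : ℕ) : aCoef j ≤ Real.log ((j : ℝ) + 1) := by
  rcases Nat.eq_zero_or_pos j with rfl | hj
  · rw [a_zero]; simp
  · have hj' : (0 : ℝ) < j := by exact_mod_cast hj
    have h1 : Real.log (((j : ℝ) + 1) / j) ≤ ((j : ℝ) + 1) / j - 1 :=
      Real.log_le_sub_one_of_pos (by positivity)
    rw [Real.log_div (by positivity) hj'.ne'] at h1
    have h2 : (j : ℝ) * (Real.log ((j : ℝ) + 1) - Real.log j) ≤ j * (((j : ℝ) + 1) / j - 1) :=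
      mul_le_mul_of_nonneg_left h1 hj'.le
    have h3 : (j : ℝ) * (((j : ℝ) + 1) / j - 1) = 1 := by field_simp; ring
    unfold aCoef
    linarith

theorem ren1_log_le_a {j : ℕ} (hj : 1 ≤ j) : Real.log (j : ℝ) ≤ aCoef j := by
  have hj' : (0 : ℝ) < j := by exact_mod_cast hj
  have h1 : Real.log ((j : ℝ) / ((j : ℝ) + 1)) ≤ (j : ℝ) / ((j : ℝ) + 1) - 1 :=
    Real.log_le_sub_one_of_pos (by positivity)
  rw [Real.log_div hj'.ne' (by positivity)] at h1
  have h2 : ((j : ℝ) + 1) * (Real.log j - Real.log ((j : ℝ) + 1)) ≤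
      ((j : ℝ) + 1) * ((j : ℝ) / ((j : ℝ) + 1) - 1) :=
    mul_le_mul_of_nonneg_left h1 (by positivity)
  have h3 : ((j : ℝ) + 1) * ((j : ℝ) / ((j : ℝ) + 1) - 1) = -1 := by field_simp; ring
  unfold aCoef
  linarith

/-- Convexity of `x log x` (`Real.convexOn_mul_log`), or `log j ≤ a_j ≤ log (j + 1)`. -/
theorem a_mono {i j : ℕ} (h : i ≤ j) : aCoef i ≤ aCoef j := by
  refine monotone_nat_of_le_succ (f := aCoef) (fun n => ?_) h
  have h1 := ren1_a_le_log n
  have h2 := ren1_log_le_a (j := n + 1) (by omega)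
  push_cast at h2
  exact h1.trans h2

theorem a_pos {j : ℕ} (h : 1 ≤ j) : 0 < aCoef j := by
  have h1 := a_mono h
  have h2 := a_one.1
  norm_num at h2
  linarith

theorem a_nonneg {j : ℕ} (h : 1 ≤ j) : 0 ≤ aCoef j := (a_pos h).le

/-- `a_j ≤ log (j + 1) ≤ j`. -/
theorem a_le (j : ℕ) : aCoef j ≤ j := by
  have h1 := ren1_a_le_log j
  have h2 : Real.log ((j : ℝ) + 1) ≤ (j : ℝ) + 1 - 1 := Real.log_le_sub_one_of_pos (by positivity)
  linarith

theorem g_zero : gSeq 0 = 1 := by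
  simp [gSeq, gList]

theorem ren1_getD (j : ℕ) : ∀ d, d ≤ j → (gList j).getD d 0 = gSeq (j - d) := by
  induction j with
  | zero =>
    intro d hd
    obtain rfl : d = 0 := by omega
    rfl
  | succ j ih =>
    intro d hd
    rcases d with _ | d
    · rfl
    · have h1 : (gList (j + 1)).getD (d + 1) 0 = (gList j).getD d 0 := by
        simp [gList]
      rw [h1, ih d (by omega)]
      congr 1
      omega

/-- First show `(gList j).getD d 0 = gSeq (j - d)` for `d ≤ j`. -/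
theorem g_succ (j : ℕ) : gSeq (j + 1) = ∑ i ∈ range (j + 1), gSeq i * aCoef (j + 1 - i) := by
  have h1 : gSeq (j + 1) = ∑ d ∈ range (j + 1), aCoef (d + 1) * (gList j).getD d 0 := by
    simp [gSeq, gList]
  rw [h1, ← Finset.sum_range_reflect]
  refine Finset.sum_congr rfl fun i hi => ?_
  have hi' := Finset.mem_range.1 hi
  rw [ren1_getD j _ (by omega), mul_comm]
  congr 2 <;> omega

theorem g_eq {l : ℕ} (h : 1 ≤ l) : gSeq l = ∑ i ∈ range l, gSeq i * aCoef (l - i) := by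
  obtain ⟨j, rfl⟩ : ∃ j, l = j + 1 := ⟨l - 1, by omega⟩
  exact g_succ j

theorem g_pos (j : ℕ) : 0 < gSeq j := by
  induction j using Nat.strong_induction_on with
  | _ j ih =>
    rcases j with _ | j
    · rw [g_zero]; exact one_pos
    · rw [g_succ]
      refine Finset.sum_pos (fun i hi => ?_) ⟨0, by simp⟩
      have hi' := Finset.mem_range.1 hi
      exact mul_pos (ih i hi') (a_pos (by omega))

/-- `g_j ≥ g₀ a_j ≥ a₁`. -/
theorem g_ge (j : ℕ) : 1 / 3 ≤ gSeq j := by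
  rcases j with _ | j
  · rw [g_zero]; norm_num
  · rw [g_succ]
    have h1 : gSeq 0 * aCoef (j + 1 - 0) ≤ ∑ i ∈ range (j + 1), gSeq i * aCoef (j + 1 - i) :=
      Finset.single_le_sum (f := fun i => gSeq i * aCoef (j + 1 - i))
        (fun i hi => mul_nonneg (g_pos i).le
          (a_nonneg (by have := Finset.mem_range.1 hi; omega))) (by simp)
    rw [g_zero, one_mul] at h1
    have h2 : aCoef 1 ≤ aCoef (j + 1 - 0) := a_mono (by omega)
    have h3 := a_one.1
    norm_num at h3 ⊢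
    linarith

/-- The power series is continuous on `[0, 0.9]` (`continuousOn_tsum`, `a_j ≤ j`), vanishes at
`0` and exceeds `1` at `0.9` (two terms suffice); intermediate value theorem. -/
theorem exists_root : ∃ ρ : ℝ, Root ρ := by
  set f : ℝ → ℝ := fun x => ∑' j : ℕ, aCoef (j + 1) * x ^ (j + 1) with hf
  have hsum : Summable (fun j : ℕ => ((j + 1 : ℕ) : ℝ) * (0.9 : ℝ) ^ (j + 1)) := by
    have h := summable_pow_mul_geometric_of_norm_lt_one (R := ℝ) 1 (r := (0.9 : ℝ))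
      (by rw [Real.norm_eq_abs, abs_of_pos (by norm_num)]; norm_num)
    have h2 := (summable_nat_add_iff 1).2 h
    simpa using h2
  have hb : ∀ (j : ℕ) (x : ℝ), x ∈ Set.Icc (0 : ℝ) 0.9 →
      ‖aCoef (j + 1) * x ^ (j + 1)‖ ≤ ((j + 1 : ℕ) : ℝ) * (0.9 : ℝ) ^ (j + 1) := by
    intro j x hx
    have ha := a_nonneg (j := j + 1) (by omega)
    rw [Real.norm_eq_abs, abs_of_nonneg (mul_nonneg ha (pow_nonneg hx.1 _))]
    exact mul_le_mul (a_le _) (pow_le_pow_left₀ hx.1 hx.2 _) (pow_nonneg hx.1 _) (by positivity)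
  have hc : ContinuousOn f (Set.Icc (0 : ℝ) 0.9) :=
    continuousOn_tsum (fun j => by fun_prop) hsum hb
  have hs : ∀ x ∈ Set.Icc (0 : ℝ) 0.9, Summable (fun j : ℕ => aCoef (j + 1) * x ^ (j + 1)) :=
    fun x hx => Summable.of_norm_bounded hsum (fun j => hb j x hx)
  have h0 : f 0 = 0 := by simp [hf]
  have h9 : 1 < f 0.9 := by
    have h1 : ∑ j ∈ range 2, aCoef (j + 1) * (0.9 : ℝ) ^ (j + 1) ≤ f 0.9 :=
      (hs 0.9 ⟨by norm_num, le_rfl⟩).sum_le_tsum _ (fun j _ =>
        mul_nonneg (a_nonneg (by omega)) (by positivity))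
    rw [Finset.sum_range_succ, Finset.sum_range_one] at h1
    have h2 := a_one.1
    have h3 := a_two
    norm_num at h1 h2 h3 ⊢
    linarith
  obtain ⟨x, hx, hfx⟩ := intermediate_value_Icc (by norm_num : (0 : ℝ) ≤ 0.9) hc
    (show (1 : ℝ) ∈ Set.Icc (f 0) (f 0.9) from ⟨by rw [h0]; norm_num, h9.le⟩)
  refine ⟨x, ?_, by linarith [hx.2], ?_⟩
  · rcases hx.1.eq_or_lt with h | h
    · rw [← h, h0] at hfx; norm_num at hfx
    · exact h
  · have := (hs x hx).hasSum
    rw [← hfx]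
    exact this

variable {ρ : ℝ}

theorem vr_gt (h : Root ρ) : 1 < vr ρ := by
  exact Real.one_lt_rpow_of_pos_of_lt_one_of_neg h.1 h.2.1 (by norm_num)

theorem vr_pos (h : Root ρ) : 0 < vr ρ := zero_lt_one.trans (vr_gt h)

theorem one_le_vr_pow (h : Root ρ) (j : ℕ) : 1 ≤ vr ρ ^ j := one_le_pow₀ (vr_gt h).le

theorem vr_pow_mono (h : Root ρ) {i j : ℕ} (hij : i ≤ j) : vr ρ ^ i ≤ vr ρ ^ j :=
  pow_le_pow_right₀ (vr_gt h).le hij

theorem vr_pow_mul (h : Root ρ) (j : ℕ) : vr ρ ^ (10 * j) * ρ ^ j = 1 := by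
  have h1 : vr ρ ^ 10 * ρ = 1 := by
    unfold vr
    rw [← Real.rpow_natCast, ← Real.rpow_mul h.1.le]
    norm_num
    rw [Real.rpow_neg_one]
    exact inv_mul_cancel₀ h.1.ne'
  rw [pow_mul, ← mul_pow, h1, one_pow]

theorem lam_pos (h : Root ρ) : 0 < lam ρ := by
  unfold lam
  exact Real.log_pos (by rw [lt_div_iff₀ h.1]; linarith [h.2.1])

theorem lam_eq (h : Root ρ) : lam ρ = 10 * Real.log (vr ρ) := by
  unfold lam vr
  rw [Real.log_rpow h.1, one_div, Real.log_inv]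
  ring

theorem exp_lam (h : Root ρ) (j : ℕ) : Real.exp (lam ρ * j) = vr ρ ^ (10 * j) := by
  rw [lam_eq h, ← Real.exp_log (pow_pos (vr_pos h) (10 * j)), Real.log_pow]
  congr 1
  push_cast
  ring

/-- `u_j = g_j ρ^j ≤ 1` by strong induction: `u_j = ∑ (a_d ρ^d) u_{j-d}`. -/
theorem g_le (h : Root ρ) (j : ℕ) : gSeq j ≤ vr ρ ^ (10 * j) := by
  have key : ∀ j, gSeq j * ρ ^ j ≤ 1 := by
    intro j
    induction j using Nat.strong_induction_on with
    | _ j ih =>
      rcases j with _ | j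
      · rw [g_zero]; simp
      · rw [g_succ, Finset.sum_mul]
        have h1 : ∑ i ∈ range (j + 1), gSeq i * aCoef (j + 1 - i) * ρ ^ (j + 1) ≤
            ∑ i ∈ range (j + 1), aCoef (j + 1 - 1 - i + 1) * ρ ^ (j + 1 - 1 - i + 1) := by
          refine Finset.sum_le_sum fun i hi => ?_
          have hi' := Finset.mem_range.1 hi
          have e1 : j + 1 - 1 - i + 1 = j + 1 - i := by omega
          have e2 : ρ ^ (j + 1) = ρ ^ i * ρ ^ (j + 1 - i) := by
            rw [← pow_add]; congr 1; omega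
          rw [e1, e2]
          have h2 := ih i hi'
          have h3 : 0 ≤ aCoef (j + 1 - i) * ρ ^ (j + 1 - i) :=
            mul_nonneg (a_nonneg (by omega)) (pow_nonneg h.1.le _)
          nlinarith
        refine h1.trans ?_
        rw [Finset.sum_range_reflect (fun d => aCoef (d + 1) * ρ ^ (d + 1))]
        exact sum_le_hasSum _ (fun d _ => mul_nonneg (a_nonneg (by omega)) (pow_nonneg h.1.le _))
          h.2.2
  have h1 := key j
  rw [← vr_pow_mul h j] at h1
  exact le_of_mul_le_mul_right h1 (pow_pos h.1 _)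

theorem be_nonpos (h : Root ρ) (m i : ℕ) : be ρ m i ≤ 0 := by
  unfold be
  exact neg_nonpos.2 (pow_pos (vr_pos h) _).le

/-- Exponentials beat polynomials. -/
theorem poly_le_vr (h : Root ρ) (C : ℝ) (a : ℕ) :
    ∃ d₀ : ℕ, ∀ d : ℕ, d₀ ≤ d → C * ((d : ℝ) + 1) ^ a ≤ vr ρ ^ d := by
  have h1 := tendsto_pow_const_div_const_pow_of_one_lt a (vr_gt h)
  have h2 := (h1.comp (tendsto_add_atTop_nat 1)).const_mul (C * vr ρ)
  rw [mul_zero] at h2
  obtain ⟨d₀, hd⟩ := eventually_atTop.1 (h2.eventually (gt_mem_nhds one_pos))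
  refine ⟨d₀, fun d hd' => ?_⟩
  have h3 := hd d hd'
  simp only [Function.comp] at h3
  have hp := pow_pos (vr_pos h) d
  have hv := vr_pos h
  have e : C * vr ρ * (((d + 1 : ℕ) : ℝ) ^ a / vr ρ ^ (d + 1)) =
      C * ((d : ℝ) + 1) ^ a / vr ρ ^ d := by
    push_cast
    rw [pow_succ]
    field_simp
  rw [e, div_lt_one hp] at h3
  exact h3.le

end Crest.Agent.R020
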