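import Crest.Agent.R020.Bas1
import Crest.Agent.R020.Ren1

set_option autoImplicit false

namespace Crest.Agent.R020

open Finset Filter Topology Crest.Agent.R008 Crest.Agent.R026 Crest.NumberTheoryR.TotientScale

/-! ### Lists -/

theorem mem_Lists {P : Finset ℕ} {k : ℕ} {l : List ℕ} :
    l ∈ Lists P k ↔ l.length = k ∧ ∀ p ∈ l, p ∈ P := by
  unfold Lists
  rw [mem_image]
  constructor
  · rintro ⟨f, hf, rfl⟩
    refine ⟨List.length_ofFn, fun p hp => ?_⟩
    obtain ⟨i, rfl⟩ := List.mem_ofFn.1 hp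
    exact Fintype.mem_piFinset.1 hf i
  · rintro ⟨rfl, h⟩
    exact ⟨l.get, Fintype.mem_piFinset.2 fun i => h _ (List.get_mem l i), List.ofFn_get l⟩

theorem mem_Reg {β : ℕ → ℝ} {B : ℝ} {k : ℕ} {l : List ℕ} :
    l ∈ Reg β B k ↔ l.length = k ∧ (∀ p ∈ l, p.Prime ∧ LL p ≤ 3 * B) ∧ Con a0 β B l := by
  unfold Reg
  simp only [mem_filter, mem_Lists, mem_PL, and_assoc]

theorem fam_Reg (β : ℕ → ℝ) (B : ℝ) (k : ℕ) : Fam a0 β B k (Reg β B k) := fun _ hl =>
  ⟨(mem_Reg.1 hl).1, fun p hp => ((mem_Reg.1 hl).2.1 p hp).1, (mem_Reg.1 hl).2.2⟩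

theorem pm_nil : pm [] = 1 := rfl

theorem pm_cons (p : ℕ) (l : List ℕ) : pm (p :: l) = (p - 1) * pm l := by
  simp [pm]

theorem pm_append (l l' : List ℕ) : pm (l ++ l') = pm l * pm l' := by
  simp [pm]

theorem pm_perm {l l' : List ℕ} (h : l.Perm l') : pm l = pm l' := (h.map _).prod_eq

theorem pm_pos {l : List ℕ} (h : Pr l) : 0 < pm l := by
  refine List.prod_pos fun a ha => ?_
  obtain ⟨p, hp, rfl⟩ := List.mem_map.1 ha
  have := (h p hp).two_le
  omega

theorem pm_take_mul_drop (l : List ℕ) (j : ℕ) : pm (l.take j) * pm (l.drop j) = pm l := by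
  rw [← pm_append, List.take_append_drop]

theorem pm_filter_mul (l : List ℕ) (P : ℕ → Bool) :
    pm (l.filter P) * pm (l.filter (fun p => !P p)) = pm l := by
  rw [← pm_append]
  exact pm_perm (List.filter_append_perm P l)

theorem pm_eq_prod (l : List ℕ) : pm l = ∏ j : Fin l.length, (l[j] - 1) := by
  unfold pm
  rw [← List.prod_ofFn]
  congr 1
  exact List.ext_getElem (by simp) fun i h1 h2 => by simp

theorem wt_nonneg (l : List ℕ) : 0 ≤ wt l := by
  unfold wt
  positivity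

theorem wt_nil : wt [] = 1 := by
  simp [wt, pm]

theorem wt_cons {p : ℕ} (hp : 1 ≤ p) (l : List ℕ) : wt (p :: l) = 1 / ((p : ℝ) - 1) * wt l := by
  unfold wt
  rw [pm_cons, Nat.cast_mul, Nat.cast_sub hp, Nat.cast_one, one_div_mul_one_div]

theorem wt_append (l l' : List ℕ) : wt (l ++ l') = wt l * wt l' := by
  unfold wt
  rw [pm_append, Nat.cast_mul, one_div_mul_one_div]

theorem Pr.take {l : List ℕ} (h : Pr l) (j : ℕ) : Pr (l.take j) := fun p hp => h p (List.mem_of_mem_take hp)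

theorem Pr.drop {l : List ℕ} (h : Pr l) (j : ℕ) : Pr (l.drop j) := fun p hp => h p (List.mem_of_mem_drop hp)

theorem Pr.getD {l : List ℕ} (h : Pr l) {j : ℕ} (hj : j < l.length) : (l.getD j 1).Prime := by
  rw [List.getD_eq_getElem _ _ hj]
  exact h _ (List.getElem_mem hj)

theorem getD_mem {l : List ℕ} {j : ℕ} (hj : j < l.length) : l.getD j 1 ∈ l := by
  rw [List.getD_eq_getElem _ _ hj]
  exact List.getElem_mem hj

theorem split_at {l : List ℕ} {j : ℕ} (hj : j < l.length) :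
    l = l.take j ++ l.getD j 1 :: l.drop (j + 1) := by
  rw [List.getD_eq_getElem _ _ hj, ← List.drop_eq_getElem_cons hj, List.take_append_drop]

theorem Nb_pm {l : List ℕ} (h : Pr l) (σ w : ℝ) :
    Nb (pm l) σ w = ∑ j ∈ range l.length, Nb (l.getD j 1 - 1) σ w := by
  induction l with
  | nil => simp [pm_nil, Nb_one]
  | cons p l ih =>
    have h1 : Pr l := fun q hq => h q (List.mem_cons_of_mem _ hq)
    have h2 := (h p List.mem_cons_self).two_le
    rw [pm_cons, Nb_mul (by omega) (pm_pos h1).ne', ih h1, List.length_cons, sum_range_succ', add_comm]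
    simp only [List.getD_cons_succ, List.getD_cons_zero]

theorem sm_pm {l : List ℕ} {w : ℝ} (h : ∀ p ∈ l, p.Prime ∧ LL p ≤ w) : Sm w (pm l) := by
  induction l with
  | nil => exact sm_one w
  | cons p l ih =>
    rw [pm_cons]
    exact (sm_pred (h p List.mem_cons_self).1 (h p List.mem_cons_self).2).mul
      (ih fun q hq => h q (List.mem_cons_of_mem _ hq))

theorem sm_prod {l : List ℕ} {w : ℝ} (h : ∀ p ∈ l, p.Prime ∧ LL p ≤ w) : Sm w l.prod := by
  induction l with
  | nil => exact sm_one w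
  | cons p l ih =>
    rw [List.prod_cons]
    exact (sm_prime (h p List.mem_cons_self).1 (h p List.mem_cons_self).2).mul
      (ih fun q hq => h q (List.mem_cons_of_mem _ hq))

theorem lv_nonneg (l : List ℕ) (j : ℕ) : 0 ≤ lv l j := LL_nonneg _

theorem lv_of_le {l : List ℕ} {j : ℕ} (h : l.length ≤ j) : lv l j = 0 := by
  unfold lv
  rw [List.getD_eq_default _ _ h, Nat.cast_one, LL_one]

theorem lt_length_of_lv_pos {l : List ℕ} {j : ℕ} (h : 0 < lv l j) : j < l.length := by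
  by_contra h'
  rw [lv_of_le (not_lt.1 h')] at h
  exact lt_irrefl _ h

theorem lv_cons_zero (p : ℕ) (l : List ℕ) : lv (p :: l) 0 = LL p := rfl

theorem lv_cons_succ (p : ℕ) (l : List ℕ) (j : ℕ) : lv (p :: l) (j + 1) = lv l j := rfl

theorem lv_take {l : List ℕ} {i j : ℕ} (h : j < i) : lv (l.take i) j = lv l j := by
  unfold lv
  rw [List.getD_eq_getElem?_getD, List.getD_eq_getElem?_getD, List.getElem?_take_of_lt h]

theorem lv_take_le (l : List ℕ) (i j : ℕ) : lv (l.take i) j ≤ lv l j := by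
  rcases lt_or_ge j i with h | h
  · exact (lv_take h).le
  · rw [lv_of_le ((List.length_take_le i l).trans h)]
    exact lv_nonneg l j

theorem lv_drop (l : List ℕ) (i j : ℕ) : lv (l.drop i) j = lv l (i + j) := by
  unfold lv
  rw [List.getD_eq_getElem?_getD, List.getD_eq_getElem?_getD, List.getElem?_drop]

theorem lv_append_left {l : List ℕ} (l' : List ℕ) {j : ℕ} (h : j < l.length) :
    lv (l ++ l') j = lv l j := by
  unfold lv
  rw [List.getD_append _ _ _ _ h]

theorem lv_append_right (l l' : List ℕ) (j : ℕ) : lv (l ++ l') (l.length + j) = lv l' j := by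
  unfold lv
  rw [List.getD_append_right _ _ _ _ (Nat.le_add_right _ _), Nat.add_sub_cancel_left]

theorem exists_lv_of_mem {l : List ℕ} {p : ℕ} (h : p ∈ l) :
    ∃ j, j < l.length ∧ l.getD j 1 = p ∧ lv l j = LL p := by
  obtain ⟨j, hj, rfl⟩ := List.getElem_of_mem h
  refine ⟨j, hj, List.getD_eq_getElem _ _ hj, ?_⟩
  unfold lv
  rw [List.getD_eq_getElem _ _ hj]

theorem ys_zero (B : ℝ) (l : List ℕ) : ys B l 0 = B := rfl

theorem ys_succ (B : ℝ) (l : List ℕ) (j : ℕ) : ys B l (j + 1) = lv l j := rfl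

theorem ys_of_pos (B : ℝ) (l : List ℕ) {j : ℕ} (h : 1 ≤ j) : ys B l j = lv l (j - 1) := by
  obtain ⟨j, rfl⟩ := Nat.exists_eq_add_of_le' h
  rfl

theorem ys_nonneg (B : ℝ) (l : List ℕ) {j : ℕ} (h : 1 ≤ j) : 0 ≤ ys B l j := by
  rw [ys_of_pos B l h]
  exact lv_nonneg _ _

theorem lv_anti_of_pairwise {l : List ℕ} (h : l.Pairwise (· ≥ ·)) {i j : ℕ} (hij : i ≤ j) :
    lv l j ≤ lv l i := by
  rcases lt_or_ge j l.length with hj | hj
  · rcases hij.eq_or_lt with rfl | hlt
    · exact le_rfl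
    · unfold lv
      rw [List.getD_eq_getElem _ _ hj, List.getD_eq_getElem _ _ (hlt.trans hj)]
      exact LL_mono_nat (List.pairwise_iff_getElem.1 h i j (hlt.trans hj) hj hlt)
  · rw [lv_of_le hj]
    exact lv_nonneg l i

theorem Dec.lv_anti {l : List ℕ} (h : Dec l) {i j : ℕ} (hij : i ≤ j) : lv l j ≤ lv l i :=
  lv_anti_of_pairwise (List.Pairwise.imp (fun hab => le_of_lt hab) h) hij

theorem Dec.LL_le {l : List ℕ} (h : Dec l) {p : ℕ} (hp : p ∈ l) : LL p ≤ lv l 0 := by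
  obtain ⟨j, -, -, hj⟩ := exists_lv_of_mem hp
  rw [← hj]
  exact h.lv_anti (Nat.zero_le j)

theorem Dec.le_head {l : List ℕ} (h : Dec l) {p : ℕ} (hp : p ∈ l) : p ≤ l.getD 0 1 := by
  cases l with
  | nil => exact absurd hp List.not_mem_nil
  | cons q l =>
    rcases List.mem_cons.1 hp with rfl | hq
    · exact le_rfl
    · exact (List.rel_of_pairwise_cons h hq).le

theorem Dec.nodup {l : List ℕ} (h : Dec l) : l.Nodup := List.Pairwise.imp (fun hab => ne_of_gt hab) h

theorem Dec.sublist {l l' : List ℕ} (h : Dec l) (h' : l'.Sublist l) : Dec l' := List.Pairwise.sublist h' h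

/-- Removing entries from a decreasing list decreases every entry. -/
theorem Dec.lv_sublist {l l' : List ℕ} (h : Dec l) (h' : l'.Sublist l) (j : ℕ) :
    lv l' j ≤ lv l j := by
  induction h' generalizing j with
  | slnil => exact le_rfl
  | cons a _ ih =>
    refine (ih (List.Pairwise.of_cons h) j).trans ?_
    rw [← lv_cons_succ a]
    exact h.lv_anti (Nat.le_succ j)
  | cons_cons a _ ih =>
    cases j with
    | zero => exact le_rfl
    | succ j => exact ih (List.Pairwise.of_cons h) j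

theorem Dec.ext {l l' : List ℕ} (h : Dec l) (h' : Dec l') (he : ∀ p, p ∈ l ↔ p ∈ l') :
    l = l' :=
  List.Perm.eq_of_pairwise (fun _ _ _ _ hab hba => absurd hab (lt_asymm hba)) h h'
    ((List.perm_ext_iff_of_nodup h.nodup h'.nodup).2 he)

theorem dec_iff {l : List ℕ} :
    Dec l ↔ ∀ j, j + 1 < l.length → l.getD (j + 1) 1 < l.getD j 1 := by
  unfold Dec
  rw [← List.isChain_iff_pairwise, List.isChain_iff_getElem]
  refine forall_congr' fun j => forall_congr' fun hj => ?_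
  rw [List.getD_eq_getElem _ _ hj, List.getD_eq_getElem _ _ (by omega : j < l.length)]

theorem totient_prod_mul {l : List ℕ} (h : Pr l) (hd : l.Nodup) {n : ℕ} (hn : ∀ p ∈ l, ¬ p ∣ n) :
    Nat.totient (l.prod * n) = pm l * Nat.totient n := by
  induction l with
  | nil => simp [pm_nil]
  | cons p l ih =>
    have hp := h p List.mem_cons_self
    have h1 : Pr l := fun q hq => h q (List.mem_cons_of_mem _ hq)
    obtain ⟨h2, h3⟩ := List.nodup_cons.1 hd
    have h4 : ¬ p ∣ l.prod * n := fun h5 => by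
      rcases (Nat.Prime.dvd_mul hp).1 h5 with h6 | h6
      · obtain ⟨q, hq, h7⟩ := (Prime.dvd_prod_iff hp.prime).1 h6
        exact h2 (((Nat.prime_dvd_prime_iff_eq hp (h1 q hq)).1 h7) ▸ hq)
      · exact hn p List.mem_cons_self h6
    rw [List.prod_cons, pm_cons, mul_assoc, mul_assoc,
      Nat.totient_mul ((Nat.Prime.coprime_iff_not_dvd hp).2 h4), Nat.totient_prime hp,
      ih h1 h3 fun q hq => hn q (List.mem_cons_of_mem _ hq)]

theorem pm_dvd_totient {l : List ℕ} (h : Pr l) (hd : l.Nodup) {n : ℕ} (hn : ∀ p ∈ l, p ∣ n) :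
    pm l ∣ Nat.totient n := by
  have h1 : l.prod ∣ n := by
    induction l with
    | nil => simp
    | cons p l ih =>
      have hp := h p List.mem_cons_self
      have h1 : Pr l := fun q hq => h q (List.mem_cons_of_mem _ hq)
      obtain ⟨h2, h3⟩ := List.nodup_cons.1 hd
      have h4 : ¬ p ∣ l.prod := fun h6 => by
        obtain ⟨q, hq, h7⟩ := (Prime.dvd_prod_iff hp.prime).1 h6
        exact h2 (((Nat.prime_dvd_prime_iff_eq hp (h1 q hq)).1 h7) ▸ hq)
      rw [List.prod_cons]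
      exact ((Nat.Prime.coprime_iff_not_dvd hp).2 h4).mul_dvd_of_dvd_of_dvd (hn p List.mem_cons_self)
        (ih h1 h3 fun q hq => hn q (List.mem_cons_of_mem _ hq))
  have h2 := totient_prod_mul h hd (n := 1) fun p hp => (h p hp).not_dvd_one
  rw [mul_one, Nat.totient_one, mul_one] at h2
  rw [← h2]
  exact Nat.totient_dvd_of_dvd h1

/-! ### The system of inequalities -/

theorem bas2_ys_take (B : ℝ) (l : List ℕ) {i j : ℕ} (h : i ≤ j) :
    ys B (l.take j) i = ys B l i := by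
  cases i with
  | zero => rfl
  | succ i => rw [ys_succ, ys_succ, lv_take (by omega)]

theorem bas2_sum_mono (B : ℝ) (l : List ℕ) (i : ℕ) {k k' : ℕ} (h : k ≤ k') :
    ∑ t ∈ Ioc i k, a0 i t * ys B l t ≤ ∑ t ∈ Ioc i k', a0 i t * ys B l t := by
  refine sum_le_sum_of_subset_of_nonneg (Ioc_subset_Ioc_right h) fun t ht _ => ?_
  have h1 := (mem_Ioc.1 ht).1
  exact mul_nonneg (a_nonneg (by omega)) (ys_nonneg B l (by omega))

theorem Con.mono {α : ℕ → ℕ → ℝ} {β β' : ℕ → ℝ} {B B' : ℝ} {l : List ℕ} (h : Con α β' B l)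
    (hβ : ∀ i, i ≤ l.length → β i ≤ β' i) (hB : B ≤ B') : Con α β B' l := by
  intro i hi
  have h1 := h i hi
  have e : ∑ j ∈ Ioc i l.length, α i j * ys B' l j = ∑ j ∈ Ioc i l.length, α i j * ys B l j := by
    refine sum_congr rfl fun j hj => ?_
    have hj1 : 1 ≤ j := by have := (mem_Ioc.1 hj).1; omega
    rw [ys_of_pos B' l hj1, ys_of_pos B l hj1]
  have h2 : ys B l i ≤ ys B' l i := by
    cases i with
    | zero => exact hB
    | succ i => exact le_refl _
  have h3 := hβ i hi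
  rw [e]; linarith

theorem Fam.mono {α : ℕ → ℕ → ℝ} {β β' : ℕ → ℝ} {B B' : ℝ} {k : ℕ} {A : Finset (List ℕ)}
    (h : Fam α β' B k A) (hβ : ∀ i, i ≤ k → β i ≤ β' i) (hB : B ≤ B') : Fam α β B' k A := by
  intro l hl
  obtain ⟨h1, h2, h3⟩ := h l hl
  exact ⟨h1, h2, h3.mono (fun i hi => hβ i (h1 ▸ hi)) hB⟩

theorem Fam.subset {α : ℕ → ℕ → ℝ} {β : ℕ → ℝ} {B : ℝ} {k : ℕ} {A A' : Finset (List ℕ)}
    (h : Fam α β B k A) (hA : A' ⊆ A) : Fam α β B k A' := fun l hl => h l (hA hl)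

/-- Appending a last entry. -/
theorem con_concat {α : ℕ → ℕ → ℝ} {β : ℕ → ℝ} {B : ℝ} {l : List ℕ} {p : ℕ} :
    Con α β B (l ++ [p]) ↔ Con α (fun i => β i + α i (l.length + 1) * LL p) B l ∧
      β (l.length + 1) ≤ LL p := by
  have e1 : ∀ j, j ≤ l.length → ys B (l ++ [p]) j = ys B l j := by
    intro j hj
    cases j with
    | zero => rfl
    | succ j => rw [ys_succ, ys_succ, lv_append_left _ (by omega)]
  have e2 : ys B (l ++ [p]) (l.length + 1) = LL p := by
    have := lv_append_right l [p] 0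
    rw [add_zero, lv_cons_zero] at this
    rw [ys_succ, this]
  have e3 : ∀ i, i ≤ l.length → ∑ j ∈ Ioc i (l.length + 1), α i j * ys B (l ++ [p]) j =
      ∑ j ∈ Ioc i l.length, α i j * ys B l j + α i (l.length + 1) * LL p := by
    intro i hi
    rw [sum_Ioc_succ_top hi, e2]
    congr 1
    exact sum_congr rfl fun j hj => by rw [e1 j (mem_Ioc.1 hj).2]
  have e4 : (l ++ [p]).length = l.length + 1 := by simp
  unfold Con
  rw [e4]
  constructor
  · intro h
    refine ⟨fun i hi => ?_, ?_⟩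
    · have h1 := h i (by omega)
      rw [e3 i hi, e1 i hi] at h1
      linarith
    · have h1 := h (l.length + 1) le_rfl
      rw [Ioc_self, sum_empty, zero_add, e2] at h1
      exact h1
  · rintro ⟨h1, h2⟩ i hi
    rcases Nat.lt_or_ge l.length i with hlt | hle
    · obtain rfl : i = l.length + 1 := by omega
      rw [Ioc_self, sum_empty, zero_add, e2]
      exact h2
    · have h3 := h1 i hle
      rw [e3 i hle, e1 i hle]
      linarith

theorem Con.take {β : ℕ → ℝ} {B : ℝ} {l : List ℕ} (h : Con a0 β B l) (j : ℕ) :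
    Con a0 β B (l.take j) := by
  intro i hi
  rw [List.length_take] at hi ⊢
  have hi1 : i ≤ j := hi.trans (min_le_left _ _)
  have hi2 : i ≤ l.length := hi.trans (min_le_right _ _)
  have h1 := h i hi2
  have h2 := bas2_sum_mono B l i (min_le_right j l.length)
  have e : ∑ t ∈ Ioc i (min j l.length), a0 i t * ys B (l.take j) t =
      ∑ t ∈ Ioc i (min j l.length), a0 i t * ys B l t :=
    sum_congr rfl fun t ht => by
      rw [bas2_ys_take B l ((mem_Ioc.1 ht).2.trans (min_le_left _ _))]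
  rw [e, bas2_ys_take B l hi1]
  linarith

/-- Keep the contribution of the first removed entry. -/
theorem Con.take_one {β : ℕ → ℝ} {B : ℝ} {l : List ℕ} (h : Con a0 β B l) {j : ℕ}
    (hj : j < l.length) : Con a0 (fun i => aCoef (j + 1 - i) * lv l j + β i) B (l.take j) := by
  intro i hi
  have hl : (l.take j).length = j := by rw [List.length_take]; omega
  rw [hl] at hi ⊢
  have h1 := h i (by omega)
  have h2 := bas2_sum_mono B l i (show j + 1 ≤ l.length from hj)
  rw [sum_Ioc_succ_top hi, ys_succ] at h2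
  have e : ∑ t ∈ Ioc i j, a0 i t * ys B (l.take j) t = ∑ t ∈ Ioc i j, a0 i t * ys B l t :=
    sum_congr rfl fun t ht => by rw [bas2_ys_take B l (mem_Ioc.1 ht).2]
  rw [e, bas2_ys_take B l hi]
  have e2 : a0 i (j + 1) = aCoef (j + 1 - i) := rfl
  rw [e2] at h2
  linarith

theorem Con.drop {β : ℕ → ℝ} {B : ℝ} {l : List ℕ} (h : Con a0 β B l) {j : ℕ} (hj : j < l.length) :
    Con a0 (fun i => β (j + 1 + i)) (lv l j) (l.drop (j + 1)) := by
  have e1 : ∀ i, ys (lv l j) (l.drop (j + 1)) i = ys B l (j + 1 + i) := by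
    intro i
    cases i with
    | zero => rfl
    | succ i => rw [ys_succ, lv_drop, ← add_assoc, ys_succ]
  intro i hi
  rw [List.length_drop] at hi ⊢
  have h1 := h (j + 1 + i) (by omega)
  have e : ∑ t ∈ Ioc i (l.length - (j + 1)), a0 i t * ys (lv l j) (l.drop (j + 1)) t =
      ∑ t ∈ Ioc (j + 1 + i) l.length, a0 (j + 1 + i) t * ys B l t := by
    refine sum_nbij' (fun t => j + 1 + t) (fun t => t - (j + 1)) ?_ ?_ ?_ ?_ ?_
    · intro t ht
      simp only [mem_Ioc] at ht ⊢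
      omega
    · intro t ht
      simp only [mem_Ioc] at ht ⊢
      omega
    · intro t _
      simp
    · intro t ht
      simp only [mem_Ioc] at ht
      omega
    · intro t _
      rw [e1]
      unfold a0
      rw [Nat.add_sub_add_left]
  rw [e, e1]
  exact h1

/-- If the order fails between the levels `j - 1` and `j` up to `e`. -/
theorem Con.ext {β : ℕ → ℝ} {B e : ℝ} {l : List ℕ} (h : Con a0 β B l) {j : ℕ} (h1 : 1 ≤ j)
    (hj : j ≤ l.length) (ho : ys B l (j - 1) ≤ ys B l j + e) : Ext j (β (j - 1) - e) B l := by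
  obtain ⟨j, rfl⟩ : ∃ j0, j = j0 + 1 := ⟨j - 1, by omega⟩
  rw [Nat.add_sub_cancel] at ho ⊢
  have h2 := h j (by omega)
  have e : Ioc j l.length = insert (j + 1) (Ioc (j + 1) l.length) := by
    ext t
    simp only [mem_Ioc, mem_insert]
    omega
  rw [e, sum_insert (by simp)] at h2
  have e1 : a0 j (j + 1) = aCoef 1 := by unfold a0; rw [Nat.add_sub_cancel_left]
  have e2 : ∑ t ∈ Ioc (j + 1) l.length, a0 j t * ys B l t =
      ∑ t ∈ Ioc (j + 1) l.length, aCoef (t - (j + 1) + 1) * ys B l t := by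
    refine sum_congr rfl fun t ht => ?_
    have := (mem_Ioc.1 ht).1
    unfold a0
    rw [show t - j = t - (j + 1) + 1 by omega]
  rw [e1, e2] at h2
  unfold Ext
  linarith

/-! ### Sums over pairs and lists -/

/-- Sum first over the second coordinate. -/
theorem sum_fib_le {α β : Type} (S : Finset (α × β)) (f : α → ℝ) (g : α → β → ℝ) (D : α → ℝ)
    (D₁ : ℝ) (P : α → Prop) (Q : α → β → Prop) (hf : ∀ a, P a → 0 ≤ f a)
    (h₁ : ∀ A : Finset α, (∀ a ∈ A, P a) → ∑ a ∈ A, f a * D a ≤ D₁)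
    (h₂ : ∀ a, P a → ∀ A : Finset β, (∀ b ∈ A, Q a b) → ∑ b ∈ A, g a b ≤ D a)
    (hS : ∀ u ∈ S, P u.1 ∧ Q u.1 u.2) : ∑ u ∈ S, f u.1 * g u.1 u.2 ≤ D₁ := by
  classical
  rw [← sum_fiberwise_of_maps_to (s := S) (t := S.image Prod.fst) (g := Prod.fst)
    (fun u hu => mem_image_of_mem _ hu)]
  have hP : ∀ a ∈ S.image Prod.fst, P a := by
    intro a ha
    obtain ⟨u, hu, rfl⟩ := mem_image.1 ha
    exact (hS u hu).1
  refine le_trans (sum_le_sum fun a ha => ?_) (h₁ _ hP)
  have e : ∑ u ∈ S with u.1 = a, f u.1 * g u.1 u.2 =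
      f a * ∑ b ∈ (S.filter (fun u => u.1 = a)).image Prod.snd, g a b := by
    rw [sum_image, mul_sum]
    · refine sum_congr rfl fun u hu => ?_
      rw [(mem_filter.1 hu).2]
    · intro u hu v hv huv
      exact Prod.ext ((mem_filter.1 hu).2.trans (mem_filter.1 hv).2.symm) huv
  rw [e]
  refine mul_le_mul_of_nonneg_left (h₂ a (hP a ha) _ fun b hb => ?_) (hf a (hP a ha))
  obtain ⟨u, hu, rfl⟩ := mem_image.1 hb
  obtain ⟨hu1, rfl⟩ := mem_filter.1 hu
  exact (hS u hu1).2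

theorem sum_pair_le {α β : Type} (S : Finset (α × β)) (f : α → ℝ) (g : β → ℝ) (D₁ D₂ : ℝ)
    (P : α → Prop) (Q : β → Prop) (hf : ∀ a, P a → 0 ≤ f a)
    (h₁ : ∀ A : Finset α, (∀ a ∈ A, P a) → ∑ a ∈ A, f a ≤ D₁)
    (h₂ : ∀ A : Finset β, (∀ b ∈ A, Q b) → ∑ b ∈ A, g b ≤ D₂)
    (hS : ∀ u ∈ S, P u.1 ∧ Q u.2) : ∑ u ∈ S, f u.1 * g u.2 ≤ D₁ * D₂ := by
  have hD : 0 ≤ D₂ := by simpa using h₂ ∅ (by simp)
  refine sum_fib_le S f (fun _ b => g b) (fun _ => D₂) (D₁ * D₂) P (fun _ b => Q b) hf ?_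
    (fun _ _ A hA => h₂ A hA) hS
  intro A hA
  rw [← sum_mul]
  exact mul_le_mul_of_nonneg_right (h₁ A hA) hD

/-- Transport along a map which is injective on `S`. -/
theorem sum_le_of_inj {α β : Type} (S : Finset α) (φ : α → β) (hφ : Set.InjOn φ (S : Set α))
    (f : α → ℝ) (g : β → ℝ) (hfg : ∀ a ∈ S, f a ≤ g (φ a)) (P : β → Prop)
    (hP : ∀ a ∈ S, P (φ a)) (D : ℝ) (h : ∀ A : Finset β, (∀ b ∈ A, P b) → ∑ b ∈ A, g b ≤ D) :
    ∑ a ∈ S, f a ≤ D := by
  classical
  refine (sum_le_sum hfg).trans ?_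
  rw [← sum_image (f := g) hφ]
  refine h _ fun b hb => ?_
  obtain ⟨a, ha, rfl⟩ := mem_image.1 hb
  exact hP a ha

/-- Union bound over a finite set of labels. -/
theorem sum_le_sum_cover {α ι : Type} (S : Finset α) (I : Finset ι) (f : α → ℝ)
    (hf : ∀ a ∈ S, 0 ≤ f a) (P : ι → α → Prop) (hP : ∀ a ∈ S, ∃ i ∈ I, P i a) (D : ι → ℝ)
    (h : ∀ i ∈ I, ∀ A : Finset α, A ⊆ S → (∀ a ∈ A, P i a) → ∑ a ∈ A, f a ≤ D i) :
    ∑ a ∈ S, f a ≤ ∑ i ∈ I, D i := by
  classical
  calc ∑ a ∈ S, f a ≤ ∑ a ∈ S, ∑ i ∈ I, (if P i a then f a else 0) := by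
        refine sum_le_sum fun a ha => ?_
        obtain ⟨i, hi, hPi⟩ := hP a ha
        have := single_le_sum (f := fun i => if P i a then f a else 0)
          (fun i _ => by split_ifs; exacts [hf a ha, le_rfl]) hi
        simpa [hPi] using this
    _ = ∑ i ∈ I, ∑ a ∈ S, (if P i a then f a else 0) := sum_comm
    _ ≤ ∑ i ∈ I, D i := by
        refine sum_le_sum fun i hi => ?_
        rw [← sum_filter]
        exact h i hi _ (filter_subset _ _) fun a ha => (mem_filter.1 ha).2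

theorem sum_le_add_cover {α : Type} (S : Finset α) (f : α → ℝ) (P : α → Prop) (D₁ D₂ : ℝ)
    (h₁ : ∀ A : Finset α, A ⊆ S → (∀ a ∈ A, P a) → ∑ a ∈ A, f a ≤ D₁)
    (h₂ : ∀ A : Finset α, A ⊆ S → (∀ a ∈ A, ¬ P a) → ∑ a ∈ A, f a ≤ D₂) :
    ∑ a ∈ S, f a ≤ D₁ + D₂ := by
  classical
  rw [← sum_filter_add_sum_filter_not S P]
  exact add_le_add (h₁ _ (filter_subset _ _) fun a ha => (mem_filter.1 ha).2)
    (h₂ _ (filter_subset _ _) fun a ha => (mem_filter.1 ha).2)

theorem sum_lists_le (P : ℕ → Prop) (D : ℝ)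
    (h : ∀ A : Finset ℕ, (∀ p ∈ A, p.Prime ∧ P p) → ∑ p ∈ A, 1 / ((p : ℝ) - 1) ≤ D)
    (k : ℕ) (A : Finset (List ℕ)) (hA : ∀ l ∈ A, l.length = k ∧ ∀ p ∈ l, p.Prime ∧ P p) :
    ∑ l ∈ A, wt l ≤ D ^ k := by
  induction k generalizing A with
  | zero =>
    have hs : A ⊆ {[]} := fun l hl => mem_singleton.2 (List.length_eq_zero_iff.1 (hA l hl).1)
    refine (sum_le_sum_of_subset_of_nonneg hs fun l _ _ => wt_nonneg l).trans ?_
    rw [sum_singleton, wt_nil, pow_zero]
  | succ k ih =>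
    have hc : ∀ l ∈ A, l = l.headI :: l.tail := by
      intro l hl
      have h1 := (hA l hl).1
      cases l with
      | nil => simp at h1
      | cons p l => rfl
    rw [pow_succ']
    refine sum_le_of_inj A (fun l => (l.headI, l.tail)) ?_ wt
      (fun u : ℕ × List ℕ => 1 / ((u.1 : ℝ) - 1) * wt u.2) ?_
      (fun u => (u.1.Prime ∧ P u.1) ∧ (u.2.length = k ∧ ∀ p ∈ u.2, p.Prime ∧ P p)) ?_ _ ?_
    · intro l hl l' hl' he
      have h1 : l.headI = l'.headI := congrArg Prod.fst he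
      have h2 : l.tail = l'.tail := congrArg Prod.snd he
      rw [hc l hl, hc l' hl', h1, h2]
    · intro l hl
      have hm : l.headI ∈ l := by
        have := hc l hl
        rw [this]; simp
      have h1 := ((hA l hl).2 _ hm).1.one_le
      conv_lhs => rw [hc l hl]
      exact (wt_cons h1 _).le
    · intro l hl
      have hm : l.headI ∈ l := by
        have := hc l hl
        rw [this]; simp
      refine ⟨(hA l hl).2 _ hm, ?_, fun p hp => (hA l hl).2 p (List.mem_of_mem_tail hp)⟩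
      rw [List.length_tail, (hA l hl).1]; rfl
    · intro S hS
      refine sum_pair_le S (fun p : ℕ => 1 / ((p : ℝ) - 1)) wt D (D ^ k)
        (fun p => p.Prime ∧ P p) (fun l => l.length = k ∧ ∀ p ∈ l, p.Prime ∧ P p) ?_ h ih hS
      intro p hp
      have : (1 : ℝ) ≤ p := by exact_mod_cast hp.1.one_le
      exact div_nonneg zero_le_one (by linarith)

/-- Split the lists at the position `j`. -/
theorem sum_split_le (A : Finset (List ℕ)) (j : ℕ) (P : List ℕ × ℕ → Prop)
    (Q : List ℕ × ℕ → List ℕ → Prop) (D : List ℕ × ℕ → ℝ) (D₁ : ℝ)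
    (h₁ : ∀ S : Finset (List ℕ × ℕ), (∀ u ∈ S, u.2.Prime ∧ P u) →
      ∑ u ∈ S, wt u.1 / ((u.2 : ℝ) - 1) * D u ≤ D₁)
    (h₂ : ∀ u, u.2.Prime → P u → ∀ S : Finset (List ℕ), (∀ l ∈ S, Q u l) → ∑ l ∈ S, wt l ≤ D u)
    (hA : ∀ l ∈ A, j < l.length ∧ Pr l ∧ P (l.take j, l.getD j 1) ∧
      Q (l.take j, l.getD j 1) (l.drop (j + 1))) : ∑ l ∈ A, wt l ≤ D₁ := by
  refine sum_le_of_inj A (fun l => ((l.take j, l.getD j 1), l.drop (j + 1))) ?_ wt
    (fun u : (List ℕ × ℕ) × List ℕ => wt u.1.1 / ((u.1.2 : ℝ) - 1) * wt u.2) ?_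
    (fun u => (u.1.2.Prime ∧ P u.1) ∧ Q u.1 u.2) ?_ _ ?_
  · intro l hl l' hl' he
    have h1 : l.take j = l'.take j := congrArg (fun u => u.1.1) he
    have h2 : l.getD j 1 = l'.getD j 1 := congrArg (fun u => u.1.2) he
    have h3 : l.drop (j + 1) = l'.drop (j + 1) := congrArg (fun u => u.2) he
    rw [split_at (hA l hl).1, split_at (hA l' hl').1, h1, h2, h3]
  · intro l hl
    obtain ⟨h1, h2, -, -⟩ := hA l hl
    conv_lhs => rw [split_at h1]
    rw [wt_append, wt_cons (h2.getD h1).one_le]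
    exact le_of_eq (by ring)
  · intro l hl
    obtain ⟨h1, h2, h3, h4⟩ := hA l hl
    exact ⟨⟨h2.getD h1, h3⟩, h4⟩
  · intro S hS
    refine sum_fib_le S (fun u : List ℕ × ℕ => wt u.1 / ((u.2 : ℝ) - 1)) (fun _ l => wt l) D D₁
      (fun u => u.2.Prime ∧ P u) Q ?_ h₁ (fun u hu => h₂ u hu.1 hu.2) hS
    intro u hu
    have : (1 : ℝ) ≤ u.2 := by exact_mod_cast hu.1.one_le
    exact div_nonneg (wt_nonneg _) (by linarith)

end Crest.Agent.R020
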