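import Crest.Agent.R020.TopW

set_option autoImplicit false

namespace Crest.Agent.R020

open Finset Filter Topology Crest.Agent.R008 Crest.Agent.R026 Crest.NumberTheoryR.TotientScale

variable {ρ : ℝ}

/-- `exp (-c n^(1/11) + C₁ log² (n + 3)) ≤ n^(-A)` for large `n`. -/
theorem big_aux {c : ℝ} (hc : 0 < c) (C₁ : ℝ) (A : ℕ) : ∃ n₀ : ℕ, ∀ n : ℕ, n₀ ≤ n →
    Real.exp (-(c * (n : ℝ) ^ (1 / 11 : ℝ)) + C₁ * Real.log ((n : ℝ) + 3) ^ 2) ≤
      1 / (n : ℝ) ^ A := by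
  have hK : 0 < 4 * |C₁| + A + 1 := by positivity
  have h1 := ((isLittleO_log_rpow_rpow_atTop (s := 1 / 11) 2 (by norm_num)).comp_tendsto
    (tendsto_natCast_atTop_atTop (R := ℝ))).bound (div_pos hc hK)
  obtain ⟨n₀, hn₀⟩ := eventually_atTop.1 h1
  refine ⟨max n₀ 3, fun n hn => ?_⟩
  have h3 : (3 : ℝ) ≤ n := by exact_mod_cast (le_max_right _ _).trans hn
  have h2 := hn₀ n ((le_max_left _ _).trans hn)
  have hl : 1 ≤ Real.log n := by
    rw [Real.le_log_iff_exp_le (by linarith)]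
    exact Real.exp_one_lt_three.le.trans h3
  simp only [Function.comp_apply, Real.rpow_two] at h2
  rw [Real.norm_of_nonneg (sq_nonneg _), Real.norm_of_nonneg (by positivity), div_mul_eq_mul_div,
    le_div_iff₀ hK] at h2
  have h4 : Real.log ((n : ℝ) + 3) ≤ 2 * Real.log n := by
    have : Real.log ((n : ℝ) + 3) ≤ Real.log ((n : ℝ) ^ 2) :=
      Real.log_le_log (by linarith) (by nlinarith)
    rwa [Real.log_pow, Nat.cast_ofNat] at this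
  have h5 : 0 ≤ Real.log ((n : ℝ) + 3) := Real.log_nonneg (by linarith)
  have h6 : C₁ * Real.log ((n : ℝ) + 3) ^ 2 ≤ |C₁| * (2 * Real.log n) ^ 2 :=
    mul_le_mul (le_abs_self _) (pow_le_pow_left₀ h5 h4 2) (sq_nonneg _) (abs_nonneg _)
  have h7 : (A : ℝ) * Real.log n ≤ A * Real.log n ^ 2 :=
    mul_le_mul_of_nonneg_left (by nlinarith) (Nat.cast_nonneg _)
  rw [one_div ((n : ℝ) ^ A), ← Real.exp_log (x := (n : ℝ) ^ A) (by positivity), ← Real.exp_neg,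
    Real.exp_le_exp, Real.log_pow]
  nlinarith [sq_nonneg (Real.log n)]

theorem big_ratio (h : Root ρ) : ∃ m₀ : ℕ, ∀ (B y : ℝ) (m j d : ℕ) (l : List ℕ), SB ρ B m → m₀ ≤ m →
    j + 1 + d = m → vr ρ ^ (11 * d) < y →
    Con a0 (fun i => aCoef (j + 1 - i) * y + be ρ m i) B l → (1 / 33 : ℝ) ≤ j / m := by
  have hv := vr_gt h
  have hl := lam_pos h
  obtain ⟨e₀, he₀⟩ := poly_le_vr h (9 * (2 * lam ρ * vr ρ ^ 30 + 1)) 1
  refine ⟨max (3 * e₀) 33, fun B y m j d l hB hm hj hy hc => ?_⟩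
  have hm1 : 3 * e₀ ≤ m := (le_max_left _ _).trans hm
  have hm2 : 33 ≤ m := (le_max_right _ _).trans hm
  have h1 := hc 0 (Nat.zero_le _)
  have h2 : 0 ≤ ∑ i ∈ Ioc 0 l.length, a0 0 i * ys B l i := sum_nonneg fun i hi =>
    mul_nonneg (a_nonneg (by have := (mem_Ioc.1 hi).1; omega)) (ys_nonneg _ _ (mem_Ioc.1 hi).1)
  simp only [ys_zero, be, Nat.sub_zero] at h1
  have h3 : 1 / 3 ≤ aCoef (j + 1) := le_trans (by linarith [a_one.1]) (a_mono (by omega : 1 ≤ j + 1))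
  have hd := one_le_vr_pow h (11 * d)
  have h4 : 1 / 3 * vr ρ ^ (11 * d) ≤ aCoef (j + 1) * y :=
    mul_le_mul h3 hy.le (by linarith) (by linarith)
  have h5 : vr ρ ^ (7 * m) ≤ vr ρ ^ (10 * m) := vr_pow_mono h (by omega)
  have h6 := he₀ (m / 3) (by omega)
  have h7 : (m : ℝ) + 1 ≤ 3 * (((m / 3 : ℕ) : ℝ) + 1) := by
    exact_mod_cast (by omega : m + 1 ≤ 3 * (m / 3 + 1))
  have hX := one_le_vr_pow h (10 * m)
  have hK : 0 < 2 * lam ρ * vr ρ ^ 30 := by positivity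
  have hm0 : (0 : ℝ) ≤ m := Nat.cast_nonneg _
  have h8 : vr ρ ^ (11 * d) ≤ vr ρ ^ (10 * m + m / 3) := by
    rw [pow_add]
    set X := vr ρ ^ (10 * m)
    set K := 2 * lam ρ * vr ρ ^ 30
    have h9 : 3 * ((K + 1) * ((m : ℝ) + 1)) ≤ vr ρ ^ (m / 3) := by
      rw [pow_one] at h6
      nlinarith
    have h10 : K * (m * X) + X ≤ (K + 1) * ((m : ℝ) + 1) * X := by
      nlinarith [mul_nonneg hK.le (by linarith : 0 ≤ X), mul_nonneg hm0 (by linarith : 0 ≤ X)]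
    have h11 := mul_le_mul_of_nonneg_left h9 (by linarith : 0 ≤ X)
    nlinarith [hB.2]
  have h9 : 11 * d ≤ 10 * m + m / 3 := (pow_le_pow_iff_right₀ hv).1 h8
  rw [div_le_div_iff₀ (by norm_num) (by exact_mod_cast (by omega : 0 < m))]
  exact_mod_cast (by omega : 1 * m ≤ j * 33)

theorem big_pow {X : ℝ} (hX : 1 ≤ X) {n : ℝ} (hn : 1 ≤ n) (h : X ^ 11 ≤ n + 1) :
    n ^ (1 / 11 : ℝ) / 2 ≤ n / X ^ 10 := by
  have h1 : X ≤ (2 * n) ^ (1 / 11 : ℝ) := by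
    have := Real.rpow_le_rpow (by positivity) (h.trans (by linarith : n + 1 ≤ 2 * n))
      (by norm_num : (0 : ℝ) ≤ 1 / 11)
    rwa [← Real.rpow_natCast, ← Real.rpow_mul (by linarith), Nat.cast_ofNat,
      (by norm_num : (11 : ℝ) * (1 / 11) = 1), Real.rpow_one] at this
  set t := n ^ (1 / 11 : ℝ) with ht
  have ht0 : 0 < t := by positivity
  have h2 : t ^ 11 = n := by
    rw [ht, ← Real.rpow_natCast, ← Real.rpow_mul (by linarith)]
    norm_num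
  have h3 : ((2 : ℝ) ^ (1 / 11 : ℝ)) ^ 10 ≤ 2 := by
    rw [← Real.rpow_natCast, ← Real.rpow_mul (by norm_num)]
    conv_rhs => rw [← Real.rpow_one 2]
    exact Real.rpow_le_rpow_of_exponent_le (by norm_num) (by norm_num)
  rw [Real.mul_rpow (by norm_num) (by linarith), ← ht] at h1
  have h4 : X ^ 10 ≤ 2 * t ^ 10 := by
    refine (pow_le_pow_left₀ (by linarith) h1 10).trans ?_
    rw [mul_pow]
    exact mul_le_mul_of_nonneg_right h3 (by positivity)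
  rw [div_le_div_iff₀ (by norm_num) (by positivity), ← h2]
  calc t * X ^ 10 ≤ t * (2 * t ^ 10) := mul_le_mul_of_nonneg_left h4 ht0.le
    _ = t ^ 11 * 2 := by ring

/-- An unusually large entry at depth `d`.  The inequality at the level `0` gives
`a₁ LL p ≤ B + ϱ^(7 m)`, so `ϱ^(11 d) < 3 B ≤ ϱ^(10.45 m)` (`SB`, `poly_le_vr`), hence
`j / m ≥ 1 / 25` for large `m`.  Group by `n = ⌊LL p⌋₊ ≥ ϱ^(10 d)`
(`sum_le_sum_cover`): the primes of a block have weight `≤ 1 + cM` (`mert_up`), the lists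
`≤ C exp (-c (j/m) n ϱ^(-10 d)) Vol j B` (`top2`, `Con.mono`), and
`ϱ^(10 d) ≤ (n + 1)^(10/11)` gives `n ϱ^(-10 d) ≥ n^(1/11) / 2`.  Sum `n^(-A-2)` over
`n + 1 > ϱ^(11 d)`, where `ϱ^(10 A) ≥ 4`. -/
theorem big (h : Root ρ) (C₁ : ℝ) : ∃ d₀ m₀ : ℕ,
    ∀ (B : ℝ) (m j d : ℕ) (S : Finset (List ℕ × ℕ)), SB ρ B m → m₀ ≤ m → d₀ ≤ d → j + 1 + d = m →
      (∀ u ∈ S, u.1.length = j ∧ Pr u.1 ∧ u.2.Prime ∧ vr ρ ^ (11 * d) < LL u.2 ∧
        Con a0 (fun i => aCoef (j + 1 - i) * LL u.2 + be ρ m i) B u.1) →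
      ∑ u ∈ S, wt u.1 / ((u.2 : ℝ) - 1) * Real.exp (C₁ * Real.log (LL u.2 + 2) ^ 2) ≤
        (1 / 2) ^ d * Vol j B := by
  have hv := vr_gt h
  obtain ⟨C, c, hC, hc, htop⟩ := top2 h
  obtain ⟨m₀, hm₀⟩ := big_ratio h
  obtain ⟨A, hA⟩ := pow_unbounded_of_one_lt 4 hv
  obtain ⟨n₀, hn₀⟩ := big_aux (c := c / 66) (by positivity) |C₁| (A + 2)
  obtain ⟨d₁, hd₁⟩ := poly_le_vr h (n₀ + 2) 0
  obtain ⟨d₂, hd₂⟩ := pow_unbounded_of_one_lt (2 * (C * (1 + cM))) (by norm_num : (1 : ℝ) < 2)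
  have hcM := one_le_cM
  refine ⟨max d₁ d₂, m₀, fun B m j d S hB hm hd hj hS => ?_⟩
  have hV := Vol_nonneg j B
  have h1 := hd₁ d ((le_max_left _ _).trans hd)
  rw [pow_zero, mul_one] at h1
  have h2 : 2 * (C * (1 + cM)) ≤ 2 ^ d :=
    hd₂.le.trans (pow_le_pow_right₀ (by norm_num) ((le_max_right _ _).trans hd))
  have hn0 : (0 : ℝ) ≤ n₀ := Nat.cast_nonneg _
  set X := vr ρ ^ d with hX
  have e11 : vr ρ ^ (11 * d) = X ^ 11 := by rw [hX, ← pow_mul, mul_comm]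
  have e10 : vr ρ ^ (10 * d) = X ^ 10 := by rw [hX, ← pow_mul, mul_comm]
  have hfl : ∀ u ∈ S, X ^ 11 ≤ (⌊LL u.2⌋₊ : ℝ) + 1 ∧ X ≤ (⌊LL u.2⌋₊ : ℝ) := fun u hu => by
    have h3 : X ^ 11 ≤ (⌊LL u.2⌋₊ : ℝ) + 1 := by
      rw [← e11]
      exact ((hS u hu).2.2.2.1.trans (Nat.lt_floor_add_one _)).le
    have h4 : X ^ 2 ≤ X ^ 11 := pow_le_pow_right₀ (by linarith) (by norm_num)
    exact ⟨h3, by nlinarith⟩
  have hp1 : ∀ u ∈ S, 0 ≤ (u.2 : ℝ) - 1 := fun u hu => by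
    have : (1 : ℝ) ≤ u.2 := by exact_mod_cast (hS u hu).2.2.1.one_le
    linarith
  refine (sum_le_sum_cover S (Ioo 0 (S.sup (fun u => ⌊LL u.2⌋₊) + 1)) _
    (fun u hu => mul_nonneg (div_nonneg (wt_nonneg _) (hp1 u hu)) (Real.exp_nonneg _))
    (fun n u => ⌊LL u.2⌋₊ = n) (fun u hu => ⟨_, mem_Ioo.2 ⟨?_, Nat.lt_succ_of_le
      (le_sup (f := fun u : List ℕ × ℕ => ⌊LL u.2⌋₊) hu)⟩, rfl⟩)
    (fun n => C * (1 + cM) * (1 / 4) ^ d * Vol j B * ((n : ℝ) ^ 2)⁻¹) ?_).trans ?_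
  · have : (0 : ℝ) < (⌊LL u.2⌋₊ : ℝ) := by linarith [(hfl u hu).2]
    exact_mod_cast this
  · intro n _ T hT hTn
    rcases T.eq_empty_or_nonempty with rfl | ⟨u₀, hu₀⟩
    · rw [sum_empty]
      positivity
    obtain ⟨h3, h4⟩ := hfl u₀ (hT hu₀)
    rw [hTn u₀ hu₀] at h3 h4
    have hr := hm₀ B _ m j d _ hB hm hj (hS u₀ (hT hu₀)).2.2.2.1 (hS u₀ (hT hu₀)).2.2.2.2
    have hlo : ∀ u ∈ T, (n : ℝ) ≤ LL u.2 := fun u hu => by
      rw [← hTn u hu]; exact Nat.floor_le (LL_nonneg _)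
    have hup : ∀ u ∈ T, LL u.2 ≤ n + 1 := fun u hu => by
      rw [← hTn u hu]; exact (Nat.lt_floor_add_one _).le
    have h5 := sum_pair_le T wt (fun p => 1 / ((p : ℝ) - 1)) _ _
      (fun l => l.length = j ∧ Pr l ∧ Con a0 (fun i => aCoef (j + 1 - i) * n + be ρ m i) B l)
      (fun p => p.Prime ∧ (n : ℝ) ≤ LL p ∧ LL p ≤ n + 1) (fun l _ => wt_nonneg l)
      (fun F hF => htop B n m j d F hB hj (Nat.cast_nonneg _) hF)
      (fun F hF => mert_up (by linarith) hF) (fun u hu => by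
        obtain ⟨a1, a2, a3, -, a5⟩ := hS u (hT hu)
        refine ⟨⟨a1, a2, a5.mono (fun i hi => ?_) le_rfl⟩, a3, hlo u hu, hup u hu⟩
        have := mul_le_mul_of_nonneg_left (hlo u hu) (a_nonneg (by omega : 1 ≤ j + 1 - i))
        linarith)
    have h6 : ∑ u ∈ T, wt u.1 / ((u.2 : ℝ) - 1) * Real.exp (C₁ * Real.log (LL u.2 + 2) ^ 2) ≤
        (∑ u ∈ T, wt u.1 * (1 / ((u.2 : ℝ) - 1))) *
          Real.exp (|C₁| * Real.log ((n : ℝ) + 3) ^ 2) := by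
      rw [sum_mul]
      refine sum_le_sum fun u hu => ?_
      rw [mul_one_div]
      refine mul_le_mul_of_nonneg_left (Real.exp_le_exp.2 ?_)
        (div_nonneg (wt_nonneg _) (hp1 u (hT hu)))
      have := LL_nonneg (u.2 : ℝ)
      exact mul_le_mul (le_abs_self _) (pow_le_pow_left₀ (Real.log_nonneg (by linarith))
        (Real.log_le_log (by linarith) (by linarith [hup u hu])) 2) (sq_nonneg _) (abs_nonneg _)
    have h7 := big_pow (by linarith) (by linarith) h3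
    have h8 : c / 66 * (n : ℝ) ^ (1 / 11 : ℝ) ≤ c * (j / m) * (n / vr ρ ^ (10 * d)) := by
      rw [e10]
      calc c / 66 * (n : ℝ) ^ (1 / 11 : ℝ) = c * (1 / 33) * ((n : ℝ) ^ (1 / 11 : ℝ) / 2) := by ring
        _ ≤ _ := mul_le_mul (mul_le_mul_of_nonneg_left hr hc.le) h7 (by positivity) (by positivity)
    have h9 := hn₀ n (by exact_mod_cast (by linarith : (n₀ : ℝ) ≤ n))
    have h10 : 1 / (n : ℝ) ^ (A + 2) ≤ (1 / 4) ^ d * ((n : ℝ) ^ 2)⁻¹ := by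
      rw [pow_add, one_div, mul_inv, one_div, inv_pow]
      refine mul_le_mul_of_nonneg_right (inv_anti₀ (by positivity) ?_) (by positivity)
      calc (4 : ℝ) ^ d ≤ (vr ρ ^ A) ^ d := pow_le_pow_left₀ (by norm_num) hA.le d
        _ = X ^ A := by rw [hX, ← pow_mul, ← pow_mul, mul_comm]
        _ ≤ _ := pow_le_pow_left₀ (by linarith) h4 A
    have h11 : Real.exp (-(c * (j / m) * (n / vr ρ ^ (10 * d)))) *
        Real.exp (|C₁| * Real.log ((n : ℝ) + 3) ^ 2) ≤ (1 / 4) ^ d * ((n : ℝ) ^ 2)⁻¹ := by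
      rw [← Real.exp_add]
      exact (Real.exp_le_exp.2 (by linarith)).trans (h9.trans h10)
    refine h6.trans ((mul_le_mul_of_nonneg_right h5 (Real.exp_nonneg _)).trans ?_)
    calc _ = C * (1 + cM) * Vol j B * (Real.exp (-(c * (j / m) * (n / vr ρ ^ (10 * d)))) *
          Real.exp (|C₁| * Real.log ((n : ℝ) + 3) ^ 2)) := by ring
      _ ≤ C * (1 + cM) * Vol j B * ((1 / 4) ^ d * ((n : ℝ) ^ 2)⁻¹) :=
          mul_le_mul_of_nonneg_left h11 (by positivity)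
      _ = _ := by ring
  · rw [← mul_sum]
    have h3 := sum_Ioo_inv_sq_le (α := ℝ) 0 (S.sup (fun u => ⌊LL u.2⌋₊) + 1)
    rw [Nat.cast_zero, zero_add, div_one] at h3
    refine (mul_le_mul_of_nonneg_left h3 (by positivity)).trans ?_
    calc _ = 2 * (C * (1 + cM)) * ((1 / 4) ^ d * Vol j B) := by ring
      _ ≤ 2 ^ d * ((1 / 4) ^ d * Vol j B) := mul_le_mul_of_nonneg_right h2 (by positivity)
      _ = _ := by rw [← mul_assoc, ← mul_pow]; norm_num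

end Crest.Agent.R020
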