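import Crest.Agent.R020.NP
import Crest.Agent.R020.Bas3
import Crest.Agent.Lib.PNT.Basic

set_option autoImplicit false

namespace Crest.Agent.R020

open Finset Filter Topology Crest.Agent.R008 Crest.Agent.R026 Crest.NumberTheoryR.TotientScale

theorem cntAux_card (z : ℝ) : (primesIoc 0 z).card = Nat.primeCounting ⌊z⌋₊ := by
  rw [Nat.primeCounting, Nat.primeCounting', Nat.count_eq_card_filter_range]
  congr 1
  ext p
  simp only [primesIoc, Nat.floor_zero, mem_filter, mem_Ioc, mem_range, Nat.lt_succ_iff]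
  exact ⟨fun h => ⟨h.1.2, h.2⟩, fun h => ⟨⟨h.2.pos, h.1⟩, h.2⟩⟩

theorem cntAux_le {z : ℝ} (hz : 0 ≤ z) {A : Finset ℕ} (hA : ∀ p ∈ A, p.Prime ∧ (p : ℝ) ≤ z) :
    (A.card : ℝ) ≤ Nat.primeCounting ⌊z⌋₊ := by
  rw [← cntAux_card]
  exact_mod_cast card_le_card fun p hp => (mem_primesIoc le_rfl hz).2
    ⟨(hA p hp).1, by exact_mod_cast (hA p hp).1.pos, (hA p hp).2⟩

theorem cntAux_cast {p r : ℕ} (hp : p.Prime) : (((p - 1) * r : ℕ) : ℝ) = ((p : ℝ) - 1) * r := by
  rw [Nat.cast_mul, Nat.cast_sub hp.one_le, Nat.cast_one]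

theorem cntAux_div {p r : ℕ} (hp : p.Prime) (hr : 1 ≤ r) {x : ℝ} :
    (((p - 1) * r : ℕ) : ℝ) ≤ x ↔ (p : ℝ) ≤ x / r + 1 := by
  have : (0:ℝ) < r := by exact_mod_cast hr
  rw [cntAux_cast hp, ← le_div_iff₀ this, sub_le_iff_le_add]

theorem cntAux_0 (y : ℝ) (A : Finset ℕ) (hy : 1 < y) (hA : ∀ p ∈ A, p.Prime ∧ (p : ℝ) ≤ y + 1) :
    (A.card : ℝ) ≤ 12 * (y / Real.log y) := by
  have hl : 0 < Real.log y := Real.log_pos hy
  refine (cntAux_le (by linarith) hA).trans ((Chebyshev.pi_le_log4_mul_div (by linarith)).trans ?_)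
  have h1 : Real.log y / 2 ≤ Real.log √(y + 1) := by
    rw [Real.log_sqrt (by linarith)]
    have := Real.log_le_log (by linarith) (by linarith : y ≤ y + 1)
    linarith
  have h4 : Real.log 4 ≤ 2 := by
    have : Real.log 4 = 2 * Real.log 2 := by
      rw [show (4:ℝ) = 2 ^ 2 by norm_num, Real.log_pow]; norm_num
    linarith [Real.log_two_lt_d9]
  have h2 : Real.log 4 * (y + 1) / Real.log √(y + 1) ≤ 8 * (y / Real.log y) := by
    calc _ ≤ (2 * (2 * y)) / (Real.log y / 2) := by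
          gcongr
          linarith
      _ = _ := by field_simp; norm_num
  have h3 : √(y + 1) ≤ 4 * (y / Real.log y) := by
    rw [← mul_div_assoc, le_div_iff₀ hl]
    have h5 : Real.log y ≤ 2 * √(y + 1) := by
      have h6 := Real.log_le_sub_one_of_pos (Real.sqrt_pos.2 (by linarith : 0 < y + 1))
      linarith
    have h6 := Real.mul_self_sqrt (by linarith : 0 ≤ y + 1)
    nlinarith [Real.sqrt_nonneg (y + 1)]
  linarith

theorem cntAux_up {δ : ℝ} (hδ : 0 < δ) : ∀ᶠ y : ℝ in atTop,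
    (Nat.primeCounting ⌊y + 1⌋₊ : ℝ) ≤ (1 + δ) ^ 2 * (y / Real.log y) := by
  have h1 := (Crest.Agent.Lib.PNT.tendsto_primeCounting_mul_log_div.comp
    (tendsto_atTop_add_const_right atTop 1 tendsto_id)).eventually
    (gt_mem_nhds (show (1:ℝ) < 1 + δ by linarith))
  filter_upwards [h1, eventually_gt_atTop 1, eventually_ge_atTop (1 / δ)] with y h2 h3 h4
  have hl : 0 < Real.log y := Real.log_pos h3
  have hl' : Real.log y ≤ Real.log (y + 1) := Real.log_le_log (by linarith) (by linarith)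
  simp only [Function.comp, id] at h2
  rw [div_lt_iff₀ (by linarith)] at h2
  rw [div_le_iff₀ hδ] at h4
  rw [← mul_div_assoc, le_div_iff₀ hl]
  have h5 := mul_le_mul_of_nonneg_left hl' (Nat.cast_nonneg (α := ℝ) (Nat.primeCounting ⌊y + 1⌋₊))
  have h6 : (1 + δ) * (y + 1) ≤ (1 + δ) * ((1 + δ) * y) :=
    mul_le_mul_of_nonneg_left (by linarith) (by linarith)
  nlinarith

theorem cntAux_lo {δ : ℝ} (hδ : 0 < δ) : ∀ᶠ y : ℝ in atTop,
    (1 - δ) * (y / Real.log y) ≤ (Nat.primeCounting ⌊y⌋₊ : ℝ) := by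
  have h1 := Crest.Agent.Lib.PNT.tendsto_primeCounting_mul_log_div.eventually
    (lt_mem_nhds (show 1 - δ < (1:ℝ) by linarith))
  filter_upwards [h1, eventually_gt_atTop 1] with y h2 h3
  rw [lt_div_iff₀ (by linarith)] at h2
  rw [← mul_div_assoc, div_le_iff₀ (Real.log_pos h3)]
  exact h2.le

/-- `y = x / r ≥ x ^ a` when `r ≤ x ^ (1 - a)`. -/
theorem cntAux_y {x a : ℝ} (hx : 0 < x) {r : ℕ} (hr : 1 ≤ r) (h : (r : ℝ) ≤ x ^ (1 - a)) :
    x ^ a ≤ x / r := by
  have : (0:ℝ) < r := by exact_mod_cast hr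
  rw [le_div_iff₀ this]
  calc x ^ a * r ≤ x ^ a * x ^ (1 - a) := by gcongr
    _ = x := by rw [← Real.rpow_add hx]; simp

theorem cntAux_log {x a y : ℝ} (hx : 0 < x) (h : x ^ a ≤ y) : a * Real.log x ≤ Real.log y := by
  rw [← Real.log_rpow hx]
  exact Real.log_le_log (by positivity) h

end Crest.Agent.R020
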