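import Crest.Agent.R020.NP
import Crest.Agent.R020.Bas3
import Crest.Agent.Lib.PNT.Basic
import Crest.Agent.R020.CntAux

set_option autoImplicit false

namespace Crest.Agent.R020

open Finset Filter Topology Crest.Agent.R008 Crest.Agent.R026 Crest.NumberTheoryR.TotientScale

/-- Chebyshev's upper bound (`Chebyshev.primeCounting_le…` or `theta_le_log4_mul_x`). -/
theorem cnt0 : ∃ C : ℝ, 1 ≤ C ∧ ∀ (y : ℝ) (A : Finset ℕ), 1 < y →
    (∀ p ∈ A, p.Prime ∧ (p : ℝ) ≤ y + 1) → (A.card : ℝ) ≤ C * (y / Real.log y) := by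
  exact ⟨12, by norm_num, cntAux_0⟩

/-- `y = x / r ≥ x ^ η`. -/
theorem cnt1 : ∃ C : ℝ, 1 ≤ C ∧ ∀ (x η : ℝ) (r : ℕ) (A : Finset ℕ), 1 < x → 0 < η → 1 ≤ r →
    (r : ℝ) ≤ x ^ (1 - η) → (∀ p ∈ A, p.Prime ∧ (((p - 1) * r : ℕ) : ℝ) ≤ x) →
    (A.card : ℝ) ≤ C / η * (x / Real.log x) / r := by
  refine ⟨12, by norm_num, fun x η r A hx hη hr h hA => ?_⟩
  have hl : 0 < Real.log x := Real.log_pos hx
  have hr' : (0:ℝ) < r := by exact_mod_cast hr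
  have h1 := cntAux_y (by linarith) hr h
  have h2 := cntAux_log (x := x) (by linarith) h1
  have h3 := cntAux_0 (x / r) A ((Real.one_lt_rpow hx hη).trans_le h1)
    fun p hp => ⟨(hA p hp).1, (cntAux_div (hA p hp).1 hr).1 (hA p hp).2⟩
  calc _ ≤ _ := h3
    _ ≤ 12 * (x / r / (η * Real.log x)) := by gcongr
    _ = _ := by field_simp

/-- The prime number theorem (`tendsto_primeCounting_mul_log_div`). -/
theorem cnt2 {ε : ℝ} (hε : 0 < ε) : ∃ η : ℝ, 0 < η ∧ ∀ᶠ x : ℝ in atTop, ∀ (r : ℕ) (A : Finset ℕ),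
    1 ≤ r → (r : ℝ) ≤ x ^ η → (∀ p ∈ A, p.Prime ∧ (((p - 1) * r : ℕ) : ℝ) ≤ x) →
    (A.card : ℝ) ≤ (1 + ε) * (x / Real.log x) / r := by
  obtain ⟨δ, hδ0, hδ1, hδ⟩ : ∃ δ : ℝ, 0 < δ ∧ δ ≤ 1 / 8 ∧ 8 * δ ≤ ε :=
    ⟨min ε 1 / 8, by positivity, by linarith [min_le_right ε 1], by linarith [min_le_left ε 1]⟩
  obtain ⟨Y, hY⟩ := eventually_atTop.1 (cntAux_up hδ0)
  refine ⟨δ, hδ0, ?_⟩
  filter_upwards [(tendsto_rpow_atTop (show 0 < 1 - δ by linarith)).eventually_ge_atTop Y,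
    eventually_gt_atTop 1] with x hxY hx r A hr h hA
  have hl : 0 < Real.log x := Real.log_pos hx
  have hr' : (0:ℝ) < r := by exact_mod_cast hr
  have h1 := cntAux_y (x := x) (a := 1 - δ) (by linarith) hr (by rwa [sub_sub_cancel])
  have h2 := cntAux_log (x := x) (by linarith) h1
  have h3 := (cntAux_le (z := x / r + 1) (by positivity)
    fun p hp => ⟨(hA p hp).1, (cntAux_div (hA p hp).1 hr).1 (hA p hp).2⟩).trans (hY _ (hxY.trans h1))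
  have h4 : 0 < 1 - δ := by linarith
  have h5 : (1 + δ) ^ 2 / (1 - δ) ≤ 1 + ε := by
    rw [div_le_iff₀ h4]; nlinarith
  calc _ ≤ _ := h3
    _ ≤ (1 + δ) ^ 2 * (x / r / ((1 - δ) * Real.log x)) := by gcongr
    _ = (1 + δ) ^ 2 / (1 - δ) * (x / Real.log x) / r := by field_simp
    _ ≤ _ := by gcongr

theorem mem_P0 {Δ x : ℝ} (hx : 0 ≤ x) {r p : ℕ} (hr : 1 ≤ r) : p ∈ P0 Δ x r ↔ p.Prime ∧
    x / Real.log x ^ 2 < (((p - 1) * r : ℕ) : ℝ) ∧ (((p - 1) * r : ℕ) : ℝ) ≤ x ∧ Normal Δ p := by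
  classical
  unfold P0
  rw [mem_filter, mem_primesIoc le_rfl (by linarith)]
  refine ⟨fun h => ⟨h.1.1, h.2⟩, fun h => ⟨⟨h.1, by exact_mod_cast h.1.pos, ?_⟩, h.2⟩⟩
  have h1 := (cntAux_div h.1 hr).1 h.2.2.1
  have h2 : x / r ≤ x := div_le_self hx (by exact_mod_cast hr)
  linarith

/-- With `y = x / r ≥ √x`: `π(y) ≥ (1 - ε/3) y / log x`, at most `y / log² x + 1` primes are too
small, and `NP4` (with `d = m`, `LL (y + 1) ≤ B + 1 ≤ ϱ^(11 m)`, `ev_large`) bounds the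
non-normal ones. -/
theorem cnt3 {ρ : ℝ} (h : Root ρ) {ε : ℝ} (hε : 0 < ε) : ∀ᶠ q in Fl ρ, ∀ r : ℕ, 1 ≤ r →
    (r : ℝ) ≤ q.1 ^ (1 / 2 : ℝ) →
    (1 - ε) * (q.1 / Real.log q.1) / r ≤ ((P0 (vr ρ ^ (6 * q.2)) q.1 r).card : ℝ) := by
  classical
  obtain ⟨Y, hY⟩ := eventually_atTop.1 (cntAux_lo (show 0 < ε / 3 by positivity))
  obtain ⟨d₀, hd₀⟩ := NP4 h (6 / ε)
  have e1 := (tendsto_fst_Fl ρ).eventually
    ((tendsto_rpow_atTop (show (0:ℝ) < 1 / 2 by norm_num)).eventually_ge_atTop (max Y 2))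
  have e2 := (tendsto_fst_Fl ρ).eventually (eventually_ge_atTop (Real.exp 1))
  have e3 := (tendsto_fst_Fl ρ).eventually (Real.tendsto_log_atTop.eventually_ge_atTop (3 / ε))
  filter_upwards [e1, e2, e3, ev_large h 1, (tendsto_m h).eventually_ge_atTop (max d₀ 1)]
    with q h1 h2 h3 h4 h5 r hr hrx
  obtain ⟨x, m⟩ := q
  dsimp only at *
  have hx : 1 < x := lt_of_lt_of_le (by linarith [Real.add_one_lt_exp one_ne_zero]) h2
  have hl : 0 < Real.log x := Real.log_pos hx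
  have hr' : (0:ℝ) < r := by exact_mod_cast hr
  have k1 := cntAux_y (x := x) (a := 1 / 2) (by linarith) hr (by rwa [sub_half])
  have k2 := cntAux_log (x := x) (by linarith) k1
  obtain ⟨y, hy⟩ : ∃ y, y = x / r := ⟨_, rfl⟩
  rw [← hy] at k1 k2
  have hy2 : 2 ≤ y := (le_max_right _ _).trans (h1.trans k1)
  have hyx : y ≤ x := hy ▸ div_le_self (by linarith) (by exact_mod_cast hr)
  have hly : 0 < Real.log y := Real.log_pos (by linarith)
  have k3 : Real.log y ≤ Real.log x := Real.log_le_log (by linarith) hyx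
  have k4 := hY y ((le_max_left _ _).trans (h1.trans k1))
  have k5 : LL y ≤ vr ρ ^ (11 * m) := by
    have := (LL_mono (by linarith) hyx).trans_eq (LL_eq_bigB h2)
    linarith [h4.2]
  have k6 := hd₀ m y ((primesIoc 0 y).filter fun p => ¬ Normal (vr ρ ^ (6 * m)) p)
    ((le_max_left _ _).trans h5) hy2 k5 fun p hp => by
      rw [mem_filter, mem_primesIoc le_rfl (by linarith)] at hp
      exact ⟨hp.1.1, hp.1.2.2, hp.2⟩
  have k7 : primesIoc 0 y ⊆ P0 (vr ρ ^ (6 * m)) x r ∪ (Ioc 1 (⌊y / Real.log x ^ 2⌋₊ + 1) ∪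
      (primesIoc 0 y).filter fun p => ¬ Normal (vr ρ ^ (6 * m)) p) := by
    intro p hp
    have hp' := (mem_primesIoc le_rfl (by linarith)).1 hp
    rw [mem_union, mem_union, mem_P0 (by linarith) hr, mem_filter, mem_Ioc]
    by_cases a1 : Normal (vr ρ ^ (6 * m)) p
    · by_cases a2 : x / Real.log x ^ 2 < (((p - 1) * r : ℕ) : ℝ)
      · exact Or.inl ⟨hp'.1, a2, (cntAux_div hp'.1 hr).2 (by linarith [hp'.2.2]), a1⟩
      · refine Or.inr (Or.inl ⟨hp'.1.one_lt, ?_⟩)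
        have a3 := (cntAux_div hp'.1 hr).1 (not_lt.1 a2)
        rw [div_right_comm, ← hy] at a3
        rw [← Nat.floor_add_one (by positivity)]
        exact Nat.le_floor a3
    · exact Or.inr (Or.inr ⟨hp, a1⟩)
  have k8 : (Nat.primeCounting ⌊y⌋₊ : ℝ) ≤ (P0 (vr ρ ^ (6 * m)) x r).card + (⌊y / Real.log x ^ 2⌋₊ +
      (((primesIoc 0 y).filter fun p => ¬ Normal (vr ρ ^ (6 * m)) p).card : ℝ)) := by
    have := (card_le_card k7).trans ((card_union_le _ _).trans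
      (Nat.add_le_add_left (card_union_le _ _) _))
    rw [cntAux_card, Nat.card_Ioc, Nat.add_sub_cancel] at this
    exact_mod_cast this
  obtain ⟨D, hD⟩ : ∃ D, D = y / Real.log x := ⟨_, rfl⟩
  have hD0 : 0 ≤ D := by rw [hD]; positivity
  have k9 : (⌊y / Real.log x ^ 2⌋₊ : ℝ) ≤ ε / 3 * D := by
    refine (Nat.floor_le (by positivity)).trans ?_
    rw [sq, ← div_div, ← hD, div_le_iff₀ hl]
    rw [div_le_iff₀ hε] at h3
    nlinarith
  have k10 : y / Real.log y ≤ 2 * D := by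
    calc _ ≤ y / (1 / 2 * Real.log x) := by gcongr
      _ = _ := by rw [hD]; field_simp
  have k11 : D ≤ y / Real.log y := by rw [hD]; gcongr
  have k12 : Real.exp (-(6 / ε * (m : ℝ) ^ 2)) ≤ ε / 6 := by
    have hm : (1:ℝ) ≤ m := by exact_mod_cast (le_max_right _ _).trans h5
    have a1 : 6 / ε ≤ 6 / ε * (m : ℝ) ^ 2 := le_mul_of_one_le_right (by positivity) (one_le_pow₀ hm)
    rw [Real.exp_neg, inv_le_comm₀ (Real.exp_pos _) (by positivity), inv_div]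
    linarith [Real.add_one_le_exp (6 / ε * (m : ℝ) ^ 2)]
  have k13 := k6.trans (mul_le_mul k12 k10 (by positivity) (by positivity))
  have k14 : (1 - ε) * (x / Real.log x) / r = (1 - ε) * D := by rw [hD, hy]; field_simp
  rw [k14]
  rcases le_total ε 1 with hε1 | hε1
  · have := mul_le_mul_of_nonneg_left k11 (show 0 ≤ 1 - ε / 3 by linarith)
    nlinarith
  · exact (mul_nonpos_of_nonpos_of_nonneg (by linarith) hD0).trans (Nat.cast_nonneg _)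

/-- Counting values through their cofactors. -/
theorem card_le_sum_cof {α : Type} (S : Finset α) (r : α → ℕ) (P : ℕ → Prop) (x D : ℝ)
    (hS : ∀ u ∈ S, ∀ A : Finset ℕ, (∀ p ∈ A, P p ∧ (((p - 1) * r u : ℕ) : ℝ) ≤ x) →
      (A.card : ℝ) ≤ D / r u)
    (A : Finset ℕ) (hA : ∀ v ∈ A, (v : ℝ) ≤ x ∧ ∃ u ∈ S, ∃ p, P p ∧ v = (p - 1) * r u) :
    (A.card : ℝ) ≤ D * ∑ u ∈ S, 1 / (r u : ℝ) := by
  classical
  have hsub : A ⊆ S.biUnion (fun u => A.filter (fun v => ∃ p, P p ∧ v = (p - 1) * r u)) := by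
    intro v hv
    obtain ⟨_, u, hu, p, hp, e⟩ := hA v hv
    exact mem_biUnion.2 ⟨u, hu, mem_filter.2 ⟨hv, p, hp, e⟩⟩
  have h1 : (A.card : ℝ) ≤
      ∑ u ∈ S, ((A.filter (fun v => ∃ p, P p ∧ v = (p - 1) * r u)).card : ℝ) := by
    exact_mod_cast (card_le_card hsub).trans card_biUnion_le
  refine h1.trans ?_
  rw [mul_sum]
  refine sum_le_sum fun u hu => ?_
  rw [mul_one_div]
  have hex : ∀ v : ℕ, ∃ p : ℕ, v ∈ A.filter (fun v => ∃ p, P p ∧ v = (p - 1) * r u) →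
      P p ∧ v = (p - 1) * r u := by
    intro v
    by_cases hv : v ∈ A.filter (fun v => ∃ p, P p ∧ v = (p - 1) * r u)
    · obtain ⟨p, hp⟩ := (mem_filter.1 hv).2
      exact ⟨p, fun _ => hp⟩
    · exact ⟨0, fun h => absurd h hv⟩
  choose f hf using hex
  have hinj : Set.InjOn f (A.filter (fun v => ∃ p, P p ∧ v = (p - 1) * r u) : Finset ℕ) := by
    intro v hv v' hv' e
    rw [(hf v hv).2, (hf v' hv').2, e]
  rw [← card_image_of_injOn hinj]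
  refine hS u hu _ fun p hp => ?_
  obtain ⟨v, hv, rfl⟩ := mem_image.1 hp
  refine ⟨(hf v hv).1, ?_⟩
  rw [← (hf v hv).2]
  exact (hA v (mem_filter.1 hv).1).1

/-- Choose a preimage `n v` for every `v ∈ A` and let `S` be the image of `A` under
`v ↦ (mid (n v) i, φ (nd (n v) i))`; `pre_struct`, `card_le_sum_cof` with
`r u = pm u.1 * u.2`. -/
theorem red0 {ρ x D : ℝ} {m k' i : ℕ} (h1 : 1 ≤ i) (hi : i ≤ k' + 1) (hk : k' < m) (Q : ℕ → Prop)
    (hQ : ∀ n, 0 < n → Q n → Pre ρ x m k' i n ∧ ∀ A : Finset ℕ,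
      (∀ p ∈ A, p.Prime ∧ (((p - 1) * Nat.totient (nd n 1) : ℕ) : ℝ) ≤ x) →
      (A.card : ℝ) ≤ D / (Nat.totient (nd n 1) : ℝ))
    {A : Finset ℕ} (hA : Vals x Q A) : ∃ S, Cut Q i S ∧ (A.card : ℝ) ≤ D * ws S := by
  classical
  have hex : ∀ v : ℕ, ∃ n : ℕ, v ∈ A → 0 < n ∧ Nat.totient n = v ∧ Q n := by
    intro v
    by_cases hv : v ∈ A
    · obtain ⟨n, hn⟩ := (hA v hv).2
      exact ⟨n, fun _ => hn⟩
    · exact ⟨0, fun h => absurd h hv⟩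
  choose f hf using hex
  refine ⟨A.image (fun v => (mid (f v) i, Nat.totient (nd (f v) i))), ?_, ?_⟩
  · intro u hu
    obtain ⟨v, hv, rfl⟩ := mem_image.1 hu
    exact ⟨f v, (hf v hv).1, (hf v hv).2.2, rfl⟩
  · have key := card_le_sum_cof (A.image (fun v => (mid (f v) i, Nat.totient (nd (f v) i))))
      (fun u => pm u.1 * u.2) Nat.Prime x D ?_ A ?_
    · refine key.trans (le_of_eq ?_)
      congr 1
      refine sum_congr rfl fun u _ => ?_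
      rw [wt, div_div, Nat.cast_mul]
    · intro u hu
      obtain ⟨v, hv, rfl⟩ := mem_image.1 hu
      obtain ⟨hp, hc⟩ := hQ (f v) (hf v hv).1 (hf v hv).2.2
      have e := (pre_struct hp (hf v hv).1 h1 hi hk).2.2.2.2.1
      simp only [← e]
      exact hc
    · intro v hv
      refine ⟨(hA v hv).1, _, mem_image_of_mem _ hv, (pl (f v)).getD 0 1, ?_, ?_⟩
      · exact (hQ (f v) (hf v hv).1 (hf v hv).2.2).1.1.prime
      · obtain ⟨hp, _⟩ := hQ (f v) (hf v hv).1 (hf v hv).2.2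
        have e := pre_struct hp (hf v hv).1 h1 hi hk
        simp only [← e.2.2.2.2.1, ← e.2.2.2.2.2.1]
        exact (hf v hv).2.1.symm

/-- `red0`, `cnt1` with `η = 1/4` (`TopC.rest`). -/
theorem red1 : ∃ C : ℝ, 1 ≤ C ∧ ∀ (ρ x : ℝ) (m k' i : ℕ) (Q : ℕ → Prop) (A : Finset ℕ), 1 < x →
    1 ≤ i → i ≤ k' + 1 → k' < m → (∀ n, Q n → Pre ρ x m k' i n) → Vals x Q A →
    ∃ S, Cut Q i S ∧ (A.card : ℝ) ≤ C * (x / Real.log x) * ws S := by
  obtain ⟨C, hC, h⟩ := cnt1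
  refine ⟨C / (1 / 4), by linarith [show C / (1 / 4) = 4 * C by ring], ?_⟩
  intro ρ x m k' i Q A hx h1 hi hk hQ hA
  refine red0 (ρ := ρ) h1 hi hk Q (fun n _ hn => ⟨hQ n hn, fun A' hA' => ?_⟩) hA
  refine h x (1 / 4) _ A' hx (by norm_num) (Nat.totient_pos.2 (nd_pos n 1)) ?_ hA'
  rw [show (1 : ℝ) - 1 / 4 = 3 / 4 by norm_num]
  exact (hQ n hn).1.rest

theorem red2 {ε : ℝ} (hε : 0 < ε) : ∃ η : ℝ, 0 < η ∧ ∀ᶠ x : ℝ in atTop,
    ∀ (ρ : ℝ) (m k' i : ℕ) (Q : ℕ → Prop) (A : Finset ℕ), 1 ≤ i → i ≤ k' + 1 → k' < m →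
    (∀ n, 0 < n → Q n → Pre ρ x m k' i n ∧ (Nat.totient (nd n 1) : ℝ) ≤ x ^ η) → Vals x Q A →
    ∃ S, Cut Q i S ∧ (A.card : ℝ) ≤ (1 + ε) * (x / Real.log x) * ws S := by
  obtain ⟨η, hη, h⟩ := cnt2 hε
  refine ⟨η, hη, h.mono fun x hx => ?_⟩
  intro ρ m k' i Q A h1 hi hk hQ hA
  refine red0 (ρ := ρ) h1 hi hk Q (fun n hn0 hn => ⟨(hQ n hn0 hn).1, fun A' hA' => ?_⟩) hA
  exact hx _ A' (Nat.totient_pos.2 (nd_pos n 1)) (hQ n hn0 hn).2 hA'

/-- Union bound for sets of values. -/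
theorem vals_cover {x : ℝ} {Q : ℕ → Prop} {A : Finset ℕ} (hA : Vals x Q A) {ι : Type}
    (I : Finset ι) (R : ι → ℕ → Prop) (D : ι → ℝ)
    (hR : ∀ n, 0 < n → (Nat.totient n : ℝ) ≤ x → Q n → ∃ i ∈ I, R i n)
    (hD : ∀ i ∈ I, ∀ A' : Finset ℕ, Vals x (R i) A' → (A'.card : ℝ) ≤ D i) :
    (A.card : ℝ) ≤ ∑ i ∈ I, D i := by
  classical
  have hsub : A ⊆ I.biUnion
      (fun i => A.filter (fun v => ∃ n : ℕ, 0 < n ∧ Nat.totient n = v ∧ R i n)) := by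
    intro v hv
    obtain ⟨hvx, n, hn, e, hQ⟩ := hA v hv
    obtain ⟨i, hi, hRi⟩ := hR n hn (by rw [e]; exact hvx) hQ
    exact mem_biUnion.2 ⟨i, hi, mem_filter.2 ⟨hv, n, hn, e, hRi⟩⟩
  have h1 : (A.card : ℝ) ≤ ∑ i ∈ I,
      ((A.filter (fun v => ∃ n : ℕ, 0 < n ∧ Nat.totient n = v ∧ R i n)).card : ℝ) := by
    exact_mod_cast (card_le_card hsub).trans card_biUnion_le
  refine h1.trans (sum_le_sum fun i hi => hD i hi _ fun v hv => ?_)
  exact ⟨(hA v (mem_filter.1 hv).1).1, (mem_filter.1 hv).2⟩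

theorem vals_or {x : ℝ} {Q R R' : ℕ → Prop} {A : Finset ℕ} (hA : Vals x Q A) {D D' : ℝ}
    (hR : ∀ n, 0 < n → (Nat.totient n : ℝ) ≤ x → Q n → R n ∨ R' n)
    (hD : ∀ A' : Finset ℕ, Vals x R A' → (A'.card : ℝ) ≤ D)
    (hD' : ∀ A' : Finset ℕ, Vals x R' A' → (A'.card : ℝ) ≤ D') : (A.card : ℝ) ≤ D + D' := by
  have key := vals_cover hA (univ : Finset Bool) (fun b => cond b R R') (fun b => cond b D D')
    (fun n hn hx hQ => (hR n hn hx hQ).elim (fun h => ⟨true, mem_univ _, h⟩)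
      (fun h => ⟨false, mem_univ _, h⟩))
    (fun b _ => by cases b; exacts [hD', hD])
  simpa using key

theorem ws_nonneg (S : Finset (List ℕ × ℕ)) : 0 ≤ ws S := by
  unfold ws wt
  exact sum_nonneg fun u _ => by positivity

theorem cut_or {Q R R' : ℕ → Prop} {i : ℕ} {S : Finset (List ℕ × ℕ)} (hS : Cut Q i S) {D D' : ℝ}
    (hR : ∀ n, 0 < n → Q n → R n ∨ R' n)
    (hD : ∀ S', Cut R i S' → ws S' ≤ D) (hD' : ∀ S', Cut R' i S' → ws S' ≤ D') :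
    ws S ≤ D + D' := by
  classical
  have h1 := hD (S.filter fun u => ∃ n : ℕ, 0 < n ∧ R n ∧ u = (mid n i, Nat.totient (nd n i)))
    fun u hu => (mem_filter.1 hu).2
  have h2 := hD' (S.filter fun u =>
      ¬ ∃ n : ℕ, 0 < n ∧ R n ∧ u = (mid n i, Nat.totient (nd n i))) fun u hu => by
    obtain ⟨hu, hn⟩ := mem_filter.1 hu
    obtain ⟨n, hn0, hQ, e⟩ := hS u hu
    rcases hR n hn0 hQ with h | h
    · exact absurd ⟨n, hn0, h, e⟩ hn
    · exact ⟨n, hn0, h, e⟩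
  refine le_trans (le_of_eq ?_) (add_le_add h1 h2)
  unfold ws
  rw [sum_filter_add_sum_filter_not]

/-- Product bound for a cut. -/
theorem cut_le {Q : ℕ → Prop} {i : ℕ} {S : Finset (List ℕ × ℕ)} (hS : Cut Q i S)
    (P₁ : List ℕ → Prop) (P₂ : ℕ → Prop) {D₁ D₂ : ℝ}
    (hP : ∀ n, 0 < n → Q n → P₁ (mid n i) ∧ P₂ (Nat.totient (nd n i)))
    (h₁ : ∀ A : Finset (List ℕ), (∀ l ∈ A, P₁ l) → ∑ l ∈ A, wt l ≤ D₁)
    (h₂ : ∀ A : Finset ℕ, (∀ v ∈ A, P₂ v) → ∑ v ∈ A, 1 / (v : ℝ) ≤ D₂) : ws S ≤ D₁ * D₂ := by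
  classical
  have ha := h₁ (S.image Prod.fst) fun l hl => by
    obtain ⟨u, hu, rfl⟩ := mem_image.1 hl
    obtain ⟨n, hn, hQ, rfl⟩ := hS u hu
    exact (hP n hn hQ).1
  have hb := h₂ (S.image Prod.snd) fun l hl => by
    obtain ⟨u, hu, rfl⟩ := mem_image.1 hl
    obtain ⟨n, hn, hQ, rfl⟩ := hS u hu
    exact (hP n hn hQ).2
  have hw : ∀ l, 0 ≤ wt l := fun l => by unfold wt; positivity
  have hD₁ : 0 ≤ D₁ := by simpa using h₁ ∅ (by simp)
  have hsub : S ⊆ S.image Prod.fst ×ˢ S.image Prod.snd := fun u hu =>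
    mem_product.2 ⟨mem_image_of_mem _ hu, mem_image_of_mem _ hu⟩
  calc ws S ≤ ∑ u ∈ S.image Prod.fst ×ˢ S.image Prod.snd, wt u.1 / (u.2 : ℝ) :=
        sum_le_sum_of_subset_of_nonneg hsub fun u _ _ => div_nonneg (hw _) (Nat.cast_nonneg _)
    _ = (∑ l ∈ S.image Prod.fst, wt l) * ∑ v ∈ S.image Prod.snd, 1 / (v : ℝ) := by
        rw [sum_product, sum_mul_sum]
        simp only [mul_one_div]
    _ ≤ D₁ * D₂ := mul_le_mul ha hb (sum_nonneg fun v _ => by positivity) hD₁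

end Crest.Agent.R020
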