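import Crest.Agent.R020.Eul
import Crest.Agent.R020.Ren1

set_option autoImplicit false

namespace Crest.Agent.R020

open Finset Filter Topology Crest.Agent.R008 Crest.Agent.R026 Crest.NumberTheoryR.TotientScale

theorem one_le_bt (σ : ℝ) (L : ℕ) (w : ℕ → ℝ) (r : ℕ) : 1 ≤ bt σ L w r := by
  unfold bt
  have := sum_nonneg (s := Icc 1 L) fun j _ => ind_nonneg (σ < LL r ∧ LL r ≤ w j)
  linarith

theorem bt_le (σ : ℝ) (L : ℕ) (w : ℕ → ℝ) (r : ℕ) : bt σ L w r ≤ L + 1 := by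
  unfold bt
  have := sum_le_sum (s := Icc 1 L) fun j _ => ind_le_one (σ < LL r ∧ LL r ≤ w j)
  simp only [sum_const, Nat.card_Icc, add_tsub_cancel_right, nsmul_eq_mul, mul_one] at this
  linarith

theorem bt_of_le {σ : ℝ} (L : ℕ) (w : ℕ → ℝ) {r : ℕ} (h : LL r ≤ σ) : bt σ L w r = 1 := by
  unfold bt
  rw [sum_eq_zero fun j _ => ind_neg fun h' => absurd h'.1 (not_lt.2 h), add_zero]

/-- For antitone `w` the indices `j` with `σ < LL r ≤ w j` form an initial segment of `[1, L]`,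
so the logarithm telescopes (induction on `L`). -/
theorem log_bt (σ : ℝ) (L : ℕ) {w : ℕ → ℝ} (hw : ∀ i j, i ≤ j → w j ≤ w i) (r : ℕ) :
    Real.log (bt σ L w r) = ∑ j ∈ Icc 1 L,
      (Real.log ((j : ℝ) + 1) - Real.log j) * ind (σ < LL r ∧ LL r ≤ w j) := by
  induction L with
  | zero => simp [bt]
  | succ L ih =>
    rw [sum_Icc_succ_top (by omega), ← ih]
    have h1 : bt σ (L + 1) w r = bt σ L w r + ind (σ < LL r ∧ LL r ≤ w (L + 1)) := by
      unfold bt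
      rw [sum_Icc_succ_top (by omega), add_assoc]
    rw [h1]
    by_cases h : σ < LL r ∧ LL r ≤ w (L + 1)
    · have h2 : bt σ L w r = L + 1 := by
        unfold bt
        rw [sum_congr rfl fun j hj =>
          ind_pos ⟨h.1, h.2.trans (hw j (L + 1) (by have := (mem_Icc.1 hj).2; omega))⟩]
        simp [add_comm]
      rw [ind_pos h, h2]
      push_cast
      ring
    · rw [ind_neg h]
      simp

theorem cm_bt (σ : ℝ) (L : ℕ) {w : ℕ → ℝ} (hw : ∀ i j, i ≤ j → w j ≤ w i) (v : ℕ) :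
    cm (bt σ L w) v =
      Real.exp (∑ j ∈ Icc 1 L, (Real.log ((j : ℝ) + 1) - Real.log j) * Nb v σ (w j)) := by
  have h1 : cm (bt σ L w) v = cm (fun r => Real.exp (Real.log (bt σ L w r))) v :=
    cm_congr fun r _ _ => (Real.exp_log (lt_of_lt_of_le one_pos (one_le_bt σ L w r))).symm
  rw [h1, cm_exp]
  congr 1
  simp only [log_bt σ L hw, Nb, sum_mul, mul_sum, mul_assoc]
  exact sum_comm

theorem VB_sum_log_step (L : ℕ) :
    ∑ j ∈ Icc 1 L, (Real.log ((j : ℝ) + 1) - Real.log j) = Real.log ((L : ℝ) + 1) := by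
  induction L with
  | zero => simp
  | succ L ih =>
    rw [sum_Icc_succ_top (by omega), ih]
    push_cast
    ring

/-- `∑_{l ≤ L} min (w j) (w l) = (j + 1) w j + ∑_{l > j} w l`; exchange the order of summation;
`∑_{1 ≤ i < j} (log (i + 1) - log i) = log j`. -/
theorem tilt_id (L : ℕ) {w : ℕ → ℝ} (hw : ∀ i j, i ≤ j → w j ≤ w i) :
    ∑ j ∈ Icc 1 L, (Real.log ((j : ℝ) + 1) - Real.log j) * ∑ l ∈ range (L + 1), min (w j) (w l) =
      ∑ j ∈ Icc 1 L, (aCoef j + 1) * w j := by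
  induction L with
  | zero => simp
  | succ L ih =>
    rw [sum_Icc_succ_top (by omega), sum_Icc_succ_top (by omega), ← ih]
    have h1 : ∑ l ∈ range (L + 1 + 1), min (w (L + 1)) (w l) = ((L : ℝ) + 2) * w (L + 1) := by
      rw [sum_congr rfl fun l hl => min_eq_left (hw l (L + 1) (by have := mem_range.1 hl; omega))]
      simp only [sum_const, card_range, nsmul_eq_mul]
      push_cast
      ring
    have h2 : ∑ j ∈ Icc 1 L, (Real.log ((j : ℝ) + 1) - Real.log j) *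
        ∑ l ∈ range (L + 1 + 1), min (w j) (w l) =
        ∑ j ∈ Icc 1 L, (Real.log ((j : ℝ) + 1) - Real.log j) *
          ∑ l ∈ range (L + 1), min (w j) (w l) + Real.log ((L : ℝ) + 1) * w (L + 1) := by
      rw [← VB_sum_log_step, sum_mul, ← sum_add_distrib]
      refine sum_congr rfl fun j hj => ?_
      rw [sum_range_succ, min_eq_right (hw j (L + 1) (by have := (mem_Icc.1 hj).2; omega)), mul_add]
    rw [h1, h2, aCoef]
    push_cast
    ring_nf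

theorem sum_log_step (L : ℕ) :
    ∑ j ∈ Icc 1 L, (Real.log ((j : ℝ) + 1) - Real.log j) = Real.log ((L : ℝ) + 1) := by
  exact VB_sum_log_step L

theorem VB_step_nonneg {L j : ℕ} (hj : j ∈ Icc 1 L) : 0 ≤ Real.log ((j : ℝ) + 1) - Real.log j := by
  have h : (1 : ℝ) ≤ j := by exact_mod_cast (mem_Icc.1 hj).1
  exact sub_nonneg.2 (Real.log_le_log (by linarith) (by linarith))

theorem VB_log_le (L : ℕ) : Real.log ((L : ℝ) + 1) ≤ L + 1 := by
  have := Real.log_le_sub_one_of_pos (x := (L : ℝ) + 1) (by positivity)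
  linarith

/-- The tilt is large on the set in question. -/
theorem cm_bt_ge {σ E : ℝ} {L : ℕ} {w : ℕ → ℝ} (hw : ∀ i j, i ≤ j → w j ≤ w i) (hE : 0 ≤ E) {v : ℕ}
    (hv : ∀ j ∈ Icc 1 L, ∑ l ∈ range (L + 1), min (w j) (w l) - E ≤ Nb v σ (w j)) :
    Real.exp (∑ j ∈ Icc 1 L, (aCoef j + 1) * w j - E * (L + 1)) ≤ cm (bt σ L w) v := by
  rw [cm_bt σ L hw, Real.exp_le_exp, ← tilt_id L hw]
  have h1 := sum_le_sum fun j hj => mul_le_mul_of_nonneg_left (hv j hj) (VB_step_nonneg hj)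
  simp only [mul_sub (Real.log _ - Real.log _), sum_sub_distrib, ← sum_mul] at h1
  rw [← sum_sub_distrib, sum_log_step] at h1
  have h2 := mul_le_mul_of_nonneg_left (VB_log_le L) hE
  linarith

theorem cm_bt_le {σ E : ℝ} {L : ℕ} {w : ℕ → ℝ} (hw : ∀ i j, i ≤ j → w j ≤ w i) (hE : 0 ≤ E) {v : ℕ}
    (hv : ∀ j ∈ Icc 1 L, Nb v σ (w j) ≤ ∑ l ∈ range (L + 1), min (w j) (w l) + E) :
    cm (bt σ L w) v ≤ Real.exp (∑ j ∈ Icc 1 L, (aCoef j + 1) * w j + E * (L + 1)) := by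
  rw [cm_bt σ L hw, Real.exp_le_exp, ← tilt_id L hw]
  have h1 := sum_le_sum fun j hj => mul_le_mul_of_nonneg_left (hv j hj) (VB_step_nonneg hj)
  simp only [mul_add (Real.log _ - Real.log _), sum_add_distrib, ← sum_mul] at h1
  rw [sum_log_step] at h1
  have h2 := mul_le_mul_of_nonneg_left (VB_log_le L) hE
  linarith

/-- If `σ < LL r` then `bt ≤ L + 1 ≤ σ` and `r ≥ exp (exp σ)` (`sum_inv_sq_tail`); otherwise
`bt = 1`. -/
theorem bt_small {σ : ℝ} {L : ℕ} (hL : (L : ℝ) + 1 ≤ σ) (w : ℕ → ℝ) :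
    (∀ r : ℕ, r.Prime → bt σ L w r ≤ 3 / 4 * r) ∧
      ∀ P : Finset ℕ, (∀ r ∈ P, r.Prime) → ∑ r ∈ P, (bt σ L w r / r) ^ 2 ≤ 3 := by
  classical
  have hL0 : (0 : ℝ) ≤ L := Nat.cast_nonneg L
  have hσ : 0 < σ := by linarith
  have hE : 2 * (1 + σ + σ ^ 2 / 2) ≤ Real.exp (Real.exp σ) := by
    have h1 := Real.quadratic_le_exp_of_nonneg hσ.le
    have h2 : Real.exp (σ + 1) ≤ Real.exp (Real.exp σ) :=
      Real.exp_le_exp.2 (Real.add_one_le_exp σ)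
    have h3 : (2 : ℝ) ≤ Real.exp 1 := by have := Real.add_one_le_exp 1; linarith
    rw [Real.exp_add] at h2
    nlinarith [Real.exp_pos σ]
  refine ⟨fun r hr => ?_, fun P hP => ?_⟩
  · have h2 : (2 : ℝ) ≤ r := by exact_mod_cast hr.two_le
    rcases le_or_gt (LL r) σ with h | h
    · rw [bt_of_le L w h]
      linarith
    · have h3 := exp_le_of_LL (y := r) (by linarith) hσ h.le
      have h4 := bt_le σ L w r
      nlinarith [sq_nonneg σ]
  · rw [← sum_filter_add_sum_filter_not P (fun r => LL r ≤ σ)]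
    have h1 : ∑ r ∈ P.filter (fun r : ℕ => LL r ≤ σ), (bt σ L w r / r) ^ 2 ≤ 1 := by
      refine le_trans (le_of_eq ?_) (sum_inv_sq_primes (A := P.filter (fun r : ℕ => LL r ≤ σ))
        fun p hp => hP p (mem_filter.1 hp).1)
      exact sum_congr rfl fun r hr => by rw [bt_of_le L w (mem_filter.1 hr).2]
    have h2 := sum_inv_sq_tail hσ (A := P.filter (fun r : ℕ => ¬ LL r ≤ σ))
      fun p hp => ⟨hP p (mem_filter.1 hp).1, (not_le.1 (mem_filter.1 hp).2).le⟩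
    have h3 : ∑ r ∈ P.filter (fun r : ℕ => ¬ LL r ≤ σ), (bt σ L w r / r) ^ 2 ≤
        σ ^ 2 * ∑ r ∈ P.filter (fun r : ℕ => ¬ LL r ≤ σ), 1 / ((r : ℝ) * ((r : ℝ) - 1)) := by
      rw [mul_sum]
      refine sum_le_sum fun r hr => ?_
      have h4 : (2 : ℝ) ≤ r := by exact_mod_cast (hP r (mem_filter.1 hr).1).two_le
      have h5 : bt σ L w r ^ 2 ≤ σ ^ 2 :=
        pow_le_pow_left₀ (le_trans zero_le_one (one_le_bt σ L w r)) ((bt_le σ L w r).trans hL) 2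
      rw [div_pow, mul_one_div]
      exact div_le_div₀ (sq_nonneg σ) h5 (mul_pos (by linarith) (by linarith)) (by nlinarith)
    have h4 : σ ^ 2 * (2 * Real.exp (-Real.exp σ)) ≤ 2 := by
      rw [Real.exp_neg]
      have h5 : σ ^ 2 * (Real.exp (Real.exp σ))⁻¹ ≤ 1 := by
        rw [← div_eq_mul_inv, div_le_one (Real.exp_pos _)]
        linarith
      linarith
    have h5 := mul_le_mul_of_nonneg_left h2 (sq_nonneg σ)
    linarith

theorem VB_sum_le (σ : ℝ) (L : ℕ) {w : ℕ → ℝ} (hw : ∀ j, 0 ≤ w j) {P : Finset ℕ}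
    (hP : ∀ r ∈ P, r.Prime) :
    ∑ r ∈ P, (bt σ L w r - 1) / r ≤ ∑ j ∈ Icc 1 L, w j + L * cM := by
  have h1 : ∑ r ∈ P, (bt σ L w r - 1) / r =
      ∑ j ∈ Icc 1 L, ∑ r ∈ P, ind (σ < LL r ∧ LL r ≤ w j) / (r : ℝ) := by
    rw [sum_comm]
    refine sum_congr rfl fun r _ => ?_
    rw [bt, add_sub_cancel_left, sum_div]
  have h2 : ∑ j ∈ Icc 1 L, ∑ r ∈ P, ind (σ < LL r ∧ LL r ≤ w j) / (r : ℝ) ≤
      ∑ j ∈ Icc 1 L, (w j + cM) := by
    refine sum_le_sum fun j _ => le_trans (sum_le_sum fun r _ => ?_) (mert_ind_le (hw j) hP)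
    exact div_le_div_of_nonneg_right (ind_mono And.right) (Nat.cast_nonneg r)
  rw [h1]
  simpa [sum_add_distrib] using h2

/-- `E1` with `z = bt σ L w`, `P = PL s`: `∑ z r / r ≤ s + cM + ∑_j (w j + cM)`
(`mert_PL_le`, `mert_ind_le`), and `cm_bt_ge`. -/
theorem VB1 : ∃ C : ℝ, 1 ≤ C ∧ ∀ (σ s E : ℝ) (L : ℕ) (w : ℕ → ℝ) (A : Finset ℕ), (L : ℝ) + 1 ≤ σ →
    0 ≤ s → 0 ≤ E → (∀ j, 0 ≤ w j) → (∀ i j, i ≤ j → w j ≤ w i) →
    (∀ v ∈ A, Sm s v ∧ ∀ j ∈ Icc 1 L, ∑ l ∈ range (L + 1), min (w j) (w l) - E ≤ Nb v σ (w j)) →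
    ∑ v ∈ A, 1 / (v : ℝ) ≤ Real.exp (s - ∑ j ∈ Icc 1 L, aCoef j * w j + (E + C) * (L + 1)) := by
  refine ⟨cM + 6, by linarith [one_le_cM], fun σ s E L w A hL hs hE hw0 hw hA => ?_⟩
  obtain ⟨hb1, hb2⟩ := bt_small hL w
  have hP : ∀ r ∈ PL s, r.Prime := fun r hr => (mem_PL.1 hr).1
  have h1 := E1 (PL s) (bt σ L w)
    (fun r hr => ⟨hP r hr, le_trans zero_le_one (one_le_bt σ L w r), hb1 r (hP r hr)⟩) A
    fun n hn => ⟨(hA n hn).1.1, fun r hr hd => mem_PL.2 ⟨hr, (hA n hn).1.2 r hr hd⟩⟩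
  set T := ∑ j ∈ Icc 1 L, (aCoef j + 1) * w j - E * (L + 1) with hT
  have h2 : Real.exp T * ∑ v ∈ A, 1 / (v : ℝ) ≤ ∑ v ∈ A, cm (bt σ L w) v / v := by
    rw [mul_sum]
    refine sum_le_sum fun v hv => ?_
    rw [mul_one_div]
    exact div_le_div_of_nonneg_right (cm_bt_ge hw hE (hA v hv).2) (Nat.cast_nonneg v)
  have h3 := h2.trans h1
  rw [← le_div_iff₀' (Real.exp_pos T), ← Real.exp_sub] at h3
  refine h3.trans (Real.exp_le_exp.2 ?_)
  have h4 := VB_sum_le σ L hw0 hP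
  have h5 := mert_PL_le hs
  have h6 := hb2 _ hP
  have hL0 : (0 : ℝ) ≤ L := Nat.cast_nonneg L
  simp only [sub_div, sum_sub_distrib] at h4
  simp only [hT, sum_add_distrib, ← mul_sum, add_mul, one_mul]
  nlinarith

/-- `E2` with `z = bt σ L w`, `P = PL (w 0)`. -/
theorem VB2 : ∃ C : ℝ, 1 ≤ C ∧ ∀ (σ x E : ℝ) (L : ℕ) (w : ℕ → ℝ) (A : Finset ℕ), (L : ℝ) + 1 ≤ σ →
    0 ≤ x → 0 ≤ E → (∀ j, 0 ≤ w j) → (∀ i j, i ≤ j → w j ≤ w i) →
    (∀ v ∈ A, v ≠ 0 ∧ (v : ℝ) ≤ x ∧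
      ∀ j ∈ Icc 1 L, ∑ l ∈ range (L + 1), min (w j) (w l) - E ≤ Nb v σ (w j)) →
    (A.card : ℝ) ≤ x * Real.exp (-∑ j ∈ Icc 1 L, aCoef j * w j + (E + C) * (L + 1)) := by
  refine ⟨cM + 12, by linarith [one_le_cM], fun σ x E L w A hL hx hE hw0 hw hA => ?_⟩
  obtain ⟨hb1, hb2⟩ := bt_small hL w
  have hP : ∀ r ∈ PL (w 0), r.Prime := fun r hr => (mem_PL.1 hr).1
  have h1 := E2 (PL (w 0)) (bt σ L w)
    (fun r hr => ⟨hP r hr, one_le_bt σ L w r, hb1 r (hP r hr)⟩) (fun r hr h => by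
      unfold bt
      rw [sum_eq_zero fun j _ => ind_neg fun h' =>
        h (mem_PL.2 ⟨hr, h'.2.trans (hw 0 j (Nat.zero_le j))⟩), add_zero]) x hx A
    fun n hn => ⟨(hA n hn).1, (hA n hn).2.1⟩
  set T := ∑ j ∈ Icc 1 L, (aCoef j + 1) * w j - E * (L + 1) with hT
  have h2 : (A.card : ℝ) * Real.exp T ≤ ∑ v ∈ A, cm (bt σ L w) v := by
    rw [← nsmul_eq_mul, ← sum_const]
    exact sum_le_sum fun v hv => cm_bt_ge hw hE (hA v hv).2.2
  have h3 := h2.trans h1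
  rw [← le_div_iff₀ (Real.exp_pos T), mul_div_assoc, ← Real.exp_sub] at h3
  refine h3.trans (mul_le_mul_of_nonneg_left (Real.exp_le_exp.2 ?_) hx)
  have h4 := VB_sum_le σ L hw0 hP
  have h6 := hb2 _ hP
  have hL0 : (0 : ℝ) ≤ L := Nat.cast_nonneg L
  have := one_le_cM
  simp only [hT, sum_add_distrib, ← mul_sum, add_mul, one_mul]
  nlinarith

end Crest.Agent.R020
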