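import Crest.Agent.R020.Es2
import Crest.Agent.R020.VB

set_option autoImplicit false

namespace Crest.Agent.R020

open Finset Filter Topology Crest.Agent.R008 Crest.Agent.R026 Crest.NumberTheoryR.TotientScale

/-- The factors of one side. -/
def col0Row (a : ℕ) (u : List ℕ × ℕ) : Option (Fin a) → ℕ :=
  fun i => i.elim u.2 (fun i => u.1.getD i 1 - 1)

/-- The thresholds. -/
noncomputable def col0T (a : ℕ) (Δ : ℝ) (w : ℕ → ℝ) : Option (Fin a) → ℝ :=
  fun i => i.elim 0 (fun i => w i - 2 * Δ - 2)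

open Classical in
/-- The constrained indices. -/
noncomputable def col0C (a : ℕ) (Δ : ℝ) (w : ℕ → ℝ) : Finset (Option (Fin a)) :=
  univ.filter (fun i => 1 ≤ col0T a Δ w i)

theorem col0_mem {a : ℕ} {Δ : ℝ} {w : ℕ → ℝ} {i : Option (Fin a)} :
    i ∈ col0C a Δ w ↔ 1 ≤ col0T a Δ w i := by
  simp [col0C]

theorem col0_prod {a : ℕ} {u : List ℕ × ℕ} (h : u.1.length = a) :
    ∏ i, col0Row a u i = pm u.1 * u.2 := by
  subst h
  rw [Fintype.prod_option, pm_eq_prod, mul_comm]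
  congr 1
  refine prod_congr rfl fun i _ => ?_
  simp [col0Row]

theorem col0_inj {a : ℕ} {u u' : List ℕ × ℕ} (h : u.1.length = a) (h' : u'.1.length = a)
    (hp : Pr u.1) (hp' : Pr u'.1) (he : col0Row a u = col0Row a u') : u = u' := by
  refine Prod.ext ?_ (congrFun he none)
  refine List.ext_getElem (h.trans h'.symm) fun i h1 h2 => ?_
  have h3 : u.1.getD i 1 - 1 = u'.1.getD i 1 - 1 := congrFun he (some ⟨i, h ▸ h1⟩)
  have h4 := (hp.getD h1).pos
  have h5 := (hp'.getD h2).pos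
  rw [List.getD_eq_getElem _ _ h1] at h3 h4
  rw [List.getD_eq_getElem _ _ h2] at h3 h5
  omega

theorem col0_sum (a : ℕ) {Δ : ℝ} (hΔ : 0 ≤ Δ) (w : ℕ → ℝ) :
    ∑ i ∈ range a, w i - a * (2 * Δ + 3) ≤ ∑ i ∈ col0C a Δ w, col0T a Δ w i := by
  classical
  unfold col0C
  rw [sum_filter, Fintype.sum_option]
  have h0 : (if 1 ≤ col0T a Δ w none then col0T a Δ w none else 0) = 0 := by simp [col0T]
  rw [h0, zero_add, ← Fin.sum_univ_eq_sum_range]
  have : ∑ i : Fin a, w i - a * (2 * Δ + 3) = ∑ i : Fin a, (w i - (2 * Δ + 3)) := by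
    rw [sum_sub_distrib]; simp; ring
  rw [this]
  refine sum_le_sum fun i _ => ?_
  have h1 : col0T a Δ w (some i) = w i - 2 * Δ - 2 := rfl
  rw [h1]
  split_ifs with h <;> linarith

theorem col0_card (a : ℕ) (Δ : ℝ) (w : ℕ → ℝ) : (col0C a Δ w).card ≤ a + 1 := by
  have := card_le_univ (col0C a Δ w)
  simpa using this

theorem col0_w_bounds {a : ℕ} {l : List ℕ} {w : ℕ → ℝ} (h : l.length = a)
    (hw : ∀ j, w j = if j < a then (⌊lv l j⌋₊ : ℝ) + 1 else 0) (j : ℕ) :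
    lv l j ≤ w j ∧ w j ≤ lv l j + 1 ∧ 0 ≤ w j := by
  have h0 := lv_nonneg l j
  rw [hw]
  split_ifs with hj
  · exact ⟨(Nat.lt_floor_add_one _).le, by linarith [Nat.floor_le h0], by positivity⟩
  · rw [lv_of_le (by omega)]
    norm_num

theorem col0_w_anti {a : ℕ} {l : List ℕ} {w : ℕ → ℝ} (hd : Dec l)
    (hw : ∀ j, w j = if j < a then (⌊lv l j⌋₊ : ℝ) + 1 else 0) (i j : ℕ) (hij : i ≤ j) :
    w j ≤ w i := by
  rw [hw, hw]
  split_ifs with h1 h2 h2
  · have : ⌊lv l j⌋₊ ≤ ⌊lv l i⌋₊ := Nat.floor_mono (hd.lv_anti hij)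
    have : (⌊lv l j⌋₊ : ℝ) ≤ ⌊lv l i⌋₊ := by exact_mod_cast this
    linarith
  · omega
  · positivity
  · exact le_rfl

theorem col0_side {Δ σ s : ℝ} {L a : ℕ} {u : List ℕ × ℕ} {w : ℕ → ℝ} (hS : Side Δ σ s L u)
    (h : u.1.length = a) (hw : ∀ j, w j = if j < a then (⌊lv u.1 j⌋₊ : ℝ) + 1 else 0) :
    (∀ i, Sm ((fun i : Option (Fin a) => i.elim σ (fun i => w i)) i) (col0Row a u i)) ∧
      ∀ i ∈ col0C a Δ w, Shp s (col0T a Δ w i) (col0Row a u i) ∧ col0Row a u i + 1 ∈ u.1 := by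
  obtain ⟨-, -, h3, h4⟩ := hS
  constructor
  · rintro (_ | i)
    · exact h4
    · have hi : (i : ℕ) < u.1.length := h ▸ i.2
      exact sm_pred (h3 _ (getD_mem hi)).1 (col0_w_bounds h hw i).1
  · rintro (_ | i) hi
    · rw [col0_mem] at hi
      norm_num [col0T] at hi
    · rw [col0_mem] at hi
      have hi' : (i : ℕ) < u.1.length := h ▸ i.2
      obtain ⟨hp, hN, hs⟩ := h3 _ (getD_mem hi')
      have hb := (col0_w_bounds h hw i).2.1
      have e1 : col0T a Δ w (some i) = w i - 2 * Δ - 2 := rfl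
      have e2 : col0Row a u (some i) = u.1.getD i 1 - 1 := rfl
      have e3 : u.1.getD i 1 - 1 + 1 = u.1.getD i 1 := Nat.sub_add_cancel hp.pos
      have e4 : lv u.1 i = LL (u.1.getD i 1 : ℕ) := rfl
      rw [e1] at hi ⊢
      rw [e2, e3]
      obtain ⟨r, hr, hd, hl⟩ := hN.big_prime (by linarith)
      refine ⟨⟨by rw [e3]; exact hp, (LL_mono_nat (Nat.sub_le _ _)).trans hs, r, hr, hd, ?_⟩,
        getD_mem hi'⟩
      linarith

theorem col0_tilt {Δ σ s : ℝ} {L a : ℕ} {u : List ℕ × ℕ} {w : ℕ → ℝ} (hΔ : 0 ≤ Δ)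
    (hS : Side Δ σ s L u) (h : u.1.length = a)
    (hw : ∀ j, w j = if j < a then (⌊lv u.1 j⌋₊ : ℝ) + 1 else 0) :
    cm (bt σ L w) (pm u.1 * u.2) ≤
      Real.exp (∑ j ∈ Icc 1 L, (aCoef j + 1) * w j + L * Δ * (L + 1)) := by
  obtain ⟨h1, h2, h3, h4⟩ := hS
  have hp : Pr u.1 := fun p hp => (h3 p hp).1
  refine cm_bt_le (col0_w_anti h2 hw) (by positivity) fun j _ => ?_
  rw [Nb_mul (pm_pos hp).ne' h4.1, Nb_smooth h4, add_zero, Nb_pm hp, h]
  have hwj := (col0_w_bounds h hw j).2.2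
  have haL : a ≤ L := h ▸ h1
  calc ∑ l ∈ range a, Nb (u.1.getD l 1 - 1) σ (w j) ≤ ∑ l ∈ range a, (min (w j) (w l) + Δ) := by
        refine sum_le_sum fun l hl => ?_
        have hl' : l < u.1.length := h ▸ mem_range.1 hl
        refine ((h3 _ (getD_mem hl')).2.1.Nb_le σ hwj).trans ?_
        have := min_le_min_left (w j) (col0_w_bounds h hw l).1
        exact add_le_add this le_rfl
    _ = ∑ l ∈ range a, min (w j) (w l) + a * Δ := by rw [sum_add_distrib]; simp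
    _ ≤ _ := by
        refine add_le_add (sum_le_sum_of_subset_of_nonneg (range_mono (by omega)) fun l _ _ =>
          le_min hwj (col0_w_bounds h hw l).2.2) ?_
        exact mul_le_mul_of_nonneg_right (by exact_mod_cast haL) hΔ

theorem col0_expo {e : ℝ} {L a : ℕ} {l : List ℕ} {w : ℕ → ℝ} (h : l.length = a)
    (haL : a ≤ L) (hw : ∀ j, w j = if j < a then (⌊lv l j⌋₊ : ℝ) + 1 else 0)
    (he : ∑ j ∈ Icc 1 L, aCoef j * lv l j + e ≤ lv l 0) :
    ∑ j ∈ Icc 1 L, (aCoef j + 1) * w j - ∑ i ∈ range a, w i ≤ -e + (L : ℝ) ^ 2 := by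
  have h1 : ∑ i ∈ range a, w i = w 0 + ∑ j ∈ Icc 1 L, w j := by
    have h2 : ∑ i ∈ range a, w i = ∑ i ∈ range (L + 1), w i := by
      refine sum_subset (range_mono (by omega)) fun i _ hi => ?_
      rw [hw, if_neg (by simpa using hi)]
    rw [h2, sum_range_succ', add_comm, range_eq_Ico, sum_Ico_add' w 0 L 1]
    rfl
  have h3 : ∑ j ∈ Icc 1 L, aCoef j * w j ≤ ∑ j ∈ Icc 1 L, (aCoef j * lv l j + L) := by
    refine sum_le_sum fun j hj => ?_
    obtain ⟨j1, j2⟩ := mem_Icc.1 hj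
    have h4 := mul_le_mul_of_nonneg_left (col0_w_bounds h hw j).2.1 (a_nonneg j1)
    have h5 := a_le j
    have h6 : (j : ℝ) ≤ L := by exact_mod_cast j2
    linarith
  rw [sum_add_distrib] at h3
  simp only [sum_const, Nat.card_Icc, add_tsub_cancel_right, nsmul_eq_mul] at h3
  have h7 := (col0_w_bounds h hw 0).1
  simp only [add_mul, one_mul, sum_add_distrib]
  rw [h1]
  nlinarith

theorem col0_KK {C₀ s : ℝ} (hC : 1 ≤ C₀) (hs : 0 ≤ s) {L a a' n : ℕ} (ha : a ≤ L) (ha' : a' ≤ L)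
    (hn : n ≤ a + 1 + (a' + 1)) :
    KK C₀ s (a + 1) (a' + 1) ^ n ≤
      Real.exp (((L : ℝ) + 1) ^ 2 * (2 * C₀ + 12 + 4 * Real.log (s + 2))) := by
  have hL : (0 : ℝ) ≤ L := Nat.cast_nonneg L
  have hl : 0 ≤ Real.log (s + 2) := Real.log_nonneg (by linarith)
  have h1 : KK C₀ s (a + 1) (a' + 1) ≤ Real.exp (C₀ + 6 * (L + 1) + 2 * Real.log (s + 2)) := by
    unfold KK
    rw [Real.exp_add, Real.exp_add]
    have e1 : C₀ ≤ Real.exp C₀ := by linarith [Real.add_one_le_exp C₀]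
    have e2 : (((a + 1 : ℕ) : ℝ) + (a' + 1 : ℕ) + 1) ^ 2 ≤ Real.exp (6 * (L + 1)) := by
      have a1 : (a : ℝ) ≤ L := by exact_mod_cast ha
      have a2 : (a' : ℝ) ≤ L := by exact_mod_cast ha'
      have a3 := Real.add_one_le_exp (3 * ((L : ℝ) + 1))
      rw [show 6 * ((L : ℝ) + 1) = (2 : ℕ) * (3 * (L + 1)) by push_cast; ring, Real.exp_nat_mul]
      refine pow_le_pow_left₀ (by positivity) ?_ 2
      push_cast
      linarith
    have e3 : (s + 1) ^ 2 ≤ Real.exp (2 * Real.log (s + 2)) := by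
      rw [show 2 * Real.log (s + 2) = (2 : ℕ) * Real.log (s + 2) by norm_num, Real.exp_nat_mul,
        Real.exp_log (by linarith)]
      exact pow_le_pow_left₀ (by linarith) (by linarith) 2
    exact mul_le_mul (mul_le_mul e1 e2 (by positivity) (by positivity)) e3 (by positivity)
      (by positivity)
  have h0 : 0 ≤ KK C₀ s (a + 1) (a' + 1) := by unfold KK; positivity
  refine (pow_le_pow_left₀ h0 h1 n).trans ?_
  rw [← Real.exp_nat_mul]
  refine Real.exp_le_exp.2 ?_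
  have h2 : (n : ℝ) ≤ 2 * (L + 1) := by
    have : n ≤ 2 * (L + 1) := by omega
    exact_mod_cast this
  calc (n : ℝ) * (C₀ + 6 * (L + 1) + 2 * Real.log (s + 2))
      ≤ 2 * (L + 1) * (C₀ + 6 * (L + 1) + 2 * Real.log (s + 2)) :=
        mul_le_mul_of_nonneg_right h2 (by positivity)
    _ ≤ _ := by
        have : 0 ≤ (L + 1) * L * (2 * C₀ + 4 * Real.log (s + 2)) := by positivity
        nlinarith

theorem Er_add (C C' Δ σ s : ℝ) (L : ℕ) : Er (C + C') Δ σ s L = Er C Δ σ s L + Er C' Δ σ s L := by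
  unfold Er; ring

theorem Er_nonneg {C Δ σ s : ℝ} (hC : 0 ≤ C) (hΔ : 0 ≤ Δ) (hσ : 0 ≤ σ) (hs : 0 ≤ s) (L : ℕ) :
    0 ≤ Er C Δ σ s L := by
  have hl : 0 ≤ Real.log (s + 2) := Real.log_nonneg (by linarith)
  unfold Er; positivity

theorem Er_mono {C C' Δ σ s : ℝ} (hC : C ≤ C') (hΔ : 0 ≤ Δ) (hσ : 0 ≤ σ) (hs : 0 ≤ s) (L : ℕ) :
    Er C Δ σ s L ≤ Er C' Δ σ s L := by
  have := Er_nonneg (sub_nonneg.2 hC) hΔ hσ hs L
  have h := Er_add C (C' - C) Δ σ s L
  rw [add_sub_cancel] at h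
  linarith

end Crest.Agent.R020
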