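import Crest.Agent.R020.Es2
import Crest.Agent.R020.VB
import Crest.Agent.R020.Col0Aux

set_option autoImplicit false

namespace Crest.Agent.R020

open Finset Filter Topology Crest.Agent.R008 Crest.Agent.R026 Crest.NumberTheoryR.TotientScale

/-- The exponent of the free sum for the tilt `z = 1 / bt σ L w`.  The rows are indexed by
`Option (Fin a)` with smoothness `σ` for `none` and `w i` for `some i`, and similarly the columns.
For a column `some j` and a prime `r` with `σ < LL r`, the number of rows `some i` with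
`LL r ≤ w i` is at most `bt σ L w r` (as `a ≤ L`), so these primes contribute at most
`∑_{r ∈ PL (w' j)} 1 / r ≤ w' j + cM`; the primes with `LL r ≤ σ` contribute at most `σ + cM` to
each of the `(a + 1) (a' + 1)` entries. -/
theorem FB_le {σ : ℝ} (hσ : 0 ≤ σ) {L a a' : ℕ} (ha : a ≤ L) (ha' : a' ≤ L) (w w' : ℕ → ℝ)
    (hw' : ∀ j, 0 ≤ w' j) :
    FB (fun r => (bt σ L w r)⁻¹) (fun i : Option (Fin a) => i.elim σ (fun i => w i))
      (fun j : Option (Fin a') => j.elim σ (fun j => w' j)) ≤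
      Real.exp (∑ j ∈ range a', w' j + 2 * ((L : ℝ) + 1) ^ 2 * (σ + cM + 2)) := by
  classical
  unfold FB
  refine Real.exp_le_exp.2 ?_
  have hM := one_le_cM
  have hb := one_le_bt σ L w
  have hz0 : ∀ r, 0 ≤ (bt σ L w r)⁻¹ := fun r => inv_nonneg.2 (zero_le_one.trans (hb r))
  have hz1 : ∀ r, (bt σ L w r)⁻¹ ≤ 1 := fun r => inv_le_one_of_one_le₀ (hb r)
  set T : ℝ → ℝ := fun u => ∑ r ∈ PL u, ind (σ < LL r) * ((bt σ L w r)⁻¹ / r) with hT
  have h1 : ∀ u : ℝ, ∑ r ∈ PL u, (bt σ L w r)⁻¹ / r + 2 ≤ σ + cM + 2 + T u := by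
    intro u
    have := mert_ind_le hσ (A := PL u) fun p hp => (mem_PL.1 hp).1
    have h2 : ∑ r ∈ PL u, (bt σ L w r)⁻¹ / r ≤ ∑ r ∈ PL u, ind (LL r ≤ σ) / (r : ℝ) + T u := by
      rw [hT, ← sum_add_distrib]
      refine sum_le_sum fun r _ => ?_
      by_cases h : LL r ≤ σ
      · rw [ind_pos h, ind_neg (not_lt.2 h), zero_mul, add_zero]
        exact div_le_div_of_nonneg_right (hz1 r) (Nat.cast_nonneg r)
      · rw [ind_neg h, ind_pos (not_le.1 h)]; simp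
    linarith
  have h2 : ∀ u : ℝ, u ≤ σ → T u = 0 := fun u hu => sum_eq_zero fun r hr => by
    rw [ind_neg (not_lt.2 ((mem_PL.1 hr).2.trans hu)), zero_mul]
  have h3 : ∀ j : ℕ, ∑ i : Fin a, T (min (w i) (w' j)) ≤ w' j + cM := by
    intro j
    have h4 : ∀ i : ℕ, T (min (w i) (w' j)) =
        ∑ r ∈ PL (w' j), ind (σ < LL r ∧ LL r ≤ w i) * ((bt σ L w r)⁻¹ / r) := by
      intro i
      have : PL (min (w i) (w' j)) = (PL (w' j)).filter (fun r : ℕ => LL r ≤ w i) := by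
        ext r; simp only [mem_PL, mem_filter, le_min_iff]; tauto
      simp only [hT]
      rw [this, ← sum_ind_mul]
      refine sum_congr rfl fun r _ => ?_
      rw [ind_and]; ring
    simp only [h4]
    rw [sum_comm]
    refine le_trans (sum_le_sum fun r _ => ?_) (mert_PL_le (hw' j))
    rw [← sum_mul, ← mul_div_assoc]
    refine div_le_div_of_nonneg_right ?_ (Nat.cast_nonneg r)
    rw [← div_eq_mul_inv, div_le_one (zero_lt_one.trans_le (hb r)),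
      Fin.sum_univ_eq_sum_range (fun i => ind (σ < LL r ∧ LL r ≤ w i))]
    unfold bt
    calc ∑ i ∈ range a, ind (σ < LL r ∧ LL r ≤ w i)
        ≤ ∑ i ∈ range (L + 1), ind (σ < LL r ∧ LL r ≤ w i) :=
          sum_le_sum_of_subset_of_nonneg (range_mono (by omega)) fun _ _ _ => ind_nonneg _
      _ ≤ _ := by
          rw [sum_range_succ', add_comm, range_eq_Ico,
            sum_Ico_add' (fun i => ind (σ < LL r ∧ LL r ≤ w i)) 0 L 1]
          exact add_le_add (ind_le_one _) le_rfl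
  refine (sum_le_sum fun i _ => sum_le_sum fun j _ => h1 _).trans ?_
  simp only [sum_add_distrib, sum_const, card_univ, Fintype.card_option, Fintype.card_fin,
    nsmul_eq_mul, Fintype.sum_option, Option.elim]
  rw [h2 _ (min_le_left _ _), sum_eq_zero fun j _ => h2 _ (min_le_left _ _),
    sum_eq_zero fun j _ => h2 _ (min_le_right _ _), sum_comm]
  have h5 : ∑ j : Fin a', ∑ i : Fin a, T (min (w i) (w' j)) ≤ ∑ j ∈ range a', w' j + a' * cM := by
    refine (sum_le_sum fun (j : Fin a') _ => h3 j).trans (le_of_eq ?_)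
    rw [sum_add_distrib, Fin.sum_univ_eq_sum_range w']
    simp
  have a1 : (a : ℝ) ≤ L := by exact_mod_cast ha
  have a2 : (a' : ℝ) ≤ L := by exact_mod_cast ha'
  have a3 : (0 : ℝ) ≤ a := Nat.cast_nonneg a
  have a4 : (0 : ℝ) ≤ a' := Nat.cast_nonneg a'
  have a5 : ((a : ℝ) + 1) * ((a' : ℝ) + 1) * (σ + cM + 2) ≤ (L + 1) ^ 2 * (σ + cM + 2) :=
    mul_le_mul_of_nonneg_right (by nlinarith) (by linarith)
  have a6 : (a' : ℝ) * cM ≤ (L + 1) ^ 2 * (σ + cM + 2) :=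
    mul_le_mul (by nlinarith) (by linarith) (by linarith) (by positivity)
  push_cast
  nlinarith

theorem col0_core {C₀ : ℝ} (hC : 1 ≤ C₀) {Δ σ s e F : ℝ} {L a a' : ℕ} {w w' : ℕ → ℝ}
    {A : Finset ((List ℕ × ℕ) × (List ℕ × ℕ))} (hΔ : 0 ≤ Δ) (hσ : 0 ≤ σ) (hs : 0 ≤ s) (hF : 0 ≤ F)
    (hA : ∀ q ∈ A, Col Δ σ s e L q ∧ (∀ p ∈ q.1.1, p ∉ q.2.1) ∧ q.1.1.length = a ∧
      q.2.1.length = a' ∧ (∀ j, w j = if j < a then (⌊lv q.1.1 j⌋₊ : ℝ) + 1 else 0) ∧
      ∀ j, w' j = if j < a' then (⌊lv q.2.1 j⌋₊ : ℝ) + 1 else 0)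
    (hE : Esum (fun r => (bt σ L w r)⁻¹) (A.image (fun q => (col0Row a q.1, col0Row a' q.2))) ≤
      F * (KK C₀ s (Fintype.card (Option (Fin a))) (Fintype.card (Option (Fin a'))) ^
        ((col0C a Δ w).card + (col0C a' Δ w').card) *
        Real.exp (-(∑ i ∈ col0C a Δ w, col0T a Δ w i + ∑ j ∈ col0C a' Δ w', col0T a' Δ w' j)) *
        FB (fun r => (bt σ L w r)⁻¹) (fun i : Option (Fin a) => i.elim σ (fun i => w i))
          (fun j : Option (Fin a') => j.elim σ (fun j => w' j)))) :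
    ∑ q ∈ A, 1 / ((pm q.1.1 * q.1.2 : ℕ) : ℝ) ≤
      F * Real.exp (-e + Er (2 * C₀ + 2 * cM + 30) Δ σ s L) := by
  rcases A.eq_empty_or_nonempty with rfl | ⟨q₀, hq₀⟩
  · rw [sum_empty]; positivity
  obtain ⟨⟨hS₀, hS₀', -, -, -, he₀⟩, -, hl₀, hl₀', hw₀, hw₀'⟩ := hA q₀ hq₀
  have haL : a ≤ L := hl₀ ▸ hS₀.1
  have haL' : a' ≤ L := hl₀' ▸ hS₀'.1
  set X := Real.exp (∑ j ∈ Icc 1 L, (aCoef j + 1) * w j + L * Δ * (L + 1)) with hX
  have h1 : ∑ q ∈ A, 1 / ((pm q.1.1 * q.1.2 : ℕ) : ℝ) ≤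
      X * Esum (fun r => (bt σ L w r)⁻¹) (A.image (fun q => (col0Row a q.1, col0Row a' q.2))) := by
    unfold Esum
    rw [sum_image, mul_sum]
    · refine sum_le_sum fun q hq => ?_
      obtain ⟨⟨hS, -⟩, -, hl, -, hw, -⟩ := hA q hq
      have h2 := col0_tilt hΔ hS hl hw
      have h3 : 0 < cm (bt σ L w) (pm q.1.1 * q.1.2) :=
        cm_pos (fun r _ => zero_lt_one.trans_le (one_le_bt σ L w r)) _
      simp only [col0_prod hl, cm_inv]
      rw [← mul_div_assoc]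
      refine div_le_div_of_nonneg_right ?_ (Nat.cast_nonneg _)
      rw [← div_eq_mul_inv, le_div_iff₀ h3, one_mul]
      exact h2
    · intro q hq q' hq' hqq
      obtain ⟨⟨hS, hS', -⟩, -, hl, hl', -⟩ := hA q hq
      obtain ⟨⟨gS, gS', -⟩, -, gl, gl', -⟩ := hA q' hq'
      exact Prod.ext
        (col0_inj hl gl (fun p hp => (hS.2.2.1 p hp).1) (fun p hp => (gS.2.2.1 p hp).1)
          (congrArg Prod.fst hqq))
        (col0_inj hl' gl' (fun p hp => (hS'.2.2.1 p hp).1) (fun p hp => (gS'.2.2.1 p hp).1)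
          (congrArg Prod.snd hqq))
  refine h1.trans ((mul_le_mul_of_nonneg_left hE (Real.exp_pos _).le).trans ?_)
  rw [mul_left_comm]
  refine mul_le_mul_of_nonneg_left ?_ hF
  simp only [Fintype.card_option, Fintype.card_fin]
  have h2 := col0_KK hC hs haL haL' (add_le_add (col0_card a Δ w) (col0_card a' Δ w'))
  have h3 := FB_le hσ haL haL' w w' (fun j => (col0_w_bounds hl₀' hw₀' j).2.2)
  have h4 := col0_sum a hΔ w
  have h5 := col0_sum a' hΔ w'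
  have h6 := col0_expo hl₀ haL hw₀ he₀
  refine (mul_le_mul_of_nonneg_left (mul_le_mul (mul_le_mul_of_nonneg_right h2
    (Real.exp_pos _).le) h3 (Real.exp_pos _).le (by positivity)) (Real.exp_pos _).le).trans ?_
  rw [← Real.exp_add, ← Real.exp_add, ← Real.exp_add]
  refine Real.exp_le_exp.2 ?_
  have hL : (0 : ℝ) ≤ L := Nat.cast_nonneg L
  have hl : 0 ≤ Real.log (s + 2) := Real.log_nonneg (by linarith)
  have hM := one_le_cM
  have a1 : (a : ℝ) * (2 * Δ + 3) ≤ (L + 1) ^ 2 * (2 * Δ + 3) := by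
    have : (a : ℝ) ≤ L := by exact_mod_cast haL
    exact mul_le_mul_of_nonneg_right (by nlinarith) (by positivity)
  have a2 : (a' : ℝ) * (2 * Δ + 3) ≤ (L + 1) ^ 2 * (2 * Δ + 3) := by
    have : (a' : ℝ) ≤ L := by exact_mod_cast haL'
    exact mul_le_mul_of_nonneg_right (by nlinarith) (by positivity)
  have a3 : (L : ℝ) * Δ * (L + 1) ≤ (L + 1) ^ 2 * Δ := by nlinarith
  have a4 : (L : ℝ) ^ 2 ≤ (L + 1) ^ 2 := by nlinarith
  have a5 : ((L : ℝ) + 1) ^ 2 * (5 * Δ + 2 * σ + 4 * Real.log (s + 2) + (2 * C₀ + 2 * cM + 23)) ≤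
      Er (2 * C₀ + 2 * cM + 30) Δ σ s L := by
    unfold Er
    rw [mul_comm (2 * C₀ + 2 * cM + 30), mul_assoc]
    refine mul_le_mul_of_nonneg_left ?_ (by positivity)
    have : 0 ≤ (2 * C₀ + 2 * cM) * (σ + Δ + Real.log (s + 2)) := by positivity
    nlinarith
  nlinarith

/-- One box.  The map `q ↦ (rows, columns)`, rows `none ↦ q.1.2`, `some i ↦ p_i - 1`, is
injective on `A` and satisfies `Free` (`pm_eq_prod`, `sm_pred`) and `Cst s CI CJ t t'` with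
`t (some i) = w i - 2 Δ - 2`, `CI = {some i | 1 ≤ w i - 2 Δ - 2}` (`Normal.big_prime`;
disjointness of the lists).  With `N` the common product and `z = 1 / bt σ L w`,
`1 / N = cm (bt σ L w) N * (cm z N / N)` (`cm_inv`) and `cm_bt_le` applies with `E = L Δ`
(`Nb_mul`, `Nb_pm`, `Nb_smooth`, `Normal.Nb_le`).  By `Es2`, `FB_le` the exponent is
`∑_{1≤j≤L} (a_j + 1) w j - ∑_{i<a} w i - ∑_{j<a'} w' j + ∑_{j<a'} w' j + error`, where `w j = 0`
for `j ≥ a`; this is `∑ a_j w j - w 0 + error ≤ -e + L² + error`.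
For the second part use `Es3` with `i₀ = some 0`, `j₀ = some 0`, `lam = Λ - 2 Δ - 1 ≥ 3`; here
`w 0, w' 0 ≤ s + 1 ≤ Λ + 3` and `w' j ≤ Λ - 2 Δ - 3` for `j ≥ 1`. -/
theorem col_box : ∃ C : ℝ, 1 ≤ C ∧ ∀ (Δ σ s e : ℝ) (L a a' : ℕ) (w w' : ℕ → ℝ)
    (A : Finset ((List ℕ × ℕ) × (List ℕ × ℕ))), 0 ≤ Δ → 0 ≤ σ → 0 ≤ s →
    (∀ q ∈ A, Col Δ σ s e L q ∧ (∀ p ∈ q.1.1, p ∉ q.2.1) ∧ q.1.1.length = a ∧
      q.2.1.length = a' ∧ (∀ j, w j = if j < a then (⌊lv q.1.1 j⌋₊ : ℝ) + 1 else 0) ∧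
      ∀ j, w' j = if j < a' then (⌊lv q.2.1 j⌋₊ : ℝ) + 1 else 0) →
    ∑ q ∈ A, 1 / ((pm q.1.1 * q.1.2 : ℕ) : ℝ) ≤ Real.exp (-e + Er C Δ σ s L) ∧
    ∀ Λ Y T : ℝ, 1 ≤ T → s ≤ Λ + 2 → σ ≤ Λ - 2 * Δ - 4 → (∀ q ∈ A, ColTop Δ Λ Y T q) →
      ∑ q ∈ A, 1 / ((pm q.1.1 * q.1.2 : ℕ) : ℝ) ≤
        (Real.log T + 1) * Real.exp (-Λ) * Real.exp (-e + Er C Δ σ s L) := by
  obtain ⟨C₁, hC₁, h₁⟩ := Es2
  obtain ⟨C₂, hC₂, h₂⟩ := Es3
  have hM := one_le_cM
  refine ⟨2 * C₁ + 2 * C₂ + 2 * cM + 35, by linarith, fun Δ σ s e L a a' w w' A hΔ hσ hs hA => ?_⟩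
  have hz : ∀ r, 0 ≤ (bt σ L w r)⁻¹ ∧ (bt σ L w r)⁻¹ ≤ 1 := fun r =>
    ⟨inv_nonneg.2 (zero_le_one.trans (one_le_bt σ L w r)), inv_le_one_of_one_le₀ (one_le_bt σ L w r)⟩
  have hFC : ∀ q ∈ A, Free (fun i : Option (Fin a) => i.elim σ (fun i => w i))
      (fun j : Option (Fin a') => j.elim σ (fun j => w' j)) (col0Row a q.1, col0Row a' q.2) ∧
      Cst s (col0C a Δ w) (col0C a' Δ w') (col0T a Δ w) (col0T a' Δ w')
        (col0Row a q.1, col0Row a' q.2) := by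
    intro q hq
    obtain ⟨⟨hS, hS', he, -⟩, hd, hl, hl', hw, hw'⟩ := hA q hq
    obtain ⟨s1, s2⟩ := col0_side hS hl hw
    obtain ⟨s1', s2'⟩ := col0_side hS' hl' hw'
    refine ⟨⟨?_, s1, s1'⟩, fun i hi => (s2 i hi).1, fun j hj => (s2' j hj).1,
      fun i hi j hj hij => hd _ (s2 i hi).2 ?_⟩
    · simp only [col0_prod hl, col0_prod hl', he]
    · have : col0Row a q.1 i = col0Row a' q.2 j := hij
      rw [this]
      exact (s2' j hj).2
  constructor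
  · have := col0_core hC₁ hΔ hσ hs zero_le_one hA (by
      rw [one_mul]
      refine h₁ _ _ _ _ _ s _ _ _ hz hs (fun i hi => col0_mem.1 hi) (fun i hi => col0_mem.1 hi)
        fun q hq => ?_
      obtain ⟨q', hq', rfl⟩ := mem_image.1 hq
      exact hFC q' hq')
    rw [one_mul] at this
    exact this.trans (Real.exp_le_exp.2 (add_le_add le_rfl (Er_mono (by linarith) hΔ hσ hs L)))
  · intro Λ Y T hT hsΛ hσΛ hA'
    have hlT : 0 ≤ Real.log T := Real.log_nonneg hT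
    rcases A.eq_empty_or_nonempty with rfl | ⟨q₀, hq₀⟩
    · rw [sum_empty]; positivity
    obtain ⟨⟨hS₀, hS₀', -⟩, -, hl₀, hl₀', hw₀, hw₀'⟩ := hA q₀ hq₀
    obtain ⟨t1, t2, -, t4, -⟩ := hA' q₀ hq₀
    have ha : 0 < a := hl₀ ▸ lt_length_of_lv_pos (by linarith)
    have ha' : 0 < a' := hl₀' ▸ lt_length_of_lv_pos (by linarith)
    have b1 := col0_w_bounds hl₀ hw₀ 0
    have b2 := col0_w_bounds hl₀' hw₀' 0
    have b3 : lv q₀.1.1 0 ≤ s := (hS₀.2.2.1 _ (getD_mem (hl₀ ▸ ha))).2.2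
    have b4 : lv q₀.2.1 0 ≤ s := (hS₀'.2.2.1 _ (getD_mem (hl₀' ▸ ha'))).2.2
    have e1 : col0T a Δ w (some ⟨0, ha⟩) = w 0 - 2 * Δ - 2 := rfl
    have e2 : col0T a' Δ w' (some ⟨0, ha'⟩) = w' 0 - 2 * Δ - 2 := rfl
    have := col0_core hC₂ hΔ hσ hs (F := (Real.log T + 1) * Real.exp (col0T a Δ w (some ⟨0, ha⟩) +
      col0T a' Δ w' (some ⟨0, ha'⟩) - 3 * (Λ - 2 * Δ - 1))) (by positivity) hA (by
      refine h₂ _ _ _ _ _ s (Λ - 2 * Δ - 1) Y T _ _ (some ⟨0, ha⟩) (some ⟨0, ha'⟩) _ hz hs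
        (fun i hi => col0_mem.1 hi) (fun i hi => col0_mem.1 hi)
        (col0_mem.2 (by rw [e1]; linarith [b1.1])) (col0_mem.2 (by rw [e2]; linarith [b2.1]))
        (by linarith) hT ?_ fun q hq => ?_
      · rintro (_ | ⟨j, hj⟩) hne
        · change σ < _
          linarith
        · change w' j < _
          have hj1 : 1 ≤ j := by
            rcases Nat.eq_zero_or_pos j with rfl | h
            · exact absurd rfl hne
            · exact h
          have := (col0_w_bounds hl₀' hw₀' j).2.1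
          have := hS₀'.2.1.lv_anti hj1
          linarith
      · obtain ⟨q', hq', rfl⟩ := mem_image.1 hq
        obtain ⟨⟨hS, -⟩, -, hl, -⟩ := hA q' hq'
        obtain ⟨u1, -, -, -, u5, u6⟩ := hA' q' hq'
        obtain ⟨r, hr, hd, hr'⟩ := (hS.2.2.1 _ (getD_mem (hl ▸ ha))).2.1.big_prime
          (by change _ ≤ lv q'.1.1 0; linarith)
        refine ⟨(hFC q' hq').1, (hFC q' hq').2, ⟨r, hr, hd, ?_⟩, ?_, ?_⟩
        · change lv q'.1.1 0 - _ - _ ≤ _ at hr'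
          linarith
        · simp only [col0_prod hl]; exact u5
        · simp only [col0_prod hl]; exact u6)
    refine this.trans ?_
    rw [mul_assoc, mul_assoc, ← Real.exp_add, ← Real.exp_add, e1, e2]
    refine mul_le_mul_of_nonneg_left (Real.exp_le_exp.2 ?_) (by positivity)
    have c1 := Er_add (2 * C₂ + 2 * cM + 30) 5 Δ σ s L
    have c2 := Er_mono (C := 2 * C₂ + 2 * cM + 30 + 5) (C' := 2 * C₁ + 2 * C₂ + 2 * cM + 35)
      (by linarith) hΔ hσ hs L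
    have c3 : 2 * Δ + 5 ≤ Er 5 Δ σ s L := by
      unfold Er
      have hl : 0 ≤ Real.log (s + 2) := Real.log_nonneg (by linarith)
      have : (1 : ℝ) ≤ ((L : ℝ) + 1) ^ 2 := one_le_pow₀ (by linarith [Nat.cast_nonneg (α := ℝ) L])
      nlinarith [mul_le_mul_of_nonneg_right this (show 0 ≤ σ + Δ + Real.log (s + 2) + 1 by linarith)]
    linarith [b1.2.1, b2.2.1]

end Crest.Agent.R020
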