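import Crest.Agent.R026.Defs
import Crest.Prelude.Def_TotientScale

/-!
# Row 20 (asymptotics for the number of totient values): definitions

Everything happens on the scale `LL y = log log y`.  A typical totient value `v ≤ x` is
`φ(p₀ p₁ ⋯)` with `p₀ > p₁ > ⋯`, and `y₀ = B = log log x`, `y_j = LL p_j` satisfy Ford's
inequalities `∑_{j > i} a_{j-i} y_j ≤ y_i` up to small errors (`Con a0`).  The level `i` has depth
`d = m - i`, where `m` is within `3` of `phaseArg ρ x`.  With `ϱ = vr ρ = ρ^(-1/10)` the slack at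
depth `d` is of size `ϱ^(10 d)`, the inequalities are perturbed by `ϱ^(7 d)`, primes are
`ϱ^(6 d)`-normal and have `LL p ≤ ϱ^(11 d)`.  The levels of depth `< M = M' + J` form the *tail*;
the levels of depth `< M'` form the *deep part*.

* `upper`: `V(x) ≤ (x / log x) ((1 + ε) Main + ε Vol m B)`;
* `lower`: `V(x) ≥ (x / log x) ((1 - ε) Main - ε Vol k B)`;
* `lim_main`: `Main / Vol m B` is asymptotically a continuous function of `phaseArg - m`.
-/

set_option autoImplicit false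

namespace Crest.Agent.R020

open Finset Filter Crest.Agent.R008 Crest.Agent.R026 Crest.NumberTheoryR.TotientScale

/-- The iterated logarithm, cut off at zero. -/
noncomputable def LL (y : ℝ) : ℝ := max 0 (Real.log (Real.log y))

/-- The number of prime factors `r` of `n`, with multiplicity, with `LL r ≤ w`. -/
noncomputable def Nw (n : ℕ) (w : ℝ) : ℝ :=
  ∑ r ∈ n.primeFactors, ind (LL r ≤ w) * (n.factorization r : ℝ)

/-- The number of prime factors `r` of `n`, with multiplicity, with `σ < LL r ≤ w`. -/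
noncomputable def Nb (n : ℕ) (σ w : ℝ) : ℝ :=
  ∑ r ∈ n.primeFactors, ind (σ < LL r ∧ LL r ≤ w) * (n.factorization r : ℝ)

/-- The completely multiplicative function with the values `z r` at the primes. -/
noncomputable def cm (z : ℕ → ℝ) (n : ℕ) : ℝ := ∏ r ∈ n.primeFactors, z r ^ n.factorization r

/-- Smooth numbers on the `LL` scale. -/
def Sm (w : ℝ) (n : ℕ) : Prop := n ≠ 0 ∧ ∀ r : ℕ, r.Prime → r ∣ n → LL r ≤ w

open Classical in
/-- The primes with `LL r ≤ w`. -/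
noncomputable def PL (w : ℝ) : Finset ℕ :=
  (primesIoc 0 (Real.exp (Real.exp w))).filter (fun r => LL r ≤ w)

/-- `p - 1` has the expected number of prime factors at all scales. -/
def Normal (Δ : ℝ) (p : ℕ) : Prop := ∀ w : ℝ, 0 ≤ w → |Nw (p - 1) w - min w (LL p)| ≤ Δ

/-- Totient values of smooth numbers. -/
def Tot (s : ℝ) (v : ℕ) : Prop := ∃ n : ℕ, Sm s n ∧ Nat.totient n = v

/-- The logarithmic weight of the totient values of smooth numbers. -/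
noncomputable def W (s : ℝ) : ℝ := ∑' v : ℕ, ind (Tot s v) / (v : ℝ)

/-! ### Lists of primes and the simplex -/

/-- The `LL` of the `j`-th entry (`0` beyond the end). -/
noncomputable def lv (l : List ℕ) (j : ℕ) : ℝ := LL (l.getD j 1 : ℕ)

/-- The sequence `B, lv l 0, lv l 1, …`. -/
noncomputable def ys (B : ℝ) (l : List ℕ) : ℕ → ℝ
  | 0 => B
  | j + 1 => lv l j

/-- `∏ (p - 1)`. -/
def pm (l : List ℕ) : ℕ := (l.map (fun p => p - 1)).prod

/-- `∏ 1 / (p - 1)`. -/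
noncomputable def wt (l : List ℕ) : ℝ := 1 / (pm l : ℝ)

/-- All entries are prime. -/
def Pr (l : List ℕ) : Prop := ∀ p ∈ l, p.Prime

/-- Strictly decreasing. -/
def Dec (l : List ℕ) : Prop := l.Pairwise (· > ·)

/-- The triangular system of inequalities. -/
def Con (α : ℕ → ℕ → ℝ) (β : ℕ → ℝ) (B : ℝ) (l : List ℕ) : Prop :=
  ∀ i, i ≤ l.length → ∑ j ∈ Ioc i l.length, α i j * ys B l j + β i ≤ ys B l i

/-- Ford's coefficients. -/
noncomputable def a0 (i j : ℕ) : ℝ := aCoef (j - i)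

/-- The additional inequality at the level `j` (failure of the order `y_j < y_{j-1}`). -/
def Ext (j : ℕ) (βs B : ℝ) (l : List ℕ) : Prop :=
  ∑ i ∈ Ioc j l.length, aCoef (i - j + 1) * ys B l i + βs ≤ (1 - aCoef 1) * ys B l j

/-- `A` is a set of lists of `k` primes satisfying `Con α β B`. -/
def Fam (α : ℕ → ℕ → ℝ) (β : ℕ → ℝ) (B : ℝ) (k : ℕ) (A : Finset (List ℕ)) : Prop :=
  ∀ l ∈ A, l.length = k ∧ Pr l ∧ Con α β B l

/-- All lists of length `k` with entries in `P`. -/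
noncomputable def Lists (P : Finset ℕ) (k : ℕ) : Finset (List ℕ) :=
  (Fintype.piFinset (fun _ : Fin k => P)).image List.ofFn

open Classical in
/-- The full region. -/
noncomputable def Reg (β : ℕ → ℝ) (B : ℝ) (k : ℕ) : Finset (List ℕ) :=
  (Lists (PL (3 * B)) k).filter (Con a0 β B)

open Classical in
/-- `s₊^k / k!`, with the value `0` for `s < 0` also when `k = 0`. -/
noncomputable def Vp (k : ℕ) (s : ℝ) : ℝ := if 0 ≤ s then s ^ k / (k.factorial : ℝ) else 0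

/-- The volume of Ford's simplex. -/
noncomputable def Vol (k : ℕ) (s : ℝ) : ℝ := Vp k s / ∏ i ∈ range k, gSeq (i + 1)

/-! ### Scales -/

/-- `ρ` is the root of `∑ a_j ρ^j = 1`. -/
def Root (ρ : ℝ) : Prop :=
  0 < ρ ∧ ρ < 1 ∧ HasSum (fun j : ℕ => aCoef (j + 1) * ρ ^ (j + 1)) 1

/-- `ϱ = ρ^(-1/10)`. -/
noncomputable def vr (ρ : ℝ) : ℝ := ρ ^ (-(1 / 10 : ℝ))

/-- `m` is an admissible number of levels for `x`. -/
def Sc (ρ x : ℝ) (m : ℕ) : Prop := 0 ≤ phaseArg ρ x - m ∧ phaseArg ρ x - m ≤ 3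

/-- The filter of pairs `(x, m)` with `x → ∞` and `m` admissible. -/
def Fl (ρ : ℝ) : Filter (ℝ × ℕ) := comap Prod.fst atTop ⊓ Filter.principal {q | Sc ρ q.1 q.2}

/-- The relation between `B` and `m`. -/
def SB (ρ B : ℝ) (m : ℕ) : Prop :=
  lam ρ * (m * vr ρ ^ (10 * m)) ≤ B ∧ B ≤ 2 * lam ρ * vr ρ ^ 30 * (m * vr ρ ^ (10 * m))

/-- The perturbation `-ϱ^(7 (m - i))`. -/
noncomputable def be (ρ : ℝ) (m i : ℕ) : ℝ := -(vr ρ ^ (7 * (m - i)))

/-! ### Violations and collisions -/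

/-- The tilt: one plus the number of `j ∈ [1, L]` with `σ < LL r ≤ w j`. -/
noncomputable def bt (σ : ℝ) (L : ℕ) (w : ℕ → ℝ) (r : ℕ) : ℝ :=
  1 + ∑ j ∈ Icc 1 L, ind (σ < LL r ∧ LL r ≤ w j)

/-- The common error term of the violation and collision estimates. -/
noncomputable def Er (C Δ σ s : ℝ) (L : ℕ) : ℝ :=
  C * ((L : ℝ) + 1) ^ 2 * (σ + Δ + Real.log (s + 2) + 1)

/-- The weighted sum over pairs of factorisations. -/
noncomputable def Esum {ι κ : Type} [Fintype ι] (z : ℕ → ℝ)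
    (A : Finset ((ι → ℕ) × (κ → ℕ))) : ℝ :=
  ∑ q ∈ A, cm z (∏ i, q.1 i) / ((∏ i, q.1 i : ℕ) : ℝ)

/-- The bound for free factorisations. -/
noncomputable def FB {ι κ : Type} [Fintype ι] [Fintype κ] (z : ℕ → ℝ) (w : ι → ℝ) (w' : κ → ℝ) :
    ℝ := Real.exp (∑ i, ∑ j, (∑ r ∈ PL (min (w i) (w' j)), z r / r + 2))

/-- Two factorisations of the same number into smooth factors. -/
def Free {ι κ : Type} [Fintype ι] [Fintype κ] (w : ι → ℝ) (w' : κ → ℝ)
    (q : (ι → ℕ) × (κ → ℕ)) : Prop :=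
  ∏ i, q.1 i = ∏ j, q.2 j ∧ (∀ i, Sm (w i) (q.1 i)) ∧ ∀ j, Sm (w' j) (q.2 j)

/-- A shifted prime with a large prime factor. -/
def Shp (s t : ℝ) (a : ℕ) : Prop :=
  (a + 1).Prime ∧ LL a ≤ s ∧ ∃ r : ℕ, r.Prime ∧ r ∣ a ∧ t ≤ LL r

/-- The factors with indices in `CI`, `CJ` are shifted primes, and no such row equals such a
column. -/
def Cst {ι κ : Type} (s : ℝ) (CI : Finset ι) (CJ : Finset κ) (t : ι → ℝ) (t' : κ → ℝ)
    (q : (ι → ℕ) × (κ → ℕ)) : Prop :=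
  (∀ i ∈ CI, Shp s (t i) (q.1 i)) ∧ (∀ j ∈ CJ, Shp s (t' j) (q.2 j)) ∧
    ∀ i ∈ CI, ∀ j ∈ CJ, q.1 i ≠ q.2 j

/-- One side of a collision. -/
def Side (Δ σ s : ℝ) (L : ℕ) (u : List ℕ × ℕ) : Prop :=
  u.1.length ≤ L ∧ Dec u.1 ∧ (∀ p ∈ u.1, p.Prime ∧ Normal Δ p ∧ LL p ≤ s) ∧ Sm σ u.2

/-- A collision whose first side has slack `e`. -/
def Col (Δ σ s e : ℝ) (L : ℕ) (q : (List ℕ × ℕ) × (List ℕ × ℕ)) : Prop :=
  Side Δ σ s L q.1 ∧ Side Δ σ s L q.2 ∧ pm q.1.1 * q.1.2 = pm q.2.1 * q.2.2 ∧ q.1.1 ≠ [] ∧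
    q.1.1.getD 0 1 ∉ q.2.1 ∧
    ∑ j ∈ Icc 1 L, aCoef j * lv q.1.1 j + e ≤ lv q.1.1 0

/-- The additional structure of a collision at the top level. -/
def ColTop (Δ Λ Y T : ℝ) (q : (List ℕ × ℕ) × (List ℕ × ℕ)) : Prop :=
  Λ ≤ lv q.1.1 0 ∧ Λ ≤ lv q.2.1 0 ∧ lv q.1.1 1 ≤ Λ - 2 * Δ - 4 ∧ lv q.2.1 1 ≤ Λ - 2 * Δ - 4 ∧
    Y < ((pm q.1.1 * q.1.2 : ℕ) : ℝ) ∧ ((pm q.1.1 * q.1.2 : ℕ) : ℝ) ≤ Y * T

/-! ### Tails -/

/-- The data of a tail: primes, deep part and a profile. -/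
structure Tail where
  q : List ℕ
  n : ℕ
  lam : ℕ → ℝ

/-- The totient value of a tail. -/
def Tail.val (t : Tail) : ℕ := pm t.q * Nat.totient t.n

/-- The contribution of the tail to the inequality at the level `i ≤ k`. -/
noncomputable def Tail.beta (t : Tail) (J k i : ℕ) : ℝ :=
  ∑ j ∈ range J, aCoef (k - i + j + 1) * t.lam j

/-- Admissible tails. -/
structure Tail.OK (ρ : ℝ) (J M' : ℕ) (K : ℝ) (t : Tail) : Prop where
  len : t.q.length ≤ J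
  dec : Dec t.q
  nor : ∀ p ∈ t.q, p.Prime ∧ Normal (vr ρ ^ (6 * (M' + J))) p ∧ LL p ≤ vr ρ ^ (11 * (M' + J))
  deep : Sm (vr ρ ^ (11 * M')) t.n
  cop : ∀ p ∈ t.q, ¬ p ∣ t.n
  dom : ∀ j, lv t.q j ≤ t.lam j
  ord : ∀ p : ℕ, p.Prime → (p ∈ t.q ∨ p ∣ t.n) → LL p ≤ t.beta J 0 0
  big : K * vr ρ ^ (10 * (M' + J)) ≤ t.beta J 0 0

/-- A family of admissible tails with distinct values. -/
def Tails (ρ : ℝ) (J M' : ℕ) (K : ℝ) (𝒯 : Finset Tail) : Prop :=
  (∀ t ∈ 𝒯, t.OK ρ J M' K) ∧ Set.InjOn Tail.val (𝒯 : Set Tail)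

/-- The loss of budget caused by a tail. -/
noncomputable def Tail.H (t : Tail) (J k : ℕ) : ℝ := ∑ i ∈ range (k + 1), gSeq i * t.beta J k i

/-- The main term. -/
noncomputable def Main (𝒯 : Finset Tail) (J k : ℕ) (B : ℝ) : ℝ :=
  ∑ t ∈ 𝒯, Vol k (B - t.H J k) / (t.val : ℝ)

open Classical in
/-- The good lists above a tail in the lower bound (`k = m - (M' + J)` levels). -/
noncomputable def Gd (ρ B : ℝ) (m J k : ℕ) (t : Tail) : Finset (List ℕ) :=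
  (Reg (fun i => t.beta J k i - be ρ m i) B k).filter (fun l => Dec l ∧
    lv l 0 ≤ B - vr ρ ^ (8 * m) ∧ ∀ j, j < k → lv l j ≤ vr ρ ^ (11 * (m - (j + 1))) ∧
      Normal (vr ρ ^ (6 * (m - (j + 1)))) (l.getD j 1))

open Classical in
/-- The admissible top primes above the cofactor `r`. -/
noncomputable def P0 (Δ x : ℝ) (r : ℕ) : Finset ℕ :=
  (primesIoc 0 (x + 1)).filter (fun p => x / Real.log x ^ 2 < (((p - 1) * r : ℕ) : ℝ) ∧
    (((p - 1) * r : ℕ) : ℝ) ≤ x ∧ Normal Δ p)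

/-- The type of tuples `(t, l, p₀)`. -/
abbrev Tpl : Type := Σ _ : (Σ _ : Tail, List ℕ), ℕ

/-- All tuples `(t, l, p₀)` of the lower bound. -/
noncomputable def Tup (ρ x : ℝ) (m J k : ℕ) (𝒯 : Finset Tail) : Finset Tpl :=
  (𝒯.sigma (fun t => Gd ρ (bigB x) m J k t)).sigma
    (fun u => P0 (vr ρ ^ (6 * m)) x (pm u.2 * u.1.val))

/-- The totient value of a tuple. -/
def tv (τ : Tpl) : ℕ := (τ.2 - 1) * (pm τ.1.2 * τ.1.1.val)

/-- The list `p₀, p₁, …, p_k` of a tuple. -/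
def fl (τ : Tpl) : List ℕ := τ.2 :: τ.1.2

/-- The part of a tuple from the level `i` on, as one side of a collision. -/
def sd (τ : Tpl) (i : ℕ) : List ℕ × ℕ := ((fl τ).drop i ++ τ.1.1.q, Nat.totient τ.1.1.n)

open Classical in
/-- The pairs of tuples with the same value which first differ at the level `i`. -/
noncomputable def CP (ρ x : ℝ) (m J k : ℕ) (𝒯 : Finset Tail) (i : ℕ) : Finset (Tpl × Tpl) :=
  (Tup ρ x m J k 𝒯 ×ˢ Tup ρ x m J k 𝒯).filter (fun e => tv e.1 = tv e.2 ∧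
    (fl e.1).take i = (fl e.2).take i ∧ (fl e.2).getD i 1 < (fl e.1).getD i 1)

/-! ### Preimages -/

/-- The prime factors in decreasing order. -/
def pl (n : ℕ) : List ℕ := n.primeFactorsList.reverse

/-- `n` without its `j` largest prime factors. -/
def nd (n j : ℕ) : ℕ := ((pl n).drop j).prod

/-- The conditions at the top level. -/
structure TopC (ρ x : ℝ) (m k' n : ℕ) : Prop where
  prime : ((pl n).getD 0 1).Prime
  gt : (pl n).getD 1 1 < (pl n).getD 0 1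
  rest : (Nat.totient (nd n 1) : ℝ) ≤ x ^ (3 / 4 : ℝ)
  ineq : ∑ j ∈ Ioc 0 k', aCoef j * lv (pl n) j + be ρ m 0 ≤ bigB x

/-- The conditions at the level `i ≥ 1`. -/
structure Lvl (ρ : ℝ) (m k' n i : ℕ) : Prop where
  up : lv (pl n) i ≤ vr ρ ^ (11 * (m - i))
  lo : ((m - i : ℕ) : ℝ) ≤ lv (pl n) i
  sqf : ∀ p : ℕ, p.Prime → ((m - i : ℕ) : ℝ) ≤ LL p → ¬ p ^ 2 ∣ nd n i
  nor : ∀ j, i ≤ j → j ≤ k' → Normal (vr ρ ^ (6 * (m - i))) ((pl n).getD j 1)
  ineq : ∑ j ∈ Ioc i k', aCoef (j - i) * lv (pl n) j + be ρ m i ≤ lv (pl n) i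

/-- The values `v ≤ x` of `φ` having a preimage with the property `Q`. -/
def Vals (x : ℝ) (Q : ℕ → Prop) (A : Finset ℕ) : Prop :=
  ∀ v ∈ A, (v : ℝ) ≤ x ∧ ∃ n : ℕ, 0 < n ∧ Nat.totient n = v ∧ Q n

/-- The primes `p₁, …, p_{i-1}`. -/
def mid (n i : ℕ) : List ℕ := ((pl n).drop 1).take (i - 1)

/-- All levels below `i` are good. -/
def Pre (ρ x : ℝ) (m k' i n : ℕ) : Prop :=
  TopC ρ x m k' n ∧ ∀ j, 1 ≤ j → j < i → Lvl ρ m k' n j

/-- `S` consists of pairs `(p₁ … p_{i-1}, φ(p_i p_{i+1} ⋯))` coming from `n` with `Q n`. -/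
def Cut (Q : ℕ → Prop) (i : ℕ) (S : Finset (List ℕ × ℕ)) : Prop :=
  ∀ u ∈ S, ∃ n : ℕ, 0 < n ∧ Q n ∧ u = (mid n i, Nat.totient (nd n i))

/-- The weight of a set of pairs. -/
noncomputable def ws (S : Finset (List ℕ × ℕ)) : ℝ := ∑ u ∈ S, wt u.1 / (u.2 : ℝ)

/-- The true tail of `n`. -/
noncomputable def tt (n k J : ℕ) : Tail :=
  ⟨((pl n).drop (k + 1)).take J, nd n (k + J + 1), lv (((pl n).drop (k + 1)).take J)⟩

/-- The conditions on the tail in the upper bound. -/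
structure Fine (ρ x K K₁ : ℝ) (m k J n : ℕ) : Prop where
  deep : (Nat.totient (nd n (k + J + 1)) : ℝ) ≤ K₁
  ord : lv (pl n) (k + 1) ≤ ∑ j ∈ range J, aCoef (j + 1) * lv (pl n) (k + 1 + j)
  big : K * vr ρ ^ (10 * (m - k)) ≤ lv (pl n) (k + 1)
  top : lv (pl n) 1 ≤ bigB x - vr ρ ^ (8 * m)

open Classical in
/-- The totient values up to `x`. -/
noncomputable def VS (x : ℝ) : Finset ℕ :=
  (range (⌊x⌋₊ + 1)).filter (fun v => ∃ n : ℕ, 0 < n ∧ Nat.totient n = v)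

theorem mem_VS {x : ℝ} (hx : 0 ≤ x) {v : ℕ} :
    v ∈ VS x ↔ (v : ℝ) ≤ x ∧ ∃ n : ℕ, 0 < n ∧ Nat.totient n = v := by
  classical
  unfold VS
  rw [mem_filter, mem_range, Nat.lt_succ_iff, Nat.le_floor_iff hx]

theorem count_eq {x : ℝ} (hx : 0 ≤ x) : totientCount x = (VS x).card := by
  unfold totientCount
  rw [← Set.ncard_coe_finset]
  congr 1
  ext v
  simp only [Set.mem_ofPred_eq, mem_coe, mem_VS hx]

theorem ev_Fl {ρ : ℝ} {P : ℝ × ℕ → Prop} :
    (∀ᶠ q in Fl ρ, P q) ↔ ∀ᶠ x : ℝ in atTop, ∀ m : ℕ, Sc ρ x m → P (x, m) := by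
  unfold Fl
  rw [eventually_inf_principal, eventually_comap]
  refine ⟨fun h => h.mono fun x hx m hm => hx (x, m) rfl hm,
    fun h => h.mono fun x hx q hq hm => ?_⟩
  obtain ⟨y, m⟩ := q
  obtain rfl : y = x := hq
  exact hx m hm

theorem tendsto_fst_Fl (ρ : ℝ) : Tendsto Prod.fst (Fl ρ) atTop :=
  tendsto_comap.mono_left inf_le_left

theorem ev_Sc (ρ : ℝ) : ∀ᶠ q in Fl ρ, Sc ρ q.1 q.2 := ev_Fl.2 (.of_forall fun _ _ h => h)

end Crest.Agent.R020
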