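import Crest.Agent.R020.Eul

set_option autoImplicit false

namespace Crest.Agent.R020

open Finset Filter Topology Crest.Agent.R008 Crest.Agent.R026 Crest.NumberTheoryR.TotientScale

theorem es1_split {κ : Type} (b : κ → ℕ) (t : Finset κ) : ∀ x : ℕ, x ∣ ∏ j ∈ t, b j →
    ∃ c : κ → ℕ, (∀ j, c j ∣ b j) ∧ ∏ j ∈ t, c j = x := by
  classical
  induction t using Finset.induction_on with
  | empty => exact fun x hx => ⟨fun _ => 1, fun _ => one_dvd _, (Nat.dvd_one.1 hx).symm⟩
  | insert j t hj ih =>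
    intro x hx
    rw [prod_insert hj] at hx
    obtain ⟨x₁, x₂, h1, h2, rfl⟩ := exists_dvd_and_dvd_of_dvd_mul hx
    obtain ⟨c, hc, rfl⟩ := ih x₂ h2
    refine ⟨Function.update c j x₁, fun k => ?_, ?_⟩
    · by_cases hk : k = j
      · rw [hk, Function.update_self]; exact h1
      · rw [Function.update_of_ne hk]; exact hc k
    · rw [prod_insert hj, Function.update_self, prod_update_of_notMem hj]

theorem es1_mat {ι κ : Type} [Fintype κ] (a : ι → ℕ) (ha : ∀ i, a i ≠ 0) (s : Finset ι) :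
    ∀ b : κ → ℕ, ∏ i ∈ s, a i = ∏ j, b j →
      ∃ n : ι → κ → ℕ, (∀ i ∈ s, ∏ j, n i j = a i) ∧ ∀ j, ∏ i ∈ s, n i j = b j := by
  classical
  induction s using Finset.induction_on with
  | empty =>
    intro b h
    refine ⟨fun _ _ => 1, fun i hi => absurd hi (notMem_empty i), fun j => ?_⟩
    have := dvd_prod_of_mem b (mem_univ j)
    rw [← h] at this
    exact (Nat.dvd_one.1 this).symm
  | insert i s hi ih =>
    intro b h
    rw [prod_insert hi] at h
    obtain ⟨c, hc, hc'⟩ := es1_split b univ (a i) ⟨_, h.symm⟩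
    choose d hd using hc
    obtain ⟨n, h1, h2⟩ := ih d (mul_left_cancel₀ (ha i) (by
      rw [h, ← hc', ← prod_mul_distrib]
      exact prod_congr rfl fun j _ => hd j))
    refine ⟨Function.update n i c, fun k hk => ?_, fun j => ?_⟩
    · by_cases hki : k = i
      · rw [hki, Function.update_self, hc']
      · rw [Function.update_of_ne hki]
        exact h1 k ((mem_insert.1 hk).resolve_left hki)
    · rw [prod_insert hi, Function.update_self, hd j, ← h2 j]
      congr 1
      exact prod_congr rfl fun k hk => by rw [Function.update_of_ne (ne_of_mem_of_not_mem hk hi)]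

/-- Refinement of two factorisations (`DecompositionMonoid`, `exists_dvd_and_dvd_of_dvd_mul`,
`Finset.exists_dvd_and_eq_prod`-type lemmas; or induction on the rows using `gcd`). -/
theorem exists_matrix {ι κ : Type} [Fintype ι] [Fintype κ] (a : ι → ℕ) (b : κ → ℕ)
    (ha : ∀ i, a i ≠ 0) (h : ∏ i, a i = ∏ j, b j) :
    ∃ n : ι → κ → ℕ, (∀ i, ∏ j, n i j = a i) ∧ ∀ j, ∏ i, n i j = b j := by
  obtain ⟨n, h1, h2⟩ := es1_mat a ha univ b h
  exact ⟨n, fun i => h1 i (mem_univ i), h2⟩

/-- Choose a matrix for each pair (injective, as rows and columns are recovered); its entry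
`n i j` divides `a i` and `b j`, so it is `min (w i) (w' j)`-smooth.  The sum is at most
`∏_{i,j} ∑_{n ∈ A i j} cm z n / n` (`Finset.prod_univ_sum`), then `E1'`. -/
theorem Es1 {ι κ : Type} [Fintype ι] [Fintype κ] (z : ℕ → ℝ) (hz : ∀ r, 0 ≤ z r ∧ z r ≤ 1)
    (w : ι → ℝ) (w' : κ → ℝ) (A : Finset ((ι → ℕ) × (κ → ℕ))) (hA : ∀ q ∈ A, Free w w' q) :
    Esum z A ≤ FB z w w' := by
  classical
  have hex : ∀ q ∈ A, ∃ n : ι × κ → ℕ, (∀ i, ∏ j, n (i, j) = q.1 i) ∧
      ∀ j, ∏ i, n (i, j) = q.2 j := fun q hq => by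
    obtain ⟨n, h⟩ := exists_matrix q.1 q.2 (fun i => ((hA q hq).2.1 i).1) (hA q hq).1
    exact ⟨fun p => n p.1 p.2, h⟩
  choose! N h1 h2 using hex
  have hsm : ∀ q ∈ A, ∀ p : ι × κ, Sm (min (w p.1) (w' p.2)) (N q p) := fun q hq p => by
    have k1 : Sm (w p.1) (N q p) := ((hA q hq).2.1 p.1).of_dvd
      (h1 q hq p.1 ▸ dvd_prod_of_mem (fun j => N q (p.1, j)) (mem_univ p.2))
    have k2 : Sm (w' p.2) (N q p) := ((hA q hq).2.2 p.2).of_dvd
      (h2 q hq p.2 ▸ dvd_prod_of_mem (fun i => N q (i, p.2)) (mem_univ p.1))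
    exact ⟨k1.1, fun r hr hd => le_min (k1.2 r hr hd) (k2.2 r hr hd)⟩
  have hinj : Set.InjOn N A := fun q hq q' hq' e =>
    Prod.ext (funext fun i => by rw [← h1 q hq, ← h1 q' hq', e])
      (funext fun j => by rw [← h2 q hq, ← h2 q' hq', e])
  have h0 : ∀ n : ℕ, 0 ≤ cm z n / n := fun n =>
    div_nonneg (cm_nonneg (fun r _ => (hz r).1) n) (Nat.cast_nonneg n)
  calc Esum z A = ∑ q ∈ A, ∏ p, cm z (N q p) / N q p := by
        refine sum_congr rfl fun q hq => ?_
        have e : ∏ i, q.1 i = ∏ p, N q p := by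
          rw [Fintype.prod_prod_type]
          exact prod_congr rfl fun i _ => (h1 q hq i).symm
        rw [e, cm_prod z _ _ fun p _ => (hsm q hq p).1, Nat.cast_prod, prod_div_distrib]
    _ = ∑ n ∈ A.image N, ∏ p, cm z (n p) / n p :=
        (sum_image (f := fun n : ι × κ → ℕ => ∏ p, cm z (n p) / n p) hinj).symm
    _ ≤ ∑ n ∈ Fintype.piFinset fun p => A.image fun q => N q p, ∏ p, cm z (n p) / n p := by
        refine sum_le_sum_of_subset_of_nonneg (fun n hn => ?_)
          fun n _ _ => prod_nonneg fun p _ => h0 _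
        obtain ⟨q, hq, rfl⟩ := mem_image.1 hn
        exact Fintype.mem_piFinset.2 fun p => mem_image_of_mem _ hq
    _ = ∏ p : ι × κ, ∑ n ∈ A.image fun q => N q p, cm z n / n :=
        (prod_univ_sum _ fun _ (n : ℕ) => cm z n / n).symm
    _ ≤ ∏ p : ι × κ, Real.exp (∑ r ∈ PL (min (w p.1) (w' p.2)), z r / r + 2) := by
        refine prod_le_prod (fun p _ => sum_nonneg fun n _ => h0 n) fun p _ => E1' z hz _ _ ?_
        intro n hn
        obtain ⟨q, hq, rfl⟩ := mem_image.1 hn
        exact hsm q hq p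
    _ = FB z w w' := by rw [FB, ← Real.exp_sum, Fintype.sum_prod_type]

end Crest.Agent.R020
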