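import Crest.Agent.R020.Sv
import Crest.Agent.R020.Bas2

set_option autoImplicit false

namespace Crest.Agent.R020

open Finset Filter Topology Crest.Agent.R008 Crest.Agent.R026 Crest.NumberTheoryR.TotientScale

theorem svl_nonneg {i : ℕ} {D : ℝ} {P : ℕ → Prop}
    (h : ∀ (y : ℝ) (A : Finset ℕ), 2 ≤ y → (∀ r ∈ A, P r ∧ (r : ℝ) ≤ y) →
      (A.card : ℝ) ≤ D * (y / Real.log y ^ i)) : 0 ≤ D := by
  have h1 := h 2 ∅ le_rfl (by simp)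
  have h2 : 0 < (2 : ℝ) / Real.log 2 ^ i := div_pos two_pos (pow_pos (Real.log_pos one_lt_two) _)
  rw [card_empty, Nat.cast_zero] at h1
  exact nonneg_of_mul_nonneg_left h1 h2

theorem svl_sum {i : ℕ} {D : ℝ} {P : ℕ → Prop}
    (h : ∀ (y : ℝ) (A : Finset ℕ), 2 ≤ y → (∀ r ∈ A, P r ∧ (r : ℝ) ≤ y) →
      (A.card : ℝ) ≤ D * (y / Real.log y ^ i)) (A S : Finset ℕ) (hS : ∀ m ∈ S, 1 ≤ m)
    (hA : ∀ r ∈ A, P r ∧ 1 ≤ r ∧ ⌊Real.log r⌋₊ + 1 ∈ S) :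
    ∑ r ∈ A, 1 / (r : ℝ) ≤ ∑ m ∈ S, 3 * D / (m : ℝ) ^ i := by
  have hD := svl_nonneg h
  rw [← sum_fiberwise_of_maps_to (g := fun r : ℕ => ⌊Real.log r⌋₊ + 1) fun r hr => (hA r hr).2.2]
  refine sum_le_sum fun m hm => ?_
  have hm1 : (1 : ℝ) ≤ m := by exact_mod_cast hS m hm
  have key : ∀ r ∈ A.filter (fun r : ℕ => ⌊Real.log r⌋₊ + 1 = m),
      P r ∧ (r : ℝ) ≤ Real.exp m ∧ Real.exp (m - 1) ≤ r := fun r hr => by
    obtain ⟨hr, e⟩ := mem_filter.1 hr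
    have h1 : (1 : ℝ) ≤ r := by exact_mod_cast (hA r hr).2.1
    have h2 : ((⌊Real.log r⌋₊ : ℕ) : ℝ) + 1 = m := by exact_mod_cast e
    refine ⟨(hA r hr).1, ?_, ?_⟩
    · rw [← Real.log_le_iff_le_exp (by linarith), ← h2]
      exact (Nat.lt_floor_add_one _).le
    · rw [← Real.le_log_iff_exp_le (by linarith), ← h2, add_sub_cancel_right]
      exact Nat.floor_le (Real.log_nonneg h1)
  have h3 := h (Real.exp m) _ (by linarith [Real.add_one_le_exp (m : ℝ)])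
    fun r hr => ⟨(key r hr).1, (key r hr).2.1⟩
  rw [Real.log_exp] at h3
  have h4 : Real.exp m = Real.exp 1 * Real.exp (m - 1) := by rw [← Real.exp_add]; ring_nf
  have h5 := Real.exp_pos ((m : ℝ) - 1)
  calc ∑ r ∈ A.filter (fun r : ℕ => ⌊Real.log r⌋₊ + 1 = m), 1 / (r : ℝ)
      ≤ (A.filter (fun r : ℕ => ⌊Real.log r⌋₊ + 1 = m)).card • (1 / Real.exp (m - 1)) :=
        sum_le_card_nsmul _ _ _ fun r hr => one_div_le_one_div_of_le h5 (key r hr).2.2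
    _ ≤ D * (Real.exp m / (m : ℝ) ^ i) * (1 / Real.exp (m - 1)) := by
        rw [nsmul_eq_mul]
        exact mul_le_mul_of_nonneg_right h3 (by positivity)
    _ = Real.exp 1 * D / (m : ℝ) ^ i := by rw [h4]; field_simp
    _ ≤ _ := by
        gcongr
        exact Real.exp_one_lt_d9.le.trans (by norm_num)

theorem svl_low {t : ℝ} (ht : 1 ≤ t) {r : ℕ} (h : t ≤ LL r) :
    1 ≤ r ∧ Real.exp t < ((⌊Real.log r⌋₊ + 1 : ℕ) : ℝ) := by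
  have h1 : 1 ≤ r := by
    by_contra h0
    obtain rfl : r = 0 := by omega
    rw [Nat.cast_zero, LL_zero] at h
    linarith
  have h2 : (1 : ℝ) ≤ r := by exact_mod_cast h1
  refine ⟨h1, ?_⟩
  have h3 := exp_le_of_LL h2 (by linarith) h
  rw [← Real.le_log_iff_exp_le (by linarith)] at h3
  push_cast
  exact h3.trans_lt (Nat.lt_floor_add_one _)

/-- From counting bounds to logarithmic sums: blocks `n = ⌊log r⌋₊ ≥ exp t - 1 ≥ exp t / 2`;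
a block contributes at most `D e / (n + 1) ^ (i + 2)`, and
`∑_{n + 1 > X} 1 / (n + 1) ^ (i + 2) ≤ X^(-i) ∑ 1 / (n + 1)² ≤ 2 X ^ (-(i + 1))`. -/
theorem log_tail (i : ℕ) {D t : ℝ} (ht : 1 ≤ t) (P : ℕ → Prop)
    (h : ∀ (y : ℝ) (A : Finset ℕ), 2 ≤ y → (∀ r ∈ A, P r ∧ (r : ℝ) ≤ y) →
      (A.card : ℝ) ≤ D * (y / Real.log y ^ (i + 2)))
    (A : Finset ℕ) (hA : ∀ r ∈ A, P r ∧ t ≤ LL r) :
    ∑ r ∈ A, 1 / (r : ℝ) ≤ 6 * D * Real.exp (-(((i : ℝ) + 1) * t)) := by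
  have hD := svl_nonneg h
  have hX := Real.exp_pos t
  set N := A.sup (fun r : ℕ => ⌊Real.log r⌋₊ + 1) + 1
  refine (svl_sum h A (Ioo ⌊Real.exp t⌋₊ N) (fun m hm => by have := (mem_Ioo.1 hm).1; omega)
    fun r hr => ⟨(hA r hr).1, (svl_low ht (hA r hr).2).1, mem_Ioo.2
      ⟨(Nat.floor_lt hX.le).2 (svl_low ht (hA r hr).2).2,
        Nat.lt_succ_of_le (le_sup (f := fun r : ℕ => ⌊Real.log r⌋₊ + 1) hr)⟩⟩).trans ?_
  have h1 : ∀ m ∈ Ioo ⌊Real.exp t⌋₊ N,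
      3 * D / (m : ℝ) ^ (i + 2) ≤ 3 * D / Real.exp t ^ i * ((m : ℝ) ^ 2)⁻¹ := fun m hm => by
    have h2 : Real.exp t < m := (Nat.floor_lt hX.le).1 (mem_Ioo.1 hm).1
    have h3 : (0 : ℝ) < m := hX.trans h2
    rw [pow_add, ← div_div, div_eq_mul_inv _ ((m : ℝ) ^ 2)]
    gcongr
  refine (sum_le_sum h1).trans ?_
  rw [← mul_sum]
  have h4 : ∑ m ∈ Ioo ⌊Real.exp t⌋₊ N, ((m : ℝ) ^ 2)⁻¹ ≤ 2 / Real.exp t :=
    (sum_Ioo_inv_sq_le _ _).trans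
      (div_le_div_of_nonneg_left zero_le_two hX (Nat.lt_floor_add_one _).le)
  refine (mul_le_mul_of_nonneg_left h4 (by positivity)).trans (le_of_eq ?_)
  rw [Real.exp_neg, add_mul, one_mul, Real.exp_add, Real.exp_nat_mul]
  field_simp
  ring

/-- In a window `(Y, Y T]` there are at most `log T + 2` blocks. -/
theorem log_window (i : ℕ) {D t Y T : ℝ} (ht : 1 ≤ t) (hT : 1 ≤ T) (P : ℕ → Prop)
    (h : ∀ (y : ℝ) (A : Finset ℕ), 2 ≤ y → (∀ r ∈ A, P r ∧ (r : ℝ) ≤ y) →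
      (A.card : ℝ) ≤ D * (y / Real.log y ^ i))
    (A : Finset ℕ) (hA : ∀ r ∈ A, P r ∧ t ≤ LL r ∧ Y < r ∧ (r : ℝ) ≤ Y * T) :
    ∑ r ∈ A, 1 / (r : ℝ) ≤ 6 * D * (Real.log T + 1) * Real.exp (-((i : ℝ) * t)) := by
  have hD := svl_nonneg h
  have hX := Real.exp_pos t
  have hlT := Real.log_nonneg hT
  set S := (Icc (⌊Real.log Y⌋₊ + 1) (⌊Real.log Y + Real.log T⌋₊ + 1)).filter
    (fun m : ℕ => Real.exp t < m)
  refine (svl_sum h A S (fun m hm => by have := (mem_Icc.1 (mem_filter.1 hm).1).1; omega)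
    fun r hr => ?_).trans ?_
  · obtain ⟨h1, h2, h3, h4⟩ := hA r hr
    obtain ⟨h5, h6⟩ := svl_low ht h2
    have h7 : (1 : ℝ) ≤ r := by exact_mod_cast h5
    have hY : 0 < Y := (pos_iff_pos_of_mul_pos (by linarith : 0 < Y * T)).2 (by linarith)
    refine ⟨h1, h5, mem_filter.2 ⟨mem_Icc.2 ⟨Nat.succ_le_succ (Nat.floor_le_floor
      (Real.log_le_log hY h3.le)), Nat.succ_le_succ (Nat.floor_le_floor ?_)⟩, h6⟩⟩
    rw [← Real.log_mul hY.ne' (by linarith)]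
    exact Real.log_le_log (by linarith) h4
  have h1 : ∀ m ∈ S, 3 * D / (m : ℝ) ^ i ≤ 3 * D / Real.exp t ^ i := fun m hm => by
    have h2 : Real.exp t < m := (mem_filter.1 hm).2
    gcongr
  refine (sum_le_card_nsmul _ _ _ h1).trans ?_
  have h2 : (S.card : ℝ) ≤ 2 * (Real.log T + 1) := by
    have h3 : S.card ≤ ⌊Real.log Y + Real.log T⌋₊ + 1 - ⌊Real.log Y⌋₊ :=
      (card_filter_le _ _).trans (by rw [Nat.card_Icc]; omega)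
    have h4 : ⌊Real.log Y⌋₊ ≤ ⌊Real.log Y + Real.log T⌋₊ := Nat.floor_le_floor (by linarith)
    have h5 : ((⌊Real.log Y + Real.log T⌋₊ : ℕ) : ℝ) ≤ ⌊Real.log Y⌋₊ + 1 + Real.log T := by
      rcases le_total 0 (Real.log Y + Real.log T) with h6 | h6
      · linarith [Nat.floor_le h6, Nat.lt_floor_add_one (Real.log Y)]
      · rw [Nat.floor_of_nonpos h6, Nat.cast_zero]
        positivity
    have h6 : (S.card : ℝ) ≤ ((⌊Real.log Y + Real.log T⌋₊ + 1 - ⌊Real.log Y⌋₊ : ℕ) : ℝ) := by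
      exact_mod_cast h3
    rw [Nat.cast_sub (by omega)] at h6
    push_cast at h6
    linarith
  rw [nsmul_eq_mul]
  refine (mul_le_mul_of_nonneg_right h2 (by positivity)).trans (le_of_eq ?_)
  rw [Real.exp_neg, Real.exp_nat_mul]
  field_simp
  ring

theorem SL2 : ∃ C : ℝ, 1 ≤ C ∧ ∀ (a : ℕ) (t : ℝ) (A : Finset ℕ), 1 ≤ a → 1 ≤ t →
    (∀ r ∈ A, r.Prime ∧ t ≤ LL r ∧ (a * r + 1).Prime) →
    ∑ r ∈ A, 1 / (r : ℝ) ≤ C * (LL a + 1) * Real.exp (-t) := by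
  obtain ⟨C, hC, h⟩ := SV2
  refine ⟨6 * C, by linarith, fun a t A ha ht hA => ?_⟩
  have := log_tail 0 (D := C * (LL a + 1)) ht (fun r => r.Prime ∧ (a * r + 1).Prime)
    (fun y A hy hA => h a y A ha hy fun r hr => ⟨(hA r hr).1.1, (hA r hr).2, (hA r hr).1.2⟩) A
    fun r hr => ⟨⟨(hA r hr).1, (hA r hr).2.2⟩, (hA r hr).2.1⟩
  refine this.trans (le_of_eq ?_)
  rw [Nat.cast_zero, zero_add, one_mul]
  ring

theorem SL3 : ∃ C : ℝ, 1 ≤ C ∧ ∀ (a b : ℕ) (t : ℝ) (A : Finset ℕ), 1 ≤ a → 1 ≤ b → a ≠ b → 1 ≤ t →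
    (∀ r ∈ A, r.Prime ∧ t ≤ LL r ∧ (a * r + 1).Prime ∧ (b * r + 1).Prime) →
    ∑ r ∈ A, 1 / (r : ℝ) ≤ C * (LL a + LL b + 1) ^ 2 * Real.exp (-(2 * t)) := by
  obtain ⟨C, hC, h⟩ := SV3
  refine ⟨6 * C, by linarith, fun a b t A ha hb hab ht hA => ?_⟩
  have := log_tail 1 (D := C * (LL a + LL b + 1) ^ 2) ht
    (fun r => r.Prime ∧ (a * r + 1).Prime ∧ (b * r + 1).Prime)
    (fun y A hy hA => h a b y A ha hb hab hy fun r hr =>
      ⟨(hA r hr).1.1, (hA r hr).2, (hA r hr).1.2⟩) A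
    fun r hr => ⟨⟨(hA r hr).1, (hA r hr).2.2⟩, (hA r hr).2.1⟩
  refine this.trans (le_of_eq ?_)
  rw [Nat.cast_one, one_add_one_eq_two]
  ring

theorem SL3' : ∃ C : ℝ, 1 ≤ C ∧ ∀ (a b : ℕ) (t Y T : ℝ) (A : Finset ℕ), 1 ≤ a → 1 ≤ b → a ≠ b →
    1 ≤ t → 1 ≤ T → (∀ r ∈ A, r.Prime ∧ t ≤ LL r ∧ (a * r + 1).Prime ∧ (b * r + 1).Prime ∧
      Y < r ∧ (r : ℝ) ≤ Y * T) →
    ∑ r ∈ A, 1 / (r : ℝ) ≤
      C * (LL a + LL b + 1) ^ 2 * (Real.log T + 1) * Real.exp (-(3 * t)) := by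
  obtain ⟨C, hC, h⟩ := SV3
  refine ⟨6 * C, by linarith, fun a b t Y T A ha hb hab ht hT hA => ?_⟩
  have := log_window 3 (D := C * (LL a + LL b + 1) ^ 2) (Y := Y) ht hT
    (fun r => r.Prime ∧ (a * r + 1).Prime ∧ (b * r + 1).Prime)
    (fun y A hy hA => h a b y A ha hb hab hy fun r hr =>
      ⟨(hA r hr).1.1, (hA r hr).2, (hA r hr).1.2⟩) A
    fun r hr => ⟨⟨(hA r hr).1, (hA r hr).2.2.1, (hA r hr).2.2.2.1⟩, (hA r hr).2.1,
      (hA r hr).2.2.2.2⟩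
  refine this.trans (le_of_eq ?_)
  rw [Nat.cast_ofNat]
  ring

end Crest.Agent.R020
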