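import Crest.Agent.R020.Es1
import Crest.Agent.R020.SvL

set_option autoImplicit false

namespace Crest.Agent.R020

open Finset Filter Topology Crest.Agent.R008 Crest.Agent.R026 Crest.NumberTheoryR.TotientScale

theorem es2_prod {ι : Type} [Fintype ι] [DecidableEq ι] (f : ι → ℕ) (i : ι) {r : ℕ}
    (h : r ∣ f i) : ∏ i', f i' = r * ∏ i', Function.update f i (f i / r) i' := by
  rw [prod_update_of_mem (mem_univ i), ← mul_assoc, Nat.mul_div_cancel' h,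
    ← mul_prod_erase _ _ (mem_univ i), sdiff_singleton_eq_erase]

theorem es2_upd {ι κ : Type} [Fintype ι] [Fintype κ] [DecidableEq ι] [DecidableEq κ]
    {w t : ι → ℝ} {w' t' : κ → ℝ} {s : ℝ} {CI : Finset ι} {CJ : Finset κ}
    {q : (ι → ℕ) × (κ → ℕ)} (hF : Free w w' q) (hC : Cst s CI CJ t t' q) {i : ι} {j : κ} {r : ℕ}
    (hr : r.Prime) (h1 : r ∣ q.1 i) (h2 : r ∣ q.2 j) :
    Free w w' (Function.update q.1 i (q.1 i / r), Function.update q.2 j (q.2 j / r)) ∧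
      Cst s (CI.erase i) (CJ.erase j) t t'
        (Function.update q.1 i (q.1 i / r), Function.update q.2 j (q.2 j / r)) := by
  obtain ⟨f1, f2, f3⟩ := hF
  obtain ⟨c1, c2, c3⟩ := hC
  refine ⟨⟨?_, fun i' => ?_, fun j' => ?_⟩, fun i' hi => ?_, fun j' hj => ?_,
    fun i' hi j' hj => ?_⟩
  · rw [es2_prod q.1 i h1, es2_prod q.2 j h2] at f1
    exact Nat.eq_of_mul_eq_mul_left hr.pos f1
  · by_cases h : i' = i
    · subst h
      simp only [Function.update_self]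
      exact (f2 _).of_dvd (Nat.div_dvd_of_dvd h1)
    · simp only [Function.update_of_ne h]
      exact f2 _
  · by_cases h : j' = j
    · subst h
      simp only [Function.update_self]
      exact (f3 _).of_dvd (Nat.div_dvd_of_dvd h2)
    · simp only [Function.update_of_ne h]
      exact f3 _
  · simp only [Function.update_of_ne (ne_of_mem_erase hi)]
    exact c1 _ (mem_of_mem_erase hi)
  · simp only [Function.update_of_ne (ne_of_mem_erase hj)]
    exact c2 _ (mem_of_mem_erase hj)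
  · simp only [Function.update_of_ne (ne_of_mem_erase hi), Function.update_of_ne (ne_of_mem_erase hj)]
    exact c3 _ (mem_of_mem_erase hi) _ (mem_of_mem_erase hj)

theorem es2_max {ι κ : Type} [Fintype ι] [Fintype κ] [DecidableEq ι] [DecidableEq κ]
    {w t : ι → ℝ} {w' t' : κ → ℝ} {s : ℝ} {CI : Finset ι} {CJ : Finset κ}
    {q : (ι → ℕ) × (κ → ℕ)} (hF : Free w w' q) (hC : Cst s CI CJ t t' q)
    (hne : CI.card + CJ.card ≠ 0) : ∃ (i : ι) (j : κ) (r : ℕ), (i ∈ CI ∨ j ∈ CJ) ∧ r.Prime ∧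
      r ∣ q.1 i ∧ r ∣ q.2 j ∧ (i ∈ CI → t i ≤ LL r) ∧ (j ∈ CJ → t' j ≤ LL r) := by
  obtain ⟨f1, f2, f3⟩ := hF
  obtain ⟨c1, c2, -⟩ := hC
  set R := CI.biUnion (fun i => (q.1 i).primeFactors) ∪ CJ.biUnion (fun j => (q.2 j).primeFactors)
    with hR
  have m1 : ∀ i ∈ CI, ∃ r ∈ R, t i ≤ LL r := fun i hi => by
    obtain ⟨-, -, r, hr, hd, hl⟩ := c1 i hi
    exact ⟨r, mem_union_left _ (mem_biUnion.2 ⟨i, hi, Nat.mem_primeFactors.2 ⟨hr, hd, (f2 i).1⟩⟩), hl⟩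
  have m2 : ∀ j ∈ CJ, ∃ r ∈ R, t' j ≤ LL r := fun j hj => by
    obtain ⟨-, -, r, hr, hd, hl⟩ := c2 j hj
    exact ⟨r, mem_union_right _ (mem_biUnion.2 ⟨j, hj, Nat.mem_primeFactors.2 ⟨hr, hd, (f3 j).1⟩⟩), hl⟩
  have hRne : R.Nonempty := by
    rcases CI.eq_empty_or_nonempty with h | ⟨i, hi⟩
    · rcases CJ.eq_empty_or_nonempty with h' | ⟨j, hj⟩
      · simp [h, h'] at hne
      · obtain ⟨r, hr, -⟩ := m2 j hj
        exact ⟨r, hr⟩
    · obtain ⟨r, hr, -⟩ := m1 i hi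
      exact ⟨r, hr⟩
  have n1 : ∀ i ∈ CI, t i ≤ LL (R.max' hRne : ℕ) := fun i hi => by
    obtain ⟨r, hr, hl⟩ := m1 i hi
    exact hl.trans (LL_mono_nat (R.le_max' r hr))
  have n2 : ∀ j ∈ CJ, t' j ≤ LL (R.max' hRne : ℕ) := fun j hj => by
    obtain ⟨r, hr, hl⟩ := m2 j hj
    exact hl.trans (LL_mono_nat (R.le_max' r hr))
  rcases mem_union.1 (R.max'_mem hRne) with h | h
  · obtain ⟨i, hi, h⟩ := mem_biUnion.1 h
    obtain ⟨hr, hd, -⟩ := Nat.mem_primeFactors.1 h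
    have : R.max' hRne ∣ ∏ j, q.2 j := f1 ▸ hd.trans (dvd_prod_of_mem _ (mem_univ i))
    obtain ⟨j, -, hj⟩ := (Prime.dvd_finsetProd_iff hr.prime _).1 this
    exact ⟨i, j, _, Or.inl hi, hr, hd, hj, n1 i, n2 j⟩
  · obtain ⟨j, hj, h⟩ := mem_biUnion.1 h
    obtain ⟨hr, hd, -⟩ := Nat.mem_primeFactors.1 h
    have : R.max' hRne ∣ ∏ i, q.1 i := f1 ▸ hd.trans (dvd_prod_of_mem _ (mem_univ j))
    obtain ⟨i, -, hi⟩ := (Prime.dvd_finsetProd_iff hr.prime _).1 this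
    exact ⟨i, j, _, Or.inr hj, hr, hi, hd, n1 i, n2 j⟩

theorem FB_pos {ι κ : Type} [Fintype ι] [Fintype κ] (z : ℕ → ℝ) (w : ι → ℝ) (w' : κ → ℝ) :
    0 < FB z w w' := Real.exp_pos _

/-- Removing a prime `r` from the row `i` and the column `j`.  Write `q.1 i = r a`,
`q.2 j = r b`; the map `q ↦ ((update q.1 i a, update q.2 j b), r)` is injective,
`cm z (r N') / (r N') ≤ (1 / r) cm z N' / N'`; `sum_fib_le`. -/
theorem Es_step {ι κ : Type} [Fintype ι] [Fintype κ] [DecidableEq ι] [DecidableEq κ] (z : ℕ → ℝ)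
    (hz : ∀ r, 0 ≤ z r ∧ z r ≤ 1) (i : ι) (j : κ) (P : (ι → ℕ) × (κ → ℕ) → Prop)
    (Q : (ι → ℕ) × (κ → ℕ) → ℕ → Prop) {D E : ℝ}
    (hP : ∀ A : Finset ((ι → ℕ) × (κ → ℕ)), (∀ q ∈ A, P q) → Esum z A ≤ E)
    (hQ : ∀ q, P q → ∀ S : Finset ℕ, (∀ r ∈ S, r.Prime ∧ Q q r) → ∑ r ∈ S, 1 / (r : ℝ) ≤ D)
    (hD : 0 ≤ D) (A : Finset ((ι → ℕ) × (κ → ℕ)))
    (hA : ∀ q ∈ A, (∀ i', q.1 i' ≠ 0) ∧ ∃ r : ℕ, r.Prime ∧ r ∣ q.1 i ∧ r ∣ q.2 j ∧
      P (Function.update q.1 i (q.1 i / r), Function.update q.2 j (q.2 j / r)) ∧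
      Q (Function.update q.1 i (q.1 i / r), Function.update q.2 j (q.2 j / r)) r) :
    Esum z A ≤ D * E := by
  choose! r hr using fun q hq => (hA q hq).2
  have hz' : ∀ n, 0 ≤ cm z n := cm_nonneg fun r _ => (hz r).1
  unfold Esum
  refine sum_le_of_inj A (fun q => ((Function.update q.1 i (q.1 i / r q),
    Function.update q.2 j (q.2 j / r q)), r q)) ?_ _
    (fun u => cm z (∏ i, u.1.1 i) / ((∏ i, u.1.1 i : ℕ) : ℝ) * (1 / (u.2 : ℝ))) ?_
    (fun u => P u.1 ∧ (u.2.Prime ∧ Q u.1 u.2))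
    (fun q hq => ⟨(hr q hq).2.2.2.1, (hr q hq).1, (hr q hq).2.2.2.2⟩) _ fun S hS => ?_
  · intro q hq q' hq' h
    obtain ⟨h1, h2⟩ := Prod.mk.inj h
    obtain ⟨h3, h4⟩ := Prod.mk.inj h1
    refine Prod.ext (funext fun i' => ?_) (funext fun j' => ?_)
    · have := congrFun h3 i'
      by_cases hi : i' = i
      · subst hi
        simp only [Function.update_self] at this
        rw [← Nat.mul_div_cancel' (hr q hq).2.1, ← Nat.mul_div_cancel' (hr q' hq').2.1, this, h2]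
      · simpa only [Function.update_of_ne hi] using this
    · have := congrFun h4 j'
      by_cases hj : j' = j
      · subst hj
        simp only [Function.update_self] at this
        rw [← Nat.mul_div_cancel' (hr q hq).2.2.1, ← Nat.mul_div_cancel' (hr q' hq').2.2.1, this, h2]
      · simpa only [Function.update_of_ne hj] using this
  · intro q hq
    have h1 := es2_prod q.1 i (hr q hq).2.1
    have h2 : ∏ i, q.1 i ≠ 0 := prod_ne_zero_iff.2 fun i _ => (hA q hq).1 i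
    have hp := (hr q hq).1
    dsimp only
    rw [h1] at h2 ⊢
    generalize ∏ i', Function.update q.1 i (q.1 i / r q) i' = N at h2 ⊢
    rw [cm_mul z hp.ne_zero (right_ne_zero_of_mul h2), cm_prime z hp, div_mul_div_comm, mul_one,
      Nat.cast_mul, mul_comm (N : ℝ)]
    exact div_le_div_of_nonneg_right (mul_le_of_le_one_left (hz' N) (hz _).2) (by positivity)
  · refine sum_fib_le S (fun q => cm z (∏ i, q.1 i) / ((∏ i, q.1 i : ℕ) : ℝ))
      (fun _ r => 1 / (r : ℝ)) (fun _ => D) _ P (fun q r => r.Prime ∧ Q q r)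
      (fun q _ => div_nonneg (hz' _) (Nat.cast_nonneg _)) (fun A' hA' => ?_) hQ hS
    rw [← sum_mul, mul_comm]
    exact mul_le_mul_of_nonneg_left (hP A' hA') hD

/-- The constant of the induction. -/
noncomputable def KK (C s : ℝ) (a b : ℕ) : ℝ := C * ((a : ℝ) + b + 1) ^ 2 * (s + 1) ^ 2

theorem one_le_KK {C s : ℝ} (hC : 1 ≤ C) (hs : 0 ≤ s) (a b : ℕ) : 1 ≤ KK C s a b := by
  unfold KK
  have h1 : (1 : ℝ) ≤ ((a : ℝ) + b + 1) ^ 2 :=
    one_le_pow₀ (by linarith [Nat.cast_nonneg (α := ℝ) a, Nat.cast_nonneg (α := ℝ) b])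
  have h2 : (1 : ℝ) ≤ (s + 1) ^ 2 := one_le_pow₀ (by linarith)
  exact one_le_mul_of_one_le_of_one_le (one_le_mul_of_one_le_of_one_le hC h1) h2

theorem le_KK {C s : ℝ} (hC : 1 ≤ C) (a b : ℕ) : C * (s + 1) ^ 2 ≤ KK C s a b ∧
    (a : ℝ) * b * (C * (s + 1) ^ 2) ≤ KK C s a b := by
  unfold KK
  have ha := Nat.cast_nonneg (α := ℝ) a
  have hb := Nat.cast_nonneg (α := ℝ) b
  have h0 : 0 ≤ C * (s + 1) ^ 2 := by positivity
  constructor
  · nlinarith [mul_le_mul_of_nonneg_right (show (1 : ℝ) ≤ ((a : ℝ) + b + 1) ^ 2 by nlinarith) h0]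
  · nlinarith [mul_le_mul_of_nonneg_right (show (a : ℝ) * b ≤ ((a : ℝ) + b + 1) ^ 2 by nlinarith) h0]

theorem es2_sieve : ∃ C : ℝ, 1 ≤ C ∧ ∀ (a b : ℕ) (s t t' : ℝ) (P P' : Prop) [Decidable P]
    [Decidable P'] (S : Finset ℕ), 0 ≤ s → 1 ≤ a → 1 ≤ b → (P ∨ P') → (P → 1 ≤ t ∧ LL a ≤ s) →
    (P' → 1 ≤ t' ∧ LL b ≤ s) → (P → P' → a ≠ b) →
    (∀ r ∈ S, r.Prime ∧ (P → (a * r + 1).Prime ∧ t ≤ LL r) ∧ (P' → (b * r + 1).Prime ∧ t' ≤ LL r)) →
    ∑ r ∈ S, 1 / (r : ℝ) ≤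
      C * (s + 1) ^ 2 * Real.exp (-((if P then t else 0) + (if P' then t' else 0))) := by
  obtain ⟨C₂, hC₂, h₂⟩ := SL2
  obtain ⟨C₃, hC₃, h₃⟩ := SL3
  refine ⟨C₂ + 4 * C₃, by linarith, fun a b s t t' P P' _ _ S hs ha hb hP h1 h2 h3 hS => ?_⟩
  have k1 : ∀ x : ℝ, x ≤ s → C₂ * (x + 1) ≤ (C₂ + 4 * C₃) * (s + 1) ^ 2 := fun x hx => by
    have : x + 1 ≤ (s + 1) ^ 2 := by nlinarith
    nlinarith [mul_le_mul_of_nonneg_left this (show 0 ≤ C₂ by linarith),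
      mul_nonneg (show 0 ≤ C₃ by linarith) (sq_nonneg (s + 1))]
  by_cases p : P <;> by_cases p' : P'
  · rw [if_pos p, if_pos p']
    refine (h₃ a b (max t t') S ha hb (h3 p p') ((h1 p).1.trans (le_max_left _ _)) fun r hr =>
      ⟨(hS r hr).1, max_le ((hS r hr).2.1 p).2 ((hS r hr).2.2 p').2, ((hS r hr).2.1 p).1,
        ((hS r hr).2.2 p').1⟩).trans ?_
    refine mul_le_mul ?_ (Real.exp_le_exp.2 (by linarith [le_max_left t t', le_max_right t t']))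
      (Real.exp_pos _).le (by positivity)
    have : (LL a + LL b + 1) ^ 2 ≤ (2 * (s + 1)) ^ 2 :=
      pow_le_pow_left₀ (by linarith [LL_nonneg a, LL_nonneg b]) (by linarith [(h1 p).2, (h2 p').2]) 2
    nlinarith [mul_le_mul_of_nonneg_left this (show 0 ≤ C₃ by linarith),
      mul_nonneg (show 0 ≤ C₂ by linarith) (sq_nonneg (s + 1))]
  · rw [if_pos p, if_neg p', add_zero]
    exact (h₂ a t S ha (h1 p).1 fun r hr =>
      ⟨(hS r hr).1, ((hS r hr).2.1 p).2, ((hS r hr).2.1 p).1⟩).trans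
      (mul_le_mul_of_nonneg_right (k1 _ (h1 p).2) (Real.exp_pos _).le)
  · rw [if_neg p, if_pos p', zero_add]
    exact (h₂ b t' S hb (h2 p').1 fun r hr =>
      ⟨(hS r hr).1, ((hS r hr).2.2 p').2, ((hS r hr).2.2 p').1⟩).trans
      (mul_le_mul_of_nonneg_right (k1 _ (h2 p').2) (Real.exp_pos _).le)
  · exact absurd hP (by tauto)

theorem es2_erase {ι : Type} [DecidableEq ι] (CI : Finset ι) (t : ι → ℝ) (i : ι) :
    ∑ x ∈ CI, t x = (if i ∈ CI then t i else 0) + ∑ x ∈ CI.erase i, t x := by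
  split_ifs with h
  · exact (add_sum_erase _ _ h).symm
  · rw [erase_eq_of_notMem h, zero_add]

/-- Savings from primality.  Strong induction on `CI.card + CJ.card`; for `CI = CJ = ∅` this is
`Es1`.  Otherwise let `r` be the largest prime dividing one of the `q.1 i` (`i ∈ CI`), `q.2 j`
(`j ∈ CJ`).  It divides the common product, so there is a pair `(i, j)` with `r ∣ q.1 i`,
`r ∣ q.2 j` and `i ∈ CI ∨ j ∈ CJ`, and by maximality `t i ≤ LL r` if `i ∈ CI`, `t' j ≤ LL r` if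
`j ∈ CJ`.  Cover `A` by the pairs `(i, j)` (`sum_le_sum_cover`) and apply `Es_step` with
`CI.erase i`, `CJ.erase j`: `SL3` with `max (t i) (t' j)` if both are constrained, `SL2`
otherwise. -/
theorem Es2 : ∃ C : ℝ, 1 ≤ C ∧ ∀ {ι κ : Type} [Fintype ι] [Fintype κ] [DecidableEq ι]
    [DecidableEq κ] (z : ℕ → ℝ) (w t : ι → ℝ) (w' t' : κ → ℝ) (s : ℝ) (CI : Finset ι)
    (CJ : Finset κ) (A : Finset ((ι → ℕ) × (κ → ℕ))), (∀ r, 0 ≤ z r ∧ z r ≤ 1) → 0 ≤ s →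
    (∀ i ∈ CI, 1 ≤ t i) → (∀ j ∈ CJ, 1 ≤ t' j) → (∀ q ∈ A, Free w w' q ∧ Cst s CI CJ t t' q) →
    Esum z A ≤ KK C s (Fintype.card ι) (Fintype.card κ) ^ (CI.card + CJ.card) *
      Real.exp (-(∑ i ∈ CI, t i + ∑ j ∈ CJ, t' j)) * FB z w w' := by
  obtain ⟨C, hC, hsv⟩ := es2_sieve
  refine ⟨C, hC, ?_⟩
  intro ι κ _ _ _ _ z w t w' t' s CI CJ A hz hs
  induction hn : CI.card + CJ.card using Nat.strong_induction_on generalizing CI CJ A with
  | _ n ih =>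
  intro ht ht' hA
  have hK := one_le_KK hC hs (Fintype.card ι) (Fintype.card κ)
  set K := KK C s (Fintype.card ι) (Fintype.card κ) with hKdef
  have hFB := FB_pos z w w'
  rcases n with _ | n
  · have h1 : CI = ∅ := card_eq_zero.1 (by omega)
    have h2 : CJ = ∅ := card_eq_zero.1 (by omega)
    simpa [h1, h2] using Es1 z hz w w' A fun q hq => (hA q hq).1
  have key := sum_le_sum_cover A (univ : Finset (ι × κ))
    (fun q => cm z (∏ i, q.1 i) / ((∏ i, q.1 i : ℕ) : ℝ))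
    (fun q _ => div_nonneg (cm_nonneg (fun r _ => (hz r).1) _) (Nat.cast_nonneg _))
    (fun e q => ∃ r : ℕ, (e.1 ∈ CI ∨ e.2 ∈ CJ) ∧ r.Prime ∧ r ∣ q.1 e.1 ∧ r ∣ q.2 e.2 ∧
      (e.1 ∈ CI → t e.1 ≤ LL r) ∧ (e.2 ∈ CJ → t' e.2 ≤ LL r))
    (fun q hq => by
      obtain ⟨i, j, r, h⟩ := es2_max (hA q hq).1 (hA q hq).2 (by omega)
      exact ⟨(i, j), mem_univ _, r, h⟩)
    (fun _ => C * (s + 1) ^ 2 * (K ^ n * Real.exp (-(∑ i ∈ CI, t i + ∑ j ∈ CJ, t' j)) * FB z w w'))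
    (by
      rintro ⟨i, j⟩ - A' hA' hP
      rcases A'.eq_empty_or_nonempty with rfl | ⟨q₀, hq₀⟩
      · rw [sum_empty]; positivity
      obtain ⟨-, hor, -⟩ := hP q₀ hq₀
      dsimp only at hor hP
      have hlt : (CI.erase i).card + (CJ.erase j).card ≤ n := by
        have a1 := card_erase_le (s := CI) (a := i)
        have a2 := card_erase_le (s := CJ) (a := j)
        rcases hor with h | h
        · have := card_erase_add_one h; omega
        · have := card_erase_add_one h; omega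
      have := Es_step z hz i j
        (fun q => (Free w w' q ∧ Cst s (CI.erase i) (CJ.erase j) t t' q) ∧
          (i ∈ CI → LL (q.1 i) ≤ s) ∧ (j ∈ CJ → LL (q.2 j) ≤ s) ∧ (i ∈ CI → j ∈ CJ → q.1 i ≠ q.2 j))
        (fun q r => (i ∈ CI → (q.1 i * r + 1).Prime ∧ t i ≤ LL r) ∧
          (j ∈ CJ → (q.2 j * r + 1).Prime ∧ t' j ≤ LL r))
        (fun B hB => ih _ (Nat.lt_succ_of_le hlt) (CI.erase i) (CJ.erase j) B rfl
          (fun x hx => ht x (mem_of_mem_erase hx)) (fun x hx => ht' x (mem_of_mem_erase hx))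
          fun q hq => (hB q hq).1)
        (fun q hq S hS => hsv (q.1 i) (q.2 j) s (t i) (t' j) (i ∈ CI) (j ∈ CJ) S hs
          (Nat.pos_of_ne_zero (hq.1.1.2.1 i).1) (Nat.pos_of_ne_zero (hq.1.1.2.2 j).1) hor
          (fun h => ⟨ht i h, hq.2.1 h⟩) (fun h => ⟨ht' j h, hq.2.2.1 h⟩) hq.2.2.2 hS)
        (by positivity) A' (fun q hq => by
          obtain ⟨r, -, hr, d1, d2, l1, l2⟩ := hP q hq
          obtain ⟨hF, hCs⟩ := hA q (hA' hq)
          refine ⟨fun i' => (hF.2.1 i').1, r, hr, d1, d2, ⟨es2_upd hF hCs hr d1 d2, ?_⟩, ?_⟩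
          · simp only [Function.update_self]
            refine ⟨fun h => (LL_mono_nat (Nat.div_le_self _ _)).trans (hCs.1 i h).2.1,
              fun h => (LL_mono_nat (Nat.div_le_self _ _)).trans (hCs.2.1 j h).2.1,
              fun h h' he => hCs.2.2 i h j h' ?_⟩
            rw [← Nat.div_mul_cancel d1, ← Nat.div_mul_cancel d2, he]
          · simp only [Function.update_self, Nat.div_mul_cancel d1, Nat.div_mul_cancel d2]
            exact ⟨fun h => ⟨(hCs.1 i h).1, l1 h⟩, fun h => ⟨(hCs.2.1 j h).1, l2 h⟩⟩)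
      refine this.trans ?_
      rw [es2_erase CI t i, es2_erase CJ t' j, mul_assoc]
      refine mul_le_mul_of_nonneg_left ?_ (by positivity)
      rw [← mul_assoc, mul_left_comm, ← Real.exp_add]
      refine mul_le_mul_of_nonneg_right (mul_le_mul (pow_le_pow_right₀ hK hlt)
        (le_of_eq (by congr 1; ring)) (Real.exp_pos _).le (by positivity)) hFB.le)
  refine key.trans ?_
  rw [sum_const, card_univ, Fintype.card_prod, nsmul_eq_mul, Nat.cast_mul, ← mul_assoc, pow_succ' K,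
    mul_assoc K, mul_assoc K]
  exact mul_le_mul_of_nonneg_right (le_KK hC _ _).2 (by positivity)

/-- The top level: a prime `r ∣ q.1 i₀` with `lam ≤ LL r` can only divide the column `j₀`.
`Es_step` with `P q' = Free ∧ Cst (CI.erase i₀) (CJ.erase j₀) ∧ (∀ i, q'.1 i ≠ 0) ∧ …`, `SL3'`
with the window `(Y / N', (Y / N') T]`, and `Es2`. -/
theorem Es3 : ∃ C : ℝ, 1 ≤ C ∧ ∀ {ι κ : Type} [Fintype ι] [Fintype κ] [DecidableEq ι]
    [DecidableEq κ] (z : ℕ → ℝ) (w t : ι → ℝ) (w' t' : κ → ℝ) (s lam Y T : ℝ) (CI : Finset ι)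
    (CJ : Finset κ) (i₀ : ι) (j₀ : κ) (A : Finset ((ι → ℕ) × (κ → ℕ))),
    (∀ r, 0 ≤ z r ∧ z r ≤ 1) → 0 ≤ s → (∀ i ∈ CI, 1 ≤ t i) → (∀ j ∈ CJ, 1 ≤ t' j) →
    i₀ ∈ CI → j₀ ∈ CJ → 1 ≤ lam → 1 ≤ T → (∀ j, j ≠ j₀ → w' j < lam) →
    (∀ q ∈ A, Free w w' q ∧ Cst s CI CJ t t' q ∧ (∃ r : ℕ, r.Prime ∧ r ∣ q.1 i₀ ∧ lam ≤ LL r) ∧
      Y < ((∏ i, q.1 i : ℕ) : ℝ) ∧ ((∏ i, q.1 i : ℕ) : ℝ) ≤ Y * T) →
    Esum z A ≤ (Real.log T + 1) * Real.exp (t i₀ + t' j₀ - 3 * lam) *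
      (KK C s (Fintype.card ι) (Fintype.card κ) ^ (CI.card + CJ.card) *
        Real.exp (-(∑ i ∈ CI, t i + ∑ j ∈ CJ, t' j)) * FB z w w') := by
  obtain ⟨C₂, hC₂, h₂⟩ := Es2
  obtain ⟨C₃, hC₃, h₃⟩ := SL3'
  refine ⟨C₂ + 4 * C₃, by linarith, ?_⟩
  intro ι κ _ _ _ _ z w t w' t' s lam Y T CI CJ i j A hz hs ht ht' hi hj hlam hT hw hA
  have hlT : 0 ≤ Real.log T := Real.log_nonneg hT
  have hFB := FB_pos z w w'
  have hC : 1 ≤ C₂ + 4 * C₃ := by linarith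
  have hK := one_le_KK hC hs (Fintype.card ι) (Fintype.card κ)
  have hK₂ := one_le_KK hC₂ hs (Fintype.card ι) (Fintype.card κ)
  have hKK : KK C₂ s (Fintype.card ι) (Fintype.card κ) ≤
      KK (C₂ + 4 * C₃) s (Fintype.card ι) (Fintype.card κ) := by
    unfold KK
    gcongr
    linarith
  have := Es_step z hz i j
    (fun q => (Free w w' q ∧ Cst s (CI.erase i) (CJ.erase j) t t' q) ∧
      LL (q.1 i) ≤ s ∧ LL (q.2 j) ≤ s ∧ q.1 i ≠ q.2 j)
    (fun q r => lam ≤ LL r ∧ (q.1 i * r + 1).Prime ∧ (q.2 j * r + 1).Prime ∧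
      Y < ((r * ∏ i, q.1 i : ℕ) : ℝ) ∧ ((r * ∏ i, q.1 i : ℕ) : ℝ) ≤ Y * T)
    (D := (C₂ + 4 * C₃) * (s + 1) ^ 2 * (Real.log T + 1) * Real.exp (-(3 * lam)))
    (fun B hB => h₂ z w t w' t' s (CI.erase i) (CJ.erase j) B hz hs
      (fun x hx => ht x (mem_of_mem_erase hx)) (fun x hx => ht' x (mem_of_mem_erase hx))
      fun q hq => (hB q hq).1)
    (fun q hq S hS => by
      have hN : (0 : ℝ) < (∏ i, q.1 i : ℕ) := by
        exact_mod_cast prod_pos fun i _ => Nat.pos_of_ne_zero (hq.1.1.2.1 i).1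
      refine (h₃ (q.1 i) (q.2 j) lam (Y / (∏ i, q.1 i : ℕ)) T S
        (Nat.pos_of_ne_zero (hq.1.1.2.1 i).1) (Nat.pos_of_ne_zero (hq.1.1.2.2 j).1) hq.2.2.2 hlam hT
        fun r hr => ?_).trans ?_
      · obtain ⟨r1, r2, r3, r4, r5, r6⟩ := hS r hr
        rw [Nat.cast_mul] at r5 r6
        refine ⟨r1, r2, r3, r4, (div_lt_iff₀ hN).2 r5, ?_⟩
        rw [div_mul_eq_mul_div, le_div_iff₀ hN]
        exact r6
      · refine mul_le_mul_of_nonneg_right (mul_le_mul_of_nonneg_right ?_ (by linarith))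
          (Real.exp_pos _).le
        have : (LL (q.1 i) + LL (q.2 j) + 1) ^ 2 ≤ (2 * (s + 1)) ^ 2 :=
          pow_le_pow_left₀ (by linarith [LL_nonneg (q.1 i), LL_nonneg (q.2 j)])
            (by linarith [hq.2.1, hq.2.2.1]) 2
        nlinarith [mul_le_mul_of_nonneg_left this (show 0 ≤ C₃ by linarith),
          mul_nonneg (show 0 ≤ C₂ by linarith) (sq_nonneg (s + 1))])
    (by positivity) A (fun q hq => by
      obtain ⟨hF, hCs, ⟨r, hr, d1, l1⟩, y1, y2⟩ := hA q hq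
      have d2 : r ∣ q.2 j := by
        have : r ∣ ∏ j, q.2 j := hF.1 ▸ d1.trans (dvd_prod_of_mem _ (mem_univ i))
        obtain ⟨j', -, hj'⟩ := (Prime.dvd_finsetProd_iff hr.prime _).1 this
        by_cases h : j' = j
        · exact h ▸ hj'
        · exact absurd ((hF.2.2 j').2 r hr hj') (not_le.2 ((hw j' h).trans_le l1))
      refine ⟨fun i' => (hF.2.1 i').1, r, hr, d1, d2, ⟨es2_upd hF hCs hr d1 d2, ?_⟩, l1, ?_⟩
      · simp only [Function.update_self]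
        refine ⟨(LL_mono_nat (Nat.div_le_self _ _)).trans (hCs.1 i hi).2.1,
          (LL_mono_nat (Nat.div_le_self _ _)).trans (hCs.2.1 j hj).2.1,
          fun he => hCs.2.2 i hi j hj ?_⟩
        rw [← Nat.div_mul_cancel d1, ← Nat.div_mul_cancel d2, he]
      · simp only [Function.update_self, Nat.div_mul_cancel d1, Nat.div_mul_cancel d2,
          ← es2_prod q.1 i d1]
        exact ⟨(hCs.1 i hi).1, (hCs.2.1 j hj).1, y1, y2⟩)
  refine this.trans ?_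
  set K := KK (C₂ + 4 * C₃) s (Fintype.card ι) (Fintype.card κ) with hKdef
  have c1 := card_erase_add_one hi
  have c2 := card_erase_add_one hj
  have k1 : (C₂ + 4 * C₃) * (s + 1) ^ 2 * KK C₂ s (Fintype.card ι) (Fintype.card κ) ^
      ((CI.erase i).card + (CJ.erase j).card) ≤ K ^ (CI.card + CJ.card) :=
    calc _ ≤ K * K ^ ((CI.erase i).card + (CJ.erase j).card) :=
          mul_le_mul (le_KK hC _ _).1 (pow_le_pow_left₀ (by linarith) hKK _) (by positivity)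
            (by linarith)
      _ = K ^ ((CI.erase i).card + (CJ.erase j).card + 1) := by ring
      _ ≤ _ := pow_le_pow_right₀ hK (by omega)
  have k2 : Real.exp (-(3 * lam)) *
      Real.exp (-(∑ x ∈ CI.erase i, t x + ∑ x ∈ CJ.erase j, t' x)) =
      Real.exp (t i + t' j - 3 * lam) * Real.exp (-(∑ i ∈ CI, t i + ∑ j ∈ CJ, t' j)) := by
    rw [← Real.exp_add, ← Real.exp_add, ← add_sum_erase _ _ hi, ← add_sum_erase _ _ hj]
    congr 1; ring
  calc _ = ((C₂ + 4 * C₃) * (s + 1) ^ 2 * KK C₂ s (Fintype.card ι) (Fintype.card κ) ^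
      ((CI.erase i).card + (CJ.erase j).card)) * ((Real.log T + 1) * (Real.exp (-(3 * lam)) *
      Real.exp (-(∑ x ∈ CI.erase i, t x + ∑ x ∈ CJ.erase j, t' x))) * FB z w w') := by ring
    _ ≤ K ^ (CI.card + CJ.card) * ((Real.log T + 1) * (Real.exp (-(3 * lam)) *
      Real.exp (-(∑ x ∈ CI.erase i, t x + ∑ x ∈ CJ.erase j, t' x))) * FB z w w') :=
        mul_le_mul_of_nonneg_right k1 (by positivity)
    _ = _ := by rw [k2]; ring

end Crest.Agent.R020
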