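import Crest.Agent.R020.Mert

set_option autoImplicit false

namespace Crest.Agent.R020

open Finset Filter Topology Crest.Agent.R008 Crest.Agent.R026 Crest.NumberTheoryR.TotientScale

theorem Eul_inv_le {u : ℝ} (h0 : 0 ≤ u) (h1 : u ≤ 3 / 4) :
    1 ≤ (1 - u) * Real.exp (u + 2 * u ^ 2) := by
  have h := Real.quadratic_le_exp_of_nonneg (x := u + 2 * u ^ 2) (by positivity)
  have h2 : (1 - u) * (1 + (u + 2 * u ^ 2) + (u + 2 * u ^ 2) ^ 2 / 2) ≤
      (1 - u) * Real.exp (u + 2 * u ^ 2) := mul_le_mul_of_nonneg_left h (by linarith)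
  have h3 : u ^ 3 ≤ (3 / 4) ^ 3 := pow_le_pow_left₀ h0 h1 3
  have h4 : 0 ≤ u ^ 2 * (3 / 2 - u / 2 - 2 * u ^ 3) :=
    mul_nonneg (by positivity) (by norm_num at h3; linarith)
  nlinarith

theorem Eul_split (g : ℕ → ℝ) {r : ℕ} (hr : 0 < r) (N : ℕ) :
    ∑ n ∈ Ioc 0 N, g n =
      ∑ n ∈ (Ioc 0 N).filter (fun n => ¬ r ∣ n), g n + ∑ m ∈ Ioc 0 (N / r), g (r * m) := by
  rw [← sum_filter_not_add_sum_filter (Ioc 0 N) (fun n => r ∣ n)]
  congr 1
  symm
  refine sum_bij (fun m _ => r * m) ?_ ?_ ?_ (fun _ _ => rfl)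
  · intro m hm
    rw [mem_Ioc, Nat.le_div_iff_mul_le hr] at hm
    exact mem_filter.2 ⟨mem_Ioc.2 ⟨Nat.mul_pos hr hm.1, by rw [mul_comm]; exact hm.2⟩,
      dvd_mul_right _ _⟩
  · intro m _ m' _ h
    exact Nat.eq_of_mul_eq_mul_left hr h
  · intro n hn
    obtain ⟨hn, m, rfl⟩ := mem_filter.1 hn
    rw [mem_Ioc] at hn
    refine ⟨m, mem_Ioc.2 ⟨Nat.pos_of_mul_pos_left hn.1, ?_⟩, rfl⟩
    rw [Nat.le_div_iff_mul_le hr, mul_comm]; exact hn.2

theorem Eul_E2nat (P : Finset ℕ) : ∀ (z : ℕ → ℝ),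
    (∀ r ∈ P, r.Prime ∧ 1 ≤ z r ∧ z r ≤ 3 / 4 * r) → (∀ r : ℕ, r.Prime → r ∉ P → z r = 1) →
    ∀ N : ℕ, ∑ n ∈ Ioc 0 N, cm z n ≤
      N * Real.exp (∑ r ∈ P, ((z r - 1) / r + 4 * (z r / r) ^ 2)) := by
  classical
  induction P using Finset.induction_on with
  | empty =>
    intro z _ hz N
    have : ∀ n ∈ Ioc 0 N, cm z n = 1 := fun n _ => by
      rw [← cm_const_one n]
      exact cm_congr fun r hr _ => hz r hr (by simp)
    rw [sum_congr rfl this]
    simp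
  | insert r P hrP ih =>
    intro z hP hz N
    obtain ⟨hr, hz1, hz2⟩ := hP r (mem_insert_self _ _)
    have hr0 : (0 : ℝ) < r := by exact_mod_cast hr.pos
    set z' : ℕ → ℝ := Function.update z r 1 with hz'
    have hzz : ∀ q, q ≠ r → z' q = z q := fun q hq => Function.update_of_ne hq _ _
    have hz'r : z' r = 1 := Function.update_self _ _ _
    have hne : ∀ q ∈ P, q ≠ r := fun q hq h => hrP (h ▸ hq)
    have h1 := ih z' (fun q hq => by rw [hzz q (hne q hq)]; exact hP q (mem_insert_of_mem hq))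
      (fun q hq hqP => by
        by_cases h : q = r
        · rw [h, hz'r]
        · rw [hzz q h]; exact hz q hq (by simp [h, hqP]))
    have h2 : ∑ q ∈ P, ((z' q - 1) / q + 4 * (z' q / q) ^ 2) =
        ∑ q ∈ P, ((z q - 1) / q + 4 * (z q / q) ^ 2) :=
      sum_congr rfl fun q hq => by rw [hzz q (hne q hq)]
    rw [h2] at h1
    set E := Real.exp (∑ q ∈ P, ((z q - 1) / q + 4 * (z q / q) ^ 2)) with hE
    have hE0 : 0 < E := Real.exp_pos _
    set u := z r / r with hu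
    set t := (z r - 1) / r with ht
    have hu0 : 0 ≤ u := by positivity
    have hu1 : u ≤ 3 / 4 := by rw [hu, div_le_iff₀ hr0]; exact hz2
    have ht0 : 0 ≤ t := div_nonneg (by linarith) hr0.le
    have htu : t ≤ u := div_le_div_of_nonneg_right (by linarith) hr0.le
    set c := t / (1 - u) with hc
    have hc0 : 0 ≤ c := div_nonneg ht0 (by linarith)
    have hc1 : c * u + t = c := by
      have : c * (1 - u) = t := div_mul_cancel₀ _ (by linarith)
      linarith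
    have hc2 : c ≤ t + 4 * u ^ 2 := by
      have : c ≤ 4 * u := by
        rw [hc, div_le_iff₀ (by linarith)]
        nlinarith
      nlinarith
    have key : ∀ M : ℕ, ∑ n ∈ Ioc 0 M, cm z n - ∑ n ∈ Ioc 0 M, cm z' n ≤ c * M * E := by
      intro M
      induction M using Nat.strong_induction_on with
      | _ M ihM =>
        rcases Nat.eq_zero_or_pos M with rfl | hM
        · simp
        have e1 : ∑ n ∈ (Ioc 0 M).filter (fun n => ¬ r ∣ n), cm z n =
            ∑ n ∈ (Ioc 0 M).filter (fun n => ¬ r ∣ n), cm z' n := by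
          refine sum_congr rfl fun n hn => cm_congr fun q _ hqn => (hzz q ?_).symm
          rintro rfl
          exact (mem_filter.1 hn).2 hqn
        have e2 : ∀ y : ℕ → ℝ, ∑ m ∈ Ioc 0 (M / r), cm y (r * m) =
            y r * ∑ m ∈ Ioc 0 (M / r), cm y m := by
          intro y
          rw [mul_sum]
          refine sum_congr rfl fun m hm => ?_
          rw [cm_mul y hr.ne_zero (mem_Ioc.1 hm).1.ne', cm_prime y hr]
        rw [Eul_split (cm z) hr.pos, Eul_split (cm z') hr.pos, e1, e2, e2, hz'r]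
        have a1 := ihM (M / r) (Nat.div_lt_self hM hr.one_lt)
        have a2 := h1 (M / r)
        have a3 : ((M / r : ℕ) : ℝ) ≤ M / r := Nat.cast_div_le
        have a4 : z r * (∑ n ∈ Ioc 0 (M / r), cm z n - ∑ n ∈ Ioc 0 (M / r), cm z' n) ≤
            z r * (c * (M / r) * E) :=
          mul_le_mul_of_nonneg_left (a1.trans (by gcongr)) (by linarith)
        have a5 : (z r - 1) * ∑ n ∈ Ioc 0 (M / r), cm z' n ≤ (z r - 1) * (M / r * E) :=
          mul_le_mul_of_nonneg_left (a2.trans (by gcongr)) (by linarith)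
        have a6 : z r * (c * (M / r) * E) + (z r - 1) * (M / r * E) = (c * u + t) * M * E := by
          rw [hu, ht]; ring
        rw [hc1] at a6
        linarith
    rw [sum_insert hrP, Real.exp_add, ← hE]
    have b1 := key N
    have b2 := h1 N
    have b3 : 1 + c ≤ Real.exp (t + 4 * u ^ 2) := by
      have := Real.add_one_le_exp (t + 4 * u ^ 2)
      linarith
    calc ∑ n ∈ Ioc 0 N, cm z n ≤ N * ((1 + c) * E) := by linarith
      _ ≤ N * (Real.exp (t + 4 * u ^ 2) * E) := by gcongr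

/-- Euler product bound.  Induction on `P`: write `n = r ^ a * n'` with `r ∤ n'`
(`ordProj`, `ordCompl`), sum the geometric series, and use
`(1 - u)⁻¹ ≤ exp (u + 2 u²)` for `0 ≤ u ≤ 3/4`. -/
theorem E1 (P : Finset ℕ) (z : ℕ → ℝ) (hP : ∀ r ∈ P, r.Prime ∧ 0 ≤ z r ∧ z r ≤ 3 / 4 * r)
    (A : Finset ℕ) (hA : ∀ n ∈ A, n ≠ 0 ∧ ∀ r : ℕ, r.Prime → r ∣ n → r ∈ P) :
    ∑ n ∈ A, cm z n / n ≤ Real.exp (∑ r ∈ P, (z r / r + 2 * (z r / r) ^ 2)) := by
  classical
  induction P using Finset.induction_on generalizing A with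
  | empty =>
    have h1 : A ⊆ {1} := fun n hn => mem_singleton.2 (by
      by_contra h
      obtain ⟨q, hq, hqn⟩ := Nat.exists_prime_and_dvd h
      simpa using (hA n hn).2 q hq hqn)
    rcases subset_singleton_iff.1 h1 with rfl | rfl <;> simp [cm_one]
  | insert r P hrP ih =>
    obtain ⟨hr, hz0, hz2⟩ := hP r (mem_insert_self _ _)
    have hr0 : (0 : ℝ) < r := by exact_mod_cast hr.pos
    set B := (Ioc 0 (A.sup id)).filter (fun n => ∀ q : ℕ, q.Prime → q ∣ n → q ∈ insert r P)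
      with hB
    have hAB : A ⊆ B := fun n hn => mem_filter.2
      ⟨mem_Ioc.2 ⟨Nat.pos_of_ne_zero (hA n hn).1, le_sup (f := id) hn⟩, (hA n hn).2⟩
    have hnn : ∀ n ∈ B, 0 ≤ cm z n / n := by
      intro n hn
      refine div_nonneg (prod_nonneg fun q hq => pow_nonneg ?_ _) (Nat.cast_nonneg _)
      exact (hP q ((mem_filter.1 hn).2 q (Nat.prime_of_mem_primeFactors hq)
        (Nat.dvd_of_mem_primeFactors hq))).2.1
    set u := z r / r with hu
    have hu0 : 0 ≤ u := by positivity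
    have hu1 : u ≤ 3 / 4 := by rw [hu, div_le_iff₀ hr0]; exact hz2
    have h1 := ih (fun q hq => hP q (mem_insert_of_mem hq)) (B.filter (fun n => ¬ r ∣ n))
      (fun n hn => by
        obtain ⟨hn, hrn⟩ := mem_filter.1 hn
        obtain ⟨hn1, hn2⟩ := mem_filter.1 hn
        refine ⟨(mem_Ioc.1 hn1).1.ne', fun q hq hqn => ?_⟩
        rcases mem_insert.1 (hn2 q hq hqn) with rfl | h
        · exact absurd hqn hrn
        · exact h)
    have h2 : ∑ n ∈ B.filter (fun n => r ∣ n), cm z n / n ≤ u * ∑ n ∈ B, cm z n / n := by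
      have e1 : ∑ n ∈ B.filter (fun n => r ∣ n), cm z n / n =
          u * ∑ n ∈ B.filter (fun n => r ∣ n), cm z (n / r) / (n / r : ℕ) := by
        rw [mul_sum]
        refine sum_congr rfl fun n hn => ?_
        obtain ⟨hn, m, rfl⟩ := mem_filter.1 hn
        have hm : m ≠ 0 := by
          rintro rfl
          simpa using (mem_Ioc.1 (mem_filter.1 hn).1).1
        rw [Nat.mul_div_cancel_left _ hr.pos, cm_mul z hr.ne_zero hm, cm_prime z hr, hu]
        push_cast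
        ring
      rw [e1, ← sum_image (f := fun m : ℕ => cm z m / m) (g := fun n => n / r)]
      · refine mul_le_mul_of_nonneg_left (sum_le_sum_of_subset_of_nonneg ?_ fun n hn _ => hnn n hn)
          hu0
        intro m hm
        obtain ⟨n, hn, rfl⟩ := mem_image.1 hm
        obtain ⟨hn, hrn⟩ := mem_filter.1 hn
        obtain ⟨hn1, hn2⟩ := mem_filter.1 hn
        rw [mem_Ioc] at hn1
        refine mem_filter.2 ⟨mem_Ioc.2 ⟨Nat.div_pos (Nat.le_of_dvd hn1.1 hrn) hr.pos,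
          (Nat.div_le_self _ _).trans hn1.2⟩, fun q hq hqn => hn2 q hq
            (hqn.trans (Nat.div_dvd_of_dvd hrn))⟩
      · intro n hn n' hn' h
        exact (Nat.div_left_inj (mem_filter.1 hn).2 (mem_filter.1 hn').2).1 h
    have h3 := sum_filter_add_sum_filter_not B (fun n => r ∣ n) (fun n : ℕ => cm z n / n)
    have h4 := Eul_inv_le hu0 hu1
    have h5 : 0 ≤ ∑ n ∈ B, cm z n / n := sum_nonneg hnn
    rw [sum_insert hrP, Real.exp_add]
    calc ∑ n ∈ A, cm z n / n ≤ ∑ n ∈ B, cm z n / n :=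
          sum_le_sum_of_subset_of_nonneg hAB fun n hn _ => hnn n hn
      _ ≤ ((1 - u) * Real.exp (u + 2 * u ^ 2)) * ∑ n ∈ B, cm z n / n :=
          le_mul_of_one_le_left h5 h4
      _ = Real.exp (u + 2 * u ^ 2) * ((1 - u) * ∑ n ∈ B, cm z n / n) := by ring
      _ ≤ _ := mul_le_mul_of_nonneg_left (by linarith) (Real.exp_pos _).le

/-- Counting version.  Induction on `P` generalizing `x`, `z` and `A`: with `z' = update z r 1`
and `v = v_r(n)`, `cm z n = z_r ^ v * cm z' n` and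
`z_r ^ v = 1 + ∑_{1 ≤ a ≤ v} (z_r ^ a - z_r ^ (a-1))`; for `r ^ a ∣ n`,
`cm z' n = cm z' (n / r ^ a)` and `n / r ^ a ≤ x / r ^ a`.  The factor is
`1 + ((z - 1) / r) / (1 - z / r) ≤ exp ((z - 1) / r + 4 (z / r)²)`. -/
theorem E2 (P : Finset ℕ) (z : ℕ → ℝ) (hP : ∀ r ∈ P, r.Prime ∧ 1 ≤ z r ∧ z r ≤ 3 / 4 * r)
    (hz : ∀ r : ℕ, r.Prime → r ∉ P → z r = 1) (x : ℝ) (hx : 0 ≤ x)
    (A : Finset ℕ) (hA : ∀ n ∈ A, n ≠ 0 ∧ (n : ℝ) ≤ x) :
    ∑ n ∈ A, cm z n ≤ x * Real.exp (∑ r ∈ P, ((z r - 1) / r + 4 * (z r / r) ^ 2)) := by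
  have h1 : A ⊆ Ioc 0 ⌊x⌋₊ := fun n hn =>
    mem_Ioc.2 ⟨Nat.pos_of_ne_zero (hA n hn).1, Nat.le_floor (hA n hn).2⟩
  have h2 : ∀ n, 0 ≤ cm z n := cm_nonneg fun r hr => by
    by_cases h : r ∈ P
    · linarith [(hP r h).2.1]
    · rw [hz r hr h]; exact zero_le_one
  refine (sum_le_sum_of_subset_of_nonneg h1 fun n _ _ => h2 n).trans
    ((Eul_E2nat P z hP hz _).trans ?_)
  exact mul_le_mul_of_nonneg_right (Nat.floor_le hx) (Real.exp_pos _).le

theorem Eul_smooth (z : ℕ → ℝ) (hz : ∀ r, 0 ≤ z r ∧ z r ≤ 1) (w : ℝ) (A : Finset ℕ)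
    (hA : ∀ n ∈ A, Sm w n) :
    ∑ n ∈ A, cm z n / n ≤ Real.exp (∑ r ∈ PL w, z r / r + 2) := by
  refine (E1 (PL w) z (fun r hr => ?_) A fun n hn =>
    ⟨(hA n hn).1, fun r hr hrn => mem_PL.2 ⟨hr, (hA n hn).2 r hr hrn⟩⟩).trans ?_
  · have h := (mem_PL.1 hr).1
    have h2 : (2 : ℝ) ≤ r := by exact_mod_cast h.two_le
    exact ⟨h, (hz r).1, by linarith [(hz r).2]⟩
  · rw [Real.exp_le_exp, sum_add_distrib, ← mul_sum]
    have h1 := sum_inv_sq_primes (A := PL w) fun p hp => (mem_PL.1 hp).1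
    have h2 : ∑ r ∈ PL w, (z r / r) ^ 2 ≤ ∑ r ∈ PL w, (1 / (r : ℝ)) ^ 2 :=
      sum_le_sum fun r _ => pow_le_pow_left₀ (div_nonneg (hz r).1 (Nat.cast_nonneg _))
        (div_le_div_of_nonneg_right (hz r).2 (Nat.cast_nonneg _)) 2
    linarith

/-- `E1` with `z = 1`, `P = PL s`. -/
theorem E6 {s : ℝ} (hs : 0 ≤ s) (A : Finset ℕ) (hA : ∀ n ∈ A, Sm s n) :
    ∑ n ∈ A, 1 / (n : ℝ) ≤ Real.exp (s + cM + 2) := by
  have h := Eul_smooth (fun _ => 1) (fun _ => ⟨zero_le_one, le_rfl⟩) s A hA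
  simp only [cm_const_one] at h
  refine h.trans (Real.exp_le_exp.2 ?_)
  linarith [mert_PL_le hs]

/-- `E1` for `0 ≤ z ≤ 1` and smooth numbers. -/
theorem E1' (z : ℕ → ℝ) (hz : ∀ r, 0 ≤ z r ∧ z r ≤ 1) (w : ℝ) (A : Finset ℕ)
    (hA : ∀ n ∈ A, Sm w n) :
    ∑ n ∈ A, cm z n / n ≤ Real.exp (∑ r ∈ PL w, z r / r + 2) :=
  Eul_smooth z hz w A hA

end Crest.Agent.R020
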