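import Crest.Agent.R020.Eul

set_option autoImplicit false

namespace Crest.Agent.R020

open Finset Filter Topology Crest.Agent.R008 Crest.Agent.R026 Crest.NumberTheoryR.TotientScale

theorem Eul2_sum_inv {y : ℝ} {P : Finset ℕ} (hP : ∀ r ∈ P, r.Prime ∧ (r : ℝ) ≤ y) :
    ∑ r ∈ P, 1 / (r : ℝ) ≤ LL y + cM := by
  refine le_trans (Finset.sum_le_sum fun r hr => ?_)
    (mert_up0 (LL_nonneg y) (A := P) fun r hr => ⟨(hP r hr).1, LL_mono ?_ (hP r hr).2⟩)
  · have h2 : (2 : ℝ) ≤ r := by exact_mod_cast (hP r hr).1.two_le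
    exact one_div_le_one_div_of_le (by linarith) (by linarith)
  · exact_mod_cast (hP r hr).1.one_le

theorem Eul2_exp : Real.exp (2 / 5) ≤ 3 / 2 := by
  have h1 : Real.exp (2 / 5) ^ 5 = Real.exp 1 ^ 2 := by
    rw [← Real.exp_nat_mul, ← Real.exp_nat_mul]; norm_num
  have h2 := Real.exp_one_lt_d9
  have h3 := Real.exp_pos 1
  refine le_of_not_gt fun h => ?_
  have h4 : (3 / 2 : ℝ) ^ 5 < Real.exp (2 / 5) ^ 5 := pow_lt_pow_left₀ h (by norm_num) (by norm_num)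
  rw [h1] at h4
  nlinarith

/-- Rankin's trick: with `η = u / log y ≤ 1/4`, `1 ≤ (y / n) ^ (1 - η)`, `y ^ (-η) = exp (-u)`;
`E1` with `z r = r ^ η ≤ e` (`cm_rpow`) on the primes `r ≤ y ^ (1 / u) ≤ y`;
`r ^ (1/4) ≤ 3 r / 4`. -/
theorem E3 : ∃ C : ℝ, 1 ≤ C ∧ ∀ (y u : ℝ) (A : Finset ℕ), 1 ≤ y → 1 ≤ u → u ≤ Real.log y / 4 →
    (∀ n ∈ A, n ≠ 0 ∧ (n : ℝ) ≤ y ∧ ∀ r : ℕ, r.Prime → r ∣ n → (r : ℝ) ≤ y ^ (1 / u)) →
    (A.card : ℝ) ≤ C * y * Real.exp (-u + 3 * LL y) := by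
  refine ⟨Real.exp (3 * cM + 18), Real.one_le_exp (by linarith [one_le_cM]), ?_⟩
  intro y u A hy hu hul hA
  have hL : 0 < Real.log y := by linarith
  have hy0 : 0 < y := by linarith
  have hu0 : 0 < u := by linarith
  set η : ℝ := u / Real.log y with hη
  have hη0 : 0 < η := div_pos hu0 hL
  have hη4 : η ≤ 1 / 4 := by rw [hη, div_le_iff₀ hL]; linarith
  have hyu : y ^ (1 / u) ≤ y := by
    conv_rhs => rw [← Real.rpow_one y]
    exact Real.rpow_le_rpow_of_exponent_le hy (by rw [div_le_one hu0]; exact hu)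
  have hyu0 : 0 ≤ y ^ (1 / u) := Real.rpow_nonneg hy0.le _
  set P : Finset ℕ := primesIoc 0 (y ^ (1 / u)) with hP
  have hPm : ∀ r ∈ P, r.Prime ∧ (r : ℝ) ≤ y ^ (1 / u) := fun r hr => by
    have := (mem_primesIoc le_rfl hyu0).1 hr
    exact ⟨this.1, this.2.2⟩
  have hz3 : ∀ r ∈ P, (r : ℝ) ^ η ≤ 3 := fun r hr => by
    have h1 : (r : ℝ) ^ η ≤ (y ^ (1 / u)) ^ η :=
      Real.rpow_le_rpow (Nat.cast_nonneg r) (hPm r hr).2 hη0.le
    have h2 : (y ^ (1 / u)) ^ η = Real.exp 1 := by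
      rw [← Real.rpow_mul hy0.le, Real.rpow_def_of_pos hy0, hη]
      congr 1
      field_simp
    have := Real.exp_one_lt_d9
    linarith
  have hE := E1 P (fun r => (r : ℝ) ^ η) (fun r hr => by
    refine ⟨(hPm r hr).1, Real.rpow_nonneg (Nat.cast_nonneg r) _, ?_⟩
    have h2 : (2 : ℝ) ≤ r := by exact_mod_cast (hPm r hr).1.two_le
    have h1 : (r : ℝ) ^ η ≤ (r : ℝ) ^ (1 / 4 : ℝ) :=
      Real.rpow_le_rpow_of_exponent_le (by linarith) hη4
    refine h1.trans ?_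
    have h3 : ((r : ℝ) ^ (1 / 4 : ℝ)) ^ 4 = r := by
      rw [← Real.rpow_natCast, ← Real.rpow_mul (by linarith)]; norm_num
    refine le_of_not_gt fun h => ?_
    have h4 : (3 / 4 * (r : ℝ)) ^ 4 < ((r : ℝ) ^ (1 / 4 : ℝ)) ^ 4 :=
      pow_lt_pow_left₀ h (by positivity) (by norm_num)
    rw [h3] at h4
    have h5 : (8 : ℝ) ≤ (r : ℝ) ^ 3 := by
      have := pow_le_pow_left₀ (by norm_num : (0 : ℝ) ≤ 2) h2 3
      norm_num at this ⊢
      linarith
    nlinarith) A (fun n hn => ⟨(hA n hn).1, fun r hr hd =>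
      (mem_primesIoc le_rfl hyu0).2 ⟨hr, by exact_mod_cast hr.pos, (hA n hn).2.2 r hr hd⟩⟩)
  have hS : ∑ r ∈ P, ((r : ℝ) ^ η / r + 2 * ((r : ℝ) ^ η / r) ^ 2) ≤ 3 * (LL y + cM) + 18 := by
    have h1 := Eul2_sum_inv (y := y) (P := P) fun r hr => ⟨(hPm r hr).1, (hPm r hr).2.trans hyu⟩
    have h2 := sum_inv_sq_primes (A := P) fun r hr => (hPm r hr).1
    calc ∑ r ∈ P, ((r : ℝ) ^ η / r + 2 * ((r : ℝ) ^ η / r) ^ 2)
        ≤ ∑ r ∈ P, (3 * (1 / (r : ℝ)) + 18 * (1 / (r : ℝ)) ^ 2) := by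
          refine Finset.sum_le_sum fun r hr => ?_
          have h0 : 0 ≤ (r : ℝ) ^ η := Real.rpow_nonneg (Nat.cast_nonneg r) _
          have h4 : 0 ≤ 1 / (r : ℝ) := by positivity
          have h5 : (r : ℝ) ^ η / r ≤ 3 * (1 / (r : ℝ)) := by
            rw [div_eq_mul_one_div]
            exact mul_le_mul_of_nonneg_right (hz3 r hr) h4
          have h6 : ((r : ℝ) ^ η / r) ^ 2 ≤ (3 * (1 / (r : ℝ))) ^ 2 :=
            pow_le_pow_left₀ (by positivity) h5 2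
          nlinarith
      _ = 3 * ∑ r ∈ P, 1 / (r : ℝ) + 18 * ∑ r ∈ P, (1 / (r : ℝ)) ^ 2 := by
          rw [Finset.sum_add_distrib, Finset.mul_sum, Finset.mul_sum]
      _ ≤ _ := by linarith
  have hcard : (A.card : ℝ) ≤ y * Real.exp (-u) * ∑ n ∈ A, cm (fun r => (r : ℝ) ^ η) n / n := by
    rw [Finset.mul_sum, Finset.card_eq_sum_ones, Nat.cast_sum]
    refine Finset.sum_le_sum fun n hn => ?_
    obtain ⟨hn0, hny, -⟩ := hA n hn
    have hnp : (0 : ℝ) < n := by exact_mod_cast Nat.pos_of_ne_zero hn0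
    rw [cm_rpow η hn0]
    have h1 : Real.exp (-u) = y ^ (-η) := by
      rw [Real.rpow_def_of_pos hy0, hη]
      congr 1
      field_simp
    have h2 : (1 : ℝ) ≤ (y / n) ^ (1 - η) :=
      Real.one_le_rpow (by rw [le_div_iff₀ hnp]; linarith) (by linarith)
    have h3 : (y / n) ^ (1 - η) = y * y ^ (-η) * ((n : ℝ) ^ η / n) := by
      rw [Real.div_rpow hy0.le hnp.le, Real.rpow_sub hy0, Real.rpow_sub hnp, Real.rpow_one,
        Real.rpow_one, Real.rpow_neg hy0.le]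
      have := Real.rpow_pos_of_pos hy0 η
      have := Real.rpow_pos_of_pos hnp η
      field_simp
    rw [h1, ← h3]
    simpa using h2
  calc (A.card : ℝ) ≤ y * Real.exp (-u) * Real.exp (3 * (LL y + cM) + 18) :=
        hcard.trans (mul_le_mul_of_nonneg_left (hE.trans (Real.exp_le_exp.2 hS)) (by positivity))
    _ = Real.exp (3 * cM + 18) * y * Real.exp (-u + 3 * LL y) := by
        rw [mul_assoc, ← Real.exp_add, mul_comm (Real.exp (3 * cM + 18)) y, mul_assoc,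
          ← Real.exp_add]
        congr 2
        ring

/-- `E2` with `z = 3/2` on the primes up to `x` (`cm_const`, `cm_congr`). -/
theorem E4 : ∃ C : ℝ, 1 ≤ C ∧ ∀ (x K : ℝ) (A : Finset ℕ), 1 ≤ x →
    (∀ n ∈ A, n ≠ 0 ∧ (n : ℝ) ≤ x ∧ K ≤ (n.primeFactorsList.length : ℝ)) →
    (A.card : ℝ) ≤ C * x * Real.exp (LL x - 2 / 5 * K) := by
  classical
  refine ⟨Real.exp (cM + 9), Real.one_le_exp (by linarith [one_le_cM]), ?_⟩
  intro x K A hx hA
  have hx0 : 0 < x := by linarith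
  set P : Finset ℕ := primesIoc 0 x with hP
  have hPm : ∀ r ∈ P, r.Prime ∧ (r : ℝ) ≤ x := fun r hr => by
    have := (mem_primesIoc le_rfl hx0.le).1 hr
    exact ⟨this.1, this.2.2⟩
  have hE := E2 P (fun r => if r ∈ P then 3 / 2 else 1) (fun r hr => by
    have h2 : (2 : ℝ) ≤ r := by exact_mod_cast (hPm r hr).1.two_le
    refine ⟨(hPm r hr).1, ?_, ?_⟩ <;> simp only [if_pos hr] <;> linarith)
    (fun r _ hr => if_neg hr) x hx0.le A (fun n hn => ⟨(hA n hn).1, (hA n hn).2.1⟩)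
  have hS : ∑ r ∈ P, (((if r ∈ P then (3 / 2 : ℝ) else 1) - 1) / r +
      4 * ((if r ∈ P then (3 / 2 : ℝ) else 1) / r) ^ 2) ≤ LL x + cM + 9 := by
    have h1 := Eul2_sum_inv (y := x) (P := P) hPm
    have h2 := sum_inv_sq_primes (A := P) fun r hr => (hPm r hr).1
    have h3 := LL_nonneg x
    have h4 := one_le_cM
    calc _ = ∑ r ∈ P, (1 / 2 * (1 / (r : ℝ)) + 9 * (1 / (r : ℝ)) ^ 2) := by
          refine Finset.sum_congr rfl fun r hr => ?_
          rw [if_pos hr]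
          ring
      _ = 1 / 2 * ∑ r ∈ P, 1 / (r : ℝ) + 9 * ∑ r ∈ P, (1 / (r : ℝ)) ^ 2 := by
          rw [Finset.sum_add_distrib, Finset.mul_sum, Finset.mul_sum]
      _ ≤ _ := by linarith
  have hcard : (A.card : ℝ) ≤ Real.exp (-(2 / 5 * K)) *
      ∑ n ∈ A, cm (fun r => if r ∈ P then (3 / 2 : ℝ) else 1) n := by
    rw [Finset.mul_sum, Finset.card_eq_sum_ones, Nat.cast_sum]
    refine Finset.sum_le_sum fun n hn => ?_
    obtain ⟨hn0, hnx, hK⟩ := hA n hn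
    have h1 : cm (fun r => if r ∈ P then (3 / 2 : ℝ) else 1) n = cm (fun _ => (3 / 2 : ℝ)) n := by
      refine cm_congr fun r hr hd => if_pos ?_
      refine (mem_primesIoc le_rfl hx0.le).2 ⟨hr, by exact_mod_cast hr.pos, le_trans ?_ hnx⟩
      exact_mod_cast Nat.le_of_dvd (Nat.pos_of_ne_zero hn0) hd
    rw [h1, cm_const]
    have h2 : Real.exp (2 / 5 * K) ≤ (3 / 2 : ℝ) ^ n.primeFactorsList.length := by
      calc Real.exp (2 / 5 * K) ≤ Real.exp (n.primeFactorsList.length * (2 / 5)) :=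
            Real.exp_le_exp.2 (by linarith)
        _ = Real.exp (2 / 5) ^ n.primeFactorsList.length := Real.exp_nat_mul _ _
        _ ≤ _ := pow_le_pow_left₀ (Real.exp_pos _).le Eul2_exp _
    have h3 := mul_le_mul_of_nonneg_left h2 (Real.exp_pos (-(2 / 5 * K))).le
    rw [← Real.exp_add] at h3
    simpa using h3
  calc (A.card : ℝ) ≤ Real.exp (-(2 / 5 * K)) * (x * Real.exp (LL x + cM + 9)) :=
        hcard.trans (mul_le_mul_of_nonneg_left (hE.trans (mul_le_mul_of_nonneg_left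
          (Real.exp_le_exp.2 hS) hx0.le)) (by positivity))
    _ = Real.exp (cM + 9) * x * Real.exp (LL x - 2 / 5 * K) := by
        rw [mul_left_comm, ← Real.exp_add, mul_comm (Real.exp (cM + 9)) x, mul_assoc,
          ← Real.exp_add]
        congr 2
        ring

theorem eul2_prod (n : ℕ) (A : Finset ℕ) (hn : n ≠ 0) (hA : ∀ p ∈ A, p.Prime ∧ p ∣ n) :
    Real.exp (∑ p ∈ A, 1 / ((p : ℝ) - 1)) ≤ Real.exp (cM + 1) * (LL n + 1) := by
  classical
  have hL := LL_nonneg (n : ℝ)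
  have hn1 : (1 : ℝ) ≤ n := by exact_mod_cast Nat.one_le_iff_ne_zero.2 hn
  have hw : 0 ≤ Real.log (LL n + 1) := Real.log_nonneg (by linarith)
  have hE1 : 1 ≤ Real.exp (LL n) := Real.one_le_exp hL
  have hcard : (A.card : ℝ) ≤ 3 / 2 * Real.exp (LL n) := by
    have h1 : 2 ^ A.card ≤ n :=
      (Finset.pow_card_le_prod A (fun p => p) 2 fun p hp => (hA p hp).1.two_le).trans
        (Nat.le_of_dvd (Nat.pos_of_ne_zero hn)
          (Finset.prod_primes_dvd n (fun p hp => (hA p hp).1.prime) fun p hp => (hA p hp).2))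
    have h2 : (A.card : ℝ) * Real.log 2 ≤ Real.log n := by
      rw [← Real.log_pow]
      exact Real.log_le_log (by positivity) (by exact_mod_cast h1)
    have h3 := log_le_exp_LL hn1
    have h4 := Real.log_two_gt_d9
    have h5 : (0 : ℝ) ≤ A.card := Nat.cast_nonneg _
    nlinarith
  have h1 : ∑ p ∈ A.filter (fun p : ℕ => LL p ≤ Real.log (LL n + 1)), 1 / ((p : ℝ) - 1) ≤
      Real.log (LL n + 1) + cM :=
    mert_up0 hw fun p hp => ⟨(hA p (mem_filter.1 hp).1).1, (mem_filter.1 hp).2⟩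
  have h2 : ∑ p ∈ A.filter (fun p : ℕ => ¬ LL p ≤ Real.log (LL n + 1)), 1 / ((p : ℝ) - 1) ≤ 1 := by
    have h3 : ∀ p ∈ A.filter (fun p : ℕ => ¬ LL p ≤ Real.log (LL n + 1)),
        1 / ((p : ℝ) - 1) ≤ 1 / (3 / 2 * Real.exp (LL n)) := by
      intro p hp
      obtain ⟨hp1, hp2⟩ := mem_filter.1 hp
      have h4 := exp_lt_of_LL (by exact_mod_cast (hA p hp1).1.one_le) hw (not_le.1 hp2)
      rw [Real.exp_log (by linarith), Real.exp_add] at h4
      have h5 := Real.exp_one_gt_d9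
      exact one_div_le_one_div_of_le (by positivity) (by nlinarith)
    refine (sum_le_card_nsmul _ _ _ h3).trans ?_
    rw [nsmul_eq_mul, mul_one_div, div_le_one (by positivity)]
    exact le_trans (by exact_mod_cast card_filter_le _ _) hcard
  rw [← sum_filter_add_sum_filter_not A (fun p : ℕ => LL p ≤ Real.log (LL n + 1))]
  calc _ ≤ Real.exp (cM + 1 + Real.log (LL n + 1)) := Real.exp_le_exp.2 (by linarith)
    _ = _ := by rw [Real.exp_add _ (Real.log _), Real.exp_log (by linarith)]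

/-- `n / φ n = ∏_{p ∣ n} (1 + 1 / (p - 1)) ≤ exp (∑ 1 / (p - 1))`; the primes `p ≤ 2 + log n`
contribute `≤ log (LL n + 1) + C` (`mert_up0`), the others at most `ω(n) / log n ≤ 2`. -/
theorem E7 : ∃ C : ℝ, 1 ≤ C ∧ ∀ n : ℕ, (n : ℝ) ≤ C * (LL n + 1) * Nat.totient n := by
  refine ⟨Real.exp (cM + 1), Real.one_le_exp (by linarith [one_le_cM]), fun n => ?_⟩
  rcases Nat.eq_zero_or_pos n with rfl | hn
  · simp
  have h1 := eul2_prod n n.primeFactors hn.ne' fun p hp =>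
    ⟨Nat.prime_of_mem_primeFactors hp, Nat.dvd_of_mem_primeFactors hp⟩
  have h2 : ∀ p ∈ n.primeFactors, (0 : ℝ) < (p : ℝ) - 1 := fun p hp => by
    have : (1 : ℝ) < p := by exact_mod_cast (Nat.prime_of_mem_primeFactors hp).one_lt
    linarith
  have h3 : (Nat.totient n : ℝ) * ∏ p ∈ n.primeFactors, (p : ℝ) =
      n * ∏ p ∈ n.primeFactors, ((p : ℝ) - 1) := by
    have := congrArg (Nat.cast : ℕ → ℝ) (Nat.totient_mul_prod_primeFactors n)
    rw [Nat.cast_mul, Nat.cast_mul, Nat.cast_prod, Nat.cast_prod] at this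
    rw [this]
    congr 1
    exact prod_congr rfl fun p hp => Nat.cast_pred (Nat.prime_of_mem_primeFactors hp).pos
  have h4 : ∏ p ∈ n.primeFactors, (p : ℝ) ≤ Real.exp (∑ p ∈ n.primeFactors, 1 / ((p : ℝ) - 1)) *
      ∏ p ∈ n.primeFactors, ((p : ℝ) - 1) := by
    rw [Real.exp_sum, ← prod_mul_distrib]
    refine prod_le_prod (fun p _ => Nat.cast_nonneg p) fun p hp => ?_
    have h5 := mul_le_mul_of_nonneg_right (Real.add_one_le_exp (1 / ((p : ℝ) - 1))) (h2 p hp).le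
    rw [add_mul, one_div_mul_cancel (h2 p hp).ne'] at h5
    linarith
  have h6 : 0 < ∏ p ∈ n.primeFactors, ((p : ℝ) - 1) := prod_pos h2
  refine le_of_mul_le_mul_right ?_ h6
  rw [← h3, mul_comm _ (Nat.totient n : ℝ), mul_assoc]
  exact mul_le_mul_of_nonneg_left (h4.trans (mul_le_mul_of_nonneg_right h1 h6.le)) (Nat.cast_nonneg _)

theorem E7_prod : ∃ C : ℝ, 1 ≤ C ∧ ∀ (n : ℕ) (A : Finset ℕ), n ≠ 0 →
    (∀ p ∈ A, p.Prime ∧ p ∣ n) → Real.exp (∑ p ∈ A, 1 / ((p : ℝ) - 1)) ≤ C * (LL n + 1) := by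
  exact ⟨Real.exp (cM + 1), Real.one_le_exp (by linarith [one_le_cM]), eul2_prod⟩

/-- Bootstrap: `LL n + 1 ≤ 2 √n` gives `n ≤ C x²`, hence `LL n ≤ LL x + C`. -/
theorem E7' : ∃ C : ℝ, 1 ≤ C ∧ ∀ (n : ℕ) (x : ℝ), 0 < n → (Nat.totient n : ℝ) ≤ x →
    (n : ℝ) ≤ C * x * (LL x + 1) := by
  obtain ⟨C, hC, h⟩ := E7
  have hL0 := LL_nonneg (2 * C)
  refine ⟨C * (LL (2 * C) + 3), by nlinarith, fun n x hn hx => ?_⟩
  have hn1 : (1 : ℝ) ≤ n := by exact_mod_cast hn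
  have hx1 : 1 ≤ x := le_trans (by exact_mod_cast Nat.totient_pos.2 hn) hx
  have hL := LL_nonneg (n : ℝ)
  have hLx := LL_nonneg x
  have h1 : (n : ℝ) ≤ C * (LL n + 1) * x :=
    (h n).trans (mul_le_mul_of_nonneg_left hx (by positivity))
  have hs : 0 < Real.sqrt n := Real.sqrt_pos.2 (by linarith)
  have hss : Real.sqrt n * Real.sqrt n = n := Real.mul_self_sqrt (by linarith)
  have h2 : LL n + 1 ≤ 2 * Real.sqrt n := by
    have h3 : LL n ≤ Real.log n :=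
      max_le (Real.log_nonneg hn1) (Real.log_le_self (Real.log_nonneg hn1))
    have h4 := Real.log_le_sub_one_of_pos hs
    rw [Real.log_sqrt (by linarith)] at h4
    linarith
  have h3 : Real.sqrt n ≤ 2 * C * x := by
    refine le_of_mul_le_mul_right ?_ hs
    have := mul_le_mul_of_nonneg_right (mul_le_mul_of_nonneg_left h2 (by linarith : 0 ≤ C))
      (by linarith : 0 ≤ x)
    linarith
  have h4 : 1 ≤ 2 * C * x := by nlinarith
  have h5 : LL n ≤ LL (2 * C * x) + 1 :=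
    LL_le_add_one h4 hn1 (by rw [← hss, sq]; exact mul_self_le_mul_self hs.le h3)
  have h6 : LL (2 * C * x) ≤ LL (2 * C) + LL x + 1 := by
    rcases le_total (2 * C) x with h7 | h7
    · have := LL_le_add_one hx1 h4 (by rw [sq]; exact mul_le_mul_of_nonneg_right h7 (by linarith))
      linarith
    · have := LL_le_add_one (by linarith : 1 ≤ 2 * C) h4
        (by rw [sq]; exact mul_le_mul_of_nonneg_left h7 (by linarith))
      linarith
  have h7 : LL n + 1 ≤ (LL (2 * C) + 3) * (LL x + 1) := by nlinarith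
  calc (n : ℝ) ≤ C * (LL n + 1) * x := h1
    _ ≤ C * ((LL (2 * C) + 3) * (LL x + 1)) * x := by gcongr
    _ = _ := by ring

end Crest.Agent.R020
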