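import Crest.Agent.R020.Vol

set_option autoImplicit false

namespace Crest.Agent.R020

open Finset Filter Topology Crest.Agent.R008 Crest.Agent.R026 Crest.NumberTheoryR.TotientScale

variable {ρ : ℝ}

theorem Fin_sandwich {F P ε : ℝ} (hP : 0 < P) (h : |F / P - 1| ≤ ε) :
    (1 - ε) * P ≤ F ∧ F ≤ (1 + ε) * P := by
  obtain ⟨h1, h2⟩ := abs_le.1 h
  exact ⟨(le_div_iff₀ hP).1 (by linarith), (div_le_iff₀ hP).1 (by linarith)⟩

theorem Fin_ratio {F A P ε : ℝ} (hP : 0 < P) (h0 : 0 ≤ ε) (h1 : ε ≤ 1 / 2)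
    (hF : (1 - ε) * P ≤ F ∧ F ≤ (1 + ε) * P) (hA : (1 - ε) * P ≤ A ∧ A ≤ (1 + ε) * P) :
    |F / A - 1| ≤ 4 * ε := by
  have h2 : P ≤ 2 * A := by nlinarith [hA.1]
  have hA0 : 0 < A := by linarith
  have h3 : ε * P ≤ ε * (2 * A) := mul_le_mul_of_nonneg_left h2 h0
  rw [abs_le, le_sub_iff_add_le, sub_le_iff_le_add, le_div_iff₀ hA0, div_le_iff₀ hA0]
  constructor <;> nlinarith [hF.1, hF.2, hA.1, hA.2]

theorem Fin_tendsto {f : ℝ → ℝ} (C : ℝ) (hC : 0 < C)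
    (h : ∀ ε : ℝ, 0 < ε → ε ≤ 1 / 6 → ∀ᶠ x in atTop, |f x - 1| ≤ C * ε) :
    Tendsto f atTop (𝓝 1) := by
  refine Metric.tendsto_nhds.2 fun δ hδ => ?_
  filter_upwards [h (min (1 / 6) (δ / (2 * C))) (lt_min (by norm_num) (by positivity))
    (min_le_left _ _)] with x hx
  rw [Real.dist_eq]
  calc _ ≤ C * min (1 / 6) (δ / (2 * C)) := hx
    _ ≤ C * (δ / (2 * C)) := mul_le_mul_of_nonneg_left (min_le_right _ _) hC.le
    _ = δ / 2 := by field_simp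
    _ < δ := by linarith

theorem Fin_m_le (h : Root ρ) : ∀ᶠ q in Fl ρ, (q.2 : ℝ) ≤ bigB q.1 ∧ 0 < bigB q.1 := by
  filter_upwards [ev_large h 1, ev_poly h 1 1] with q h1 h2
  have h3 : vr ρ ^ q.2 ≤ vr ρ ^ (10 * q.2) := vr_pow_mono h (by omega)
  have h4 : (0 : ℝ) ≤ q.2 := Nat.cast_nonneg _
  rw [one_mul, pow_one] at h2
  exact ⟨by linarith [h1.1], by linarith [h1.1]⟩

theorem Fin_vol {m : ℕ} {B B' : ℝ} (hB : 0 < B) (hm : (m : ℝ) ≤ B) :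
    Vol m B' ≤ Real.exp |B' - B| * Vol m B := by
  have h1 := Vol_add_le m hB (B' - B)
  rw [add_sub_cancel] at h1
  refine h1.trans (mul_le_mul_of_nonneg_right (Real.exp_le_exp.2 ?_) (Vol_nonneg _ _))
  rw [div_le_iff₀ hB]
  have h2 : (m : ℝ) * (B' - B) ≤ m * |B' - B| :=
    mul_le_mul_of_nonneg_left (le_abs_self _) (Nat.cast_nonneg _)
  nlinarith [abs_nonneg (B' - B)]

/-- Take `Ψ n` for `ε = 1 / (n + 2)`.  For `θ ∈ [0, 1)` the intervals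
`[(1 - ε_n) Ψ n θ, (1 + ε_n) Ψ n θ]` intersect pairwise (`exists_phase`, `tendsto_mIndex`), so
`A θ = ⨆ n, (1 - ε_n) Ψ n θ` lies in all of them; `Ψ 0` is bounded above and below on `[0, 1]`
(`IsCompact.exists_isMinOn`). -/
theorem fin27 (h : Root ρ) (F : ℝ × ℕ → ℝ)
    (hF : ∀ ε : ℝ, 0 < ε → ∃ Ψ : ℝ → ℝ, Continuous Ψ ∧ (∀ θ, 0 < Ψ θ) ∧
      ∀ᶠ q in Fl ρ, |F q / Ψ (phaseArg ρ q.1 - q.2) - 1| ≤ ε) :
    ∃ A : ℝ → ℝ, (∃ c₁ c₂ : ℝ, 0 < c₁ ∧ ∀ s ∈ Set.Ico (0 : ℝ) 1, c₁ ≤ A s ∧ A s ≤ c₂) ∧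
      Tendsto (fun x : ℝ => F (x, mIndex ρ x) / A (phase ρ x)) atTop (𝓝 1) := by
  choose! Ψ hc hp hev using hF
  have hev' : ∀ ε : ℝ, 0 < ε → ∀ᶠ x : ℝ in atTop,
      (1 - ε) * Ψ ε (phase ρ x) ≤ F (x, mIndex ρ x) ∧ F (x, mIndex ρ x) ≤ (1 + ε) * Ψ ε (phase ρ x) :=
    fun ε hε => ((tendsto_mIndex h).eventually (hev ε hε)).mono fun x hx =>
      Fin_sandwich (hp ε hε _) hx
  have hpair : ∀ θ ∈ Set.Ico (0 : ℝ) 1, ∀ ε ε' : ℝ, 0 < ε → 0 < ε' →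
      (1 - ε) * Ψ ε θ ≤ (1 + ε') * Ψ ε' θ := fun θ hθ ε ε' hε hε' => by
    obtain ⟨X, hX⟩ := eventually_atTop.1 ((hev' ε hε).and (hev' ε' hε'))
    obtain ⟨x, hx, rfl⟩ := exists_phase h hθ.1 hθ.2 X
    exact (hX x hx).1.1.trans (hX x hx).2.2
  have hA : ∀ θ ∈ Set.Ico (0 : ℝ) 1, ∀ ε : ℝ, 0 < ε →
      (1 - ε) * Ψ ε θ ≤ sSup ((fun ε => (1 - ε) * Ψ ε θ) '' Set.Ioi 0) ∧
        sSup ((fun ε => (1 - ε) * Ψ ε θ) '' Set.Ioi 0) ≤ (1 + ε) * Ψ ε θ := fun θ hθ ε hε => by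
    have hub : (1 + ε) * Ψ ε θ ∈ upperBounds ((fun ε => (1 - ε) * Ψ ε θ) '' Set.Ioi 0) := by
      rintro _ ⟨ε', hε', rfl⟩
      exact hpair θ hθ ε' ε hε' hε
    exact ⟨le_csSup ⟨_, hub⟩ ⟨ε, hε, rfl⟩, csSup_le ⟨_, ε, hε, rfl⟩ hub⟩
  refine ⟨fun θ => sSup ((fun ε => (1 - ε) * Ψ ε θ) '' Set.Ioi 0), ?_, ?_⟩
  · have h2 : (0 : ℝ) < 1 / 2 := by norm_num
    obtain ⟨a, -, ha⟩ := (isCompact_Icc (a := (0 : ℝ)) (b := 1)).exists_isMinOn
      ⟨0, by simp⟩ (hc _ h2).continuousOn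
    obtain ⟨b, -, hb⟩ := (isCompact_Icc (a := (0 : ℝ)) (b := 1)).exists_isMaxOn
      ⟨0, by simp⟩ (hc _ h2).continuousOn
    refine ⟨Ψ (1 / 2) a / 2, 2 * Ψ (1 / 2) b, half_pos (hp _ h2 a), fun s hs => ?_⟩
    have h3 := hA s hs _ h2
    have h4 : Ψ (1 / 2) a ≤ Ψ (1 / 2) s := ha (Set.Ico_subset_Icc_self hs)
    have h5 : Ψ (1 / 2) s ≤ Ψ (1 / 2) b := hb (Set.Ico_subset_Icc_self hs)
    have h6 := hp _ h2 s
    exact ⟨by linarith [h3.1], by linarith [h3.2]⟩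
  · refine Fin_tendsto 4 (by norm_num) fun ε hε hε' => ?_
    filter_upwards [hev' ε hε, ev_phase h] with x h1 h2
    exact Fin_ratio (hp ε hε _) hε.le (by linarith) h1 (hA _ h2 ε hε)

/-- `tendsto_mIndex_mul` for `c` and for `1`, `tendsto_phaseArg_mul`, and uniform continuity of
`log ∘ Ψ` on `[0, 3]`. -/
theorem fin26 (h : Root ρ) (F : ℝ × ℕ → ℝ)
    (hF : ∀ ε : ℝ, 0 < ε → ∃ Ψ : ℝ → ℝ, Continuous Ψ ∧ (∀ θ, 0 < Ψ θ) ∧
      ∀ᶠ q in Fl ρ, |F q / Ψ (phaseArg ρ q.1 - q.2) - 1| ≤ ε) {c : ℝ} (hc : 0 < c) :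
    Tendsto (fun x : ℝ => F (c * x, mIndex ρ x - 1) / F (x, mIndex ρ x - 1)) atTop (𝓝 1) := by
  refine Fin_tendsto 12 (by norm_num) fun ε hε hε' => ?_
  obtain ⟨Ψ, hΨ, hp, hev⟩ := hF ε hε
  have t1 := tendsto_mIndex_mul h hc
  have t2 := tendsto_mIndex_mul h one_pos
  simp only [one_mul] at t2
  obtain ⟨a, -, ha⟩ := (isCompact_Icc (a := (0 : ℝ)) (b := 3)).exists_isMinOn
    ⟨0, by simp⟩ hΨ.continuousOn
  obtain ⟨δ, hδ, hu⟩ := Metric.uniformContinuousOn_iff.1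
    ((isCompact_Icc (a := (0 : ℝ)) (b := 3)).uniformContinuousOn_of_continuous hΨ.continuousOn)
    (ε * Ψ a) (mul_pos hε (hp a))
  filter_upwards [t1.eventually hev, t2.eventually hev, t1.eventually (ev_Sc ρ),
    t2.eventually (ev_Sc ρ), Metric.tendsto_nhds.1 (tendsto_phaseArg_mul h hc) δ hδ]
    with x h1 h2 h3 h4 h5
  have h6 := hu _ h3 _ h4 (by rwa [dist_sub_right, Real.dist_eq, ← Real.dist_0_eq_abs])
  have h7 : Ψ a ≤ _ := ha h4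
  obtain ⟨h8, h9⟩ := Fin_sandwich (hp _) h1
  obtain ⟨h10, h11⟩ := Fin_sandwich (hp _) h2
  rw [Real.dist_eq, abs_lt] at h6
  have hP := hp (phaseArg ρ x - (mIndex ρ x - 1 : ℕ))
  generalize Ψ (phaseArg ρ x - (mIndex ρ x - 1 : ℕ)) = P at *
  generalize Ψ (phaseArg ρ (c * x) - (mIndex ρ x - 1 : ℕ)) = P' at *
  have h12 : ε * Ψ a ≤ ε * P := mul_le_mul_of_nonneg_left h7 hε.le
  have h13 : (1 - ε) * ((1 - ε) * P) ≤ (1 - ε) * P' :=
    mul_le_mul_of_nonneg_left (by linarith [h6.1]) (by linarith)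
  have h14 : (1 + ε) * P' ≤ (1 + ε) * ((1 + ε) * P) :=
    mul_le_mul_of_nonneg_left (by linarith [h6.2]) (by linarith)
  have h15 : 0 < ε * P := mul_pos hε hP
  have h16 : ε * (ε * P) ≤ 1 * (ε * P) := mul_le_mul_of_nonneg_right (by linarith) h15.le
  have h17 : 0 < ε * (ε * P) := mul_pos hε h15
  refine (Fin_ratio (ε := 3 * ε) hP (by linarith) (by linarith) ⟨?_, ?_⟩ ⟨?_, ?_⟩).trans
    (by linarith) <;> nlinarith

/-- `Vol m B' / Vol m B = (B' / B)^m`, `B' - B → 0` and `m ≤ B` (`ev_large`); compare with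
`Vol_add_le`, `Vol_sub_le`, or use `|m log (B' / B)| ≤ 2 |B' - B|`. -/
theorem scale_ratio (h : Root ρ) {c : ℝ} (hc : 0 < c) : Tendsto (fun x : ℝ =>
    (c * x / Real.log (c * x) * Vol (mIndex ρ x - 1) (bigB (c * x))) /
      (x / Real.log x * Vol (mIndex ρ x - 1) (bigB x))) atTop (𝓝 c) := by
  have h0 : Tendsto (fun x : ℝ => Real.log (c * x) / Real.log x) atTop (𝓝 1) := by
    have := (Real.tendsto_log_atTop.const_div_atTop (Real.log c)).add_const 1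
    rw [zero_add] at this
    refine this.congr' ?_
    filter_upwards [eventually_gt_atTop 1] with x hx
    have := Real.log_pos hx
    rw [Real.log_mul hc.ne' (by positivity)]
    field_simp
  have h1 : Tendsto (fun x : ℝ => |bigB (c * x) - bigB x|) atTop (𝓝 0) := by
    simpa only [abs_zero, bigB] using (Scale_log_step Real.tendsto_log_atTop h0).abs
  have t1 := (tendsto_mIndex_mul h hc).eventually (Fin_m_le h)
  have t2 := (tendsto_mIndex_mul h one_pos).eventually (Fin_m_le h)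
  simp only [one_mul] at t2
  have h2 : Tendsto (fun x : ℝ => Vol (mIndex ρ x - 1) (bigB (c * x)) /
      Vol (mIndex ρ x - 1) (bigB x)) atTop (𝓝 1) := by
    have hu : Tendsto (fun x : ℝ => Real.exp |bigB (c * x) - bigB x|) atTop (𝓝 1) := by
      simpa only [Real.exp_zero, Function.comp_def] using (Real.continuous_exp.tendsto 0).comp h1
    have hl := hu.inv₀ one_ne_zero
    rw [inv_one] at hl
    refine tendsto_of_tendsto_of_tendsto_of_le_of_le' hl hu ?_ ?_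
    · filter_upwards [t1, t2] with x h3 h4
      rw [le_div_iff₀ (Vol_pos _ h4.2), inv_mul_le_iff₀ (Real.exp_pos _), abs_sub_comm]
      exact Fin_vol h3.2 h3.1
    · filter_upwards [t2] with x h4
      rw [div_le_iff₀ (Vol_pos _ h4.2)]
      exact Fin_vol h4.2 h4.1
  have h3 := ((h0.inv₀ one_ne_zero).mul h2).const_mul c
  rw [inv_one, one_mul, mul_one] at h3
  refine h3.congr' ?_
  filter_upwards [eventually_gt_atTop 0] with x hx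
  rw [mul_div_mul_comm, ← mul_assoc]
  congr 1
  rw [div_div_div_comm, mul_div_assoc, div_self hx.ne', mul_one, div_eq_mul_inv c]

end Crest.Agent.R020
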