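import Crest.Agent.R020.Sv
import Crest.Agent.R020.Bas2

set_option autoImplicit false

namespace Crest.Agent.R020

open Finset Filter Topology Crest.Agent.R008 Crest.Agent.R026 Crest.NumberTheoryR.TotientScale

theorem npAux_log {l : ℝ} (h : 90000 ≤ l) : 1 ≤ Real.log l ∧ Real.log l ≤ l / 150 := by
  constructor
  · rw [Real.le_log_iff_exp_le (by linarith)]
    linarith [Real.exp_one_lt_d9]
  · have h1 : 300 ≤ √l := Real.le_sqrt_of_sq_le (by linarith)
    have h2 : √l * √l = l := Real.mul_self_sqrt (by linarith)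
    have h3 : Real.log l = 2 * Real.log (√l) := by
      conv_lhs => rw [← h2]
      rw [Real.log_mul (by linarith) (by linarith)]; ring
    have h4 := Real.log_le_sub_one_of_pos (show 0 < √l by linarith)
    nlinarith

theorem npAux_dev {Δ y : ℝ} {p a r : ℕ} (hp : p.Prime) (hr : r.Prime) (h : p - 1 = a * r)
    (hy : 1 ≤ y) (h1 : (p : ℝ) ≤ y) (h2 : y ≤ (p : ℝ) ^ 2) (hN : ¬ Normal Δ p) :
    Sm (LL y) a ∧ ∃ w, 0 ≤ w ∧ Δ - 3 + 1 ≤ |Nw a w - min w (LL y)| := by
  have hp1 : (1 : ℝ) ≤ p := by exact_mod_cast hp.one_le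
  have l1 := LL_mono hp1 h1
  have l2 := LL_le_add_one hp1 hy h2
  have hs : Sm (LL y) a := (sm_pred hp l1).of_dvd ⟨r, h⟩
  refine ⟨hs, ?_⟩
  unfold Normal at hN
  push Not at hN
  obtain ⟨w, hw, hd⟩ := hN
  refine ⟨w, hw, ?_⟩
  rw [h, Nw_mul hs.1 hr.ne_zero, Nw_prime hr] at hd
  have i0 := ind_nonneg (LL r ≤ w)
  have i1 := ind_le_one (LL r ≤ w)
  have m1 : min w (LL p) ≤ min w (LL y) := min_le_min_left _ l1
  have m2 : min w (LL y) ≤ min w (LL p) + 1 := by
    rcases le_total w (LL p) with g | g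
    · rw [min_eq_left g]; linarith [min_le_left w (LL y)]
    · rw [min_eq_right g]; linarith [min_le_right w (LL y)]
  rcases lt_abs.1 hd with g | g
  · exact le_abs.2 (Or.inl (by linarith))
  · exact le_abs.2 (Or.inr (by linarith))

theorem npAux_fib : ∃ C : ℝ, 1 ≤ C ∧ ∀ (y u s : ℝ) (a : ℕ) (S : Finset ℕ), 1 < y → 0 < u → 1 ≤ a →
    0 ≤ s → LL a ≤ s →
    (∀ r ∈ S, r.Prime ∧ (a * r + 1).Prime ∧ ((a * r : ℕ) : ℝ) ≤ y ∧ y ^ (1 / u) < r) →
    ∑ _r ∈ S, (a : ℝ) ≤ C * (s + 1) * (y * u ^ 2 / Real.log y ^ 2) := by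
  obtain ⟨C, hC, h⟩ := SV2
  refine ⟨C, hC, fun y u s a S hy hu ha hs hl hS => ?_⟩
  rcases S.eq_empty_or_nonempty with rfl | ⟨r₀, hr₀⟩
  · rw [sum_empty]; positivity
  have ha' : (0 : ℝ) < a := by exact_mod_cast ha
  have hle : ∀ r ∈ S, (r : ℝ) ≤ y / a := fun r hr => by
    have := (hS r hr).2.2.1
    rw [le_div_iff₀ ha', mul_comm]
    exact_mod_cast this
  have h2 : (2 : ℝ) ≤ y / a := le_trans (by exact_mod_cast (hS r₀ hr₀).1.two_le) (hle r₀ hr₀)
  have h3 := h a (y / a) S ha h2 fun r hr => ⟨(hS r hr).1, hle r hr, (hS r hr).2.1⟩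
  have hly := Real.log_pos hy
  have h4 : Real.log y / u ≤ Real.log (y / a) := by
    have := Real.log_le_log (by positivity) ((hS r₀ hr₀).2.2.2.le.trans (hle r₀ hr₀))
    rwa [Real.log_rpow (by linarith), one_div, mul_comm, ← div_eq_mul_inv] at this
  have h5 : y / a / Real.log (y / a) ^ 2 ≤ y / a / (Real.log y / u) ^ 2 :=
    div_le_div_of_nonneg_left (by positivity) (by positivity)
      (pow_le_pow_left₀ (by positivity) h4 2)
  rw [sum_const, nsmul_eq_mul]
  calc (S.card : ℝ) * a ≤ C * (s + 1) * (y / a / (Real.log y / u) ^ 2) * a := by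
        refine mul_le_mul_of_nonneg_right (h3.trans ?_) ha'.le
        have := LL_nonneg a
        exact mul_le_mul (by gcongr) h5 (by positivity) (by positivity)
    _ = _ := by field_simp

end Crest.Agent.R020
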