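import Crest.Agent.R020.Sv
import Crest.Agent.R020.Bas2

set_option autoImplicit false

namespace Crest.Agent.R020

open Finset Filter Topology Crest.Agent.R008 Crest.Agent.R026 Crest.NumberTheoryR.TotientScale

theorem npAux0_min {s' : ℝ} {a : ℕ} (h : Sm s' a) (w : ℝ) : Nw a w = Nw a (min w s') := by
  rcases le_total w s' with h1 | h1
  · rw [min_eq_left h1]
  · rw [min_eq_right h1, Nw_smooth h h1]

theorem npAux0_ind {μ s' : ℝ} (h : μ ≤ s') :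
    ∑ r ∈ PL s', ind (LL r ≤ μ) * (1 / (r : ℝ)) = ∑ r ∈ PL μ, 1 / (r : ℝ) := by
  classical
  rw [sum_ind_mul]
  refine sum_congr ?_ fun _ _ => rfl
  ext r
  simp only [mem_filter, mem_PL]
  exact ⟨fun hr => ⟨hr.1.1, hr.2⟩, fun hr => ⟨⟨hr.1, hr.2.trans h⟩, hr.2⟩⟩

/-- The tilted sum. -/
theorem npAux0_tilt {t μ s' : ℝ} (ht : |t| ≤ 1 / 4) (hμ : 0 ≤ μ) (hs : μ ≤ s') (A : Finset ℕ)
    (hA : ∀ a ∈ A, Sm s' a) :
    ∑ a ∈ A, Real.exp (t * Nw a μ) / a ≤ Real.exp (s' + (t + t ^ 2) * μ + (2 * cM + 5)) := by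
  have h1 : |Real.exp t - 1| ≤ 1 / 2 := by
    have := Real.abs_exp_sub_one_le (x := t) (by linarith)
    linarith
  have h2 : Real.exp t - 1 ≤ t + t ^ 2 := by
    have := (abs_le.1 (Real.abs_exp_sub_one_sub_id_le (x := t) (by linarith))).2
    linarith
  have hz : ∀ r : ℕ, Real.exp (t * ind (LL r ≤ μ)) = 1 + (Real.exp t - 1) * ind (LL r ≤ μ) := by
    intro r
    by_cases h : LL r ≤ μ
    · rw [ind_pos h]; simp
    · rw [ind_neg h]; simp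
  have hz' : ∀ r : ℕ, Real.exp (t * ind (LL r ≤ μ)) ≤ 3 / 2 := by
    intro r
    have := (abs_le.1 h1).2
    by_cases h : LL r ≤ μ
    · rw [ind_pos h, mul_one]; linarith
    · rw [ind_neg h, mul_zero, Real.exp_zero]; norm_num
  have h3 := E1 (PL s') (fun r => Real.exp (t * ind (LL r ≤ μ))) (fun r hr => by
      have h2r : (2 : ℝ) ≤ r := by exact_mod_cast (mem_PL.1 hr).1.two_le
      exact ⟨(mem_PL.1 hr).1, (Real.exp_pos _).le, (hz' r).trans (by linarith)⟩) A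
    fun a ha => ⟨(hA a ha).1, fun r hr hra => mem_PL.2 ⟨hr, (hA a ha).2 r hr hra⟩⟩
  refine le_trans (le_of_eq (sum_congr rfl fun a _ => ?_)) (h3.trans (Real.exp_le_exp.2 ?_))
  · rw [cm_exp, Nw, mul_sum]
    simp only [mul_assoc]
  · rw [sum_add_distrib]
    have e1 : ∑ r ∈ PL s', Real.exp (t * ind (LL r ≤ μ)) / (r : ℝ) =
        ∑ r ∈ PL s', 1 / (r : ℝ) + (Real.exp t - 1) * ∑ r ∈ PL μ, 1 / (r : ℝ) := by
      rw [← npAux0_ind hs, mul_sum, ← sum_add_distrib]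
      exact sum_congr rfl fun r _ => by rw [hz]; ring
    have e2 : ∑ r ∈ PL s', 2 * (Real.exp (t * ind (LL r ≤ μ)) / (r : ℝ)) ^ 2 ≤
        ∑ r ∈ PL s', 5 * (1 / (r : ℝ)) ^ 2 := sum_le_sum fun r _ => by
      have h4 : Real.exp (t * ind (LL r ≤ μ)) ^ 2 ≤ (3 / 2) ^ 2 :=
        pow_le_pow_left₀ (Real.exp_pos _).le (hz' r) 2
      rw [div_eq_mul_one_div, mul_pow, ← mul_assoc]
      exact mul_le_mul_of_nonneg_right (by linarith) (sq_nonneg _)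
    rw [← mul_sum _ _ (5 : ℝ)] at e2
    have e3 := sum_inv_sq_primes (A := PL s') fun p hp => (mem_PL.1 hp).1
    have e4 := mert_PL_le (hμ.trans hs)
    have e5 : |∑ r ∈ PL μ, 1 / (r : ℝ) - μ| ≤ cM :=
      abs_le.2 ⟨by linarith [mert_PL_ge μ], by linarith [mert_PL_le hμ]⟩
    have e6 : (Real.exp t - 1) * (∑ r ∈ PL μ, 1 / (r : ℝ) - μ) ≤ 1 / 2 * cM :=
      (le_abs_self _).trans (by
        rw [abs_mul]
        exact mul_le_mul h1 e5 (abs_nonneg _) (by norm_num))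
    have e7 := mul_le_mul_of_nonneg_right h2 hμ
    have e8 := one_le_cM
    rw [mul_sub] at e6
    rw [e1]
    linarith

theorem npAux0_side {t μ s' E : ℝ} (ht : |t| ≤ 1 / 4) (hμ : 0 ≤ μ) (hs : μ ≤ s') (A : Finset ℕ)
    (hA : ∀ a ∈ A, Sm s' a ∧ E ≤ t * (Nw a μ - μ)) :
    ∑ a ∈ A, 1 / (a : ℝ) ≤ Real.exp (2 * cM + 5) * Real.exp (s' + t ^ 2 * μ - E) := by
  have h := npAux0_tilt ht hμ hs A fun a ha => (hA a ha).1
  calc ∑ a ∈ A, 1 / (a : ℝ)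
      ≤ ∑ a ∈ A, Real.exp (-(t * μ) - E) * (Real.exp (t * Nw a μ) / a) := sum_le_sum fun a ha => by
        rw [← mul_div_assoc, ← Real.exp_add]
        refine div_le_div_of_nonneg_right (Real.one_le_exp ?_) (Nat.cast_nonneg _)
        have := (hA a ha).2
        linarith
    _ ≤ Real.exp (-(t * μ) - E) * Real.exp (s' + (t + t ^ 2) * μ + (2 * cM + 5)) := by
        rw [← mul_sum]
        exact mul_le_mul_of_nonneg_left h (Real.exp_pos _).le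
    _ = _ := by
        rw [← Real.exp_add, ← Real.exp_add]
        congr 1
        ring

theorem npAux0_NP0 : ∃ C : ℝ, 1 ≤ C ∧ ∀ (s s' w D : ℝ) (A : Finset ℕ), 0 ≤ w → 0 ≤ s' → s' ≤ s →
    0 < s → 0 ≤ D → D ≤ s → (∀ a ∈ A, Sm s' a ∧ D ≤ |Nw a w - min w s'|) →
    ∑ a ∈ A, 1 / (a : ℝ) ≤ C * Real.exp (s' - D ^ 2 / (8 * s)) := by
  have hC : 1 ≤ Real.exp (2 * cM + 5) := Real.one_le_exp (by linarith [one_le_cM])
  refine ⟨2 * Real.exp (2 * cM + 5), by linarith, fun s s' w D A hw hs' hs hs0 hD hDs hA => ?_⟩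
  set μ := min w s' with hμ
  have hμ0 : 0 ≤ μ := le_min hw hs'
  have hμ1 : μ ≤ s' := min_le_right _ _
  set θ := D / (4 * s) with hθ
  have hθ0 : 0 ≤ θ := by positivity
  have hθ1 : θ ≤ 1 / 4 := by rw [hθ, div_le_div_iff₀ (by positivity) (by norm_num)]; linarith
  have hE : s' + θ ^ 2 * μ - θ * D ≤ s' - D ^ 2 / (8 * s) := by
    have h1 : θ ^ 2 * μ ≤ θ ^ 2 * s := mul_le_mul_of_nonneg_left (hμ1.trans hs) (sq_nonneg _)
    have h2 : θ ^ 2 * s = D ^ 2 / (8 * s) / 2 := by rw [hθ]; field_simp; ring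
    have h3 : θ * D = 2 * (D ^ 2 / (8 * s)) := by rw [hθ]; field_simp; ring
    have h4 : 0 ≤ D ^ 2 / (8 * s) := by positivity
    linarith
  have hB := mul_le_mul_of_nonneg_left (Real.exp_le_exp.2 hE) (Real.exp_pos (2 * cM + 5)).le
  rw [two_mul, add_mul]
  refine sum_le_add_cover A _ (fun a => D ≤ Nw a μ - μ) _ _ (fun A₁ h1 hP => ?_) fun A₁ h1 hP => ?_
  · refine (npAux0_side (t := θ) (by rwa [abs_of_nonneg hθ0]) hμ0 hμ1 A₁ fun a ha =>
      ⟨(hA a (h1 ha)).1, mul_le_mul_of_nonneg_left (hP a ha) hθ0⟩).trans hB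
  · refine (npAux0_side (t := -θ) (E := θ * D) (by rwa [abs_neg, abs_of_nonneg hθ0]) hμ0 hμ1 A₁
      fun a ha => ⟨(hA a (h1 ha)).1, ?_⟩).trans (by rwa [neg_sq])
    have h2 := (hA a (h1 ha)).2
    rw [npAux0_min (hA a (h1 ha)).1] at h2
    have h3 := (le_abs.1 h2).resolve_left (hP a ha)
    rw [neg_mul, ← mul_neg]
    exact mul_le_mul_of_nonneg_left h3 hθ0

theorem npAux0_NP0' : ∃ C : ℝ, 1 ≤ C ∧ ∀ (s s' D : ℝ) (A : Finset ℕ), 0 ≤ s' → s' ≤ s → 0 < s →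
    0 ≤ D → D ≤ s → (∀ a ∈ A, Sm s' a ∧ ∃ w, 0 ≤ w ∧ D + 1 ≤ |Nw a w - min w s'|) →
    ∑ a ∈ A, 1 / (a : ℝ) ≤ C * (s + 2) * Real.exp (s' - D ^ 2 / (8 * s)) := by
  obtain ⟨C, hC, h⟩ := npAux0_NP0
  refine ⟨C, hC, fun s s' D A hs' hs hs0 hD hDs hA => ?_⟩
  refine (sum_le_sum_cover A (range (⌊s'⌋₊ + 2)) _ (fun a _ => by positivity)
    (fun i a => D ≤ |Nw a i - min (i : ℝ) s'|) (fun a ha => ?_)
    (fun _ => C * Real.exp (s' - D ^ 2 / (8 * s))) fun i _ B hB hP =>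
      h s s' i D B (Nat.cast_nonneg _) hs' hs hs0 hD hDs fun a ha =>
        ⟨(hA a (hB ha)).1, hP a ha⟩).trans ?_
  · obtain ⟨h1, w, hw, h2⟩ := hA a ha
    rw [npAux0_min h1] at h2
    set μ := min w s' with hμ
    have hμ0 : 0 ≤ μ := le_min hw hs'
    have hμ1 : μ ≤ s' := min_le_right _ _
    have h3 : ⌊μ⌋₊ ≤ ⌊s'⌋₊ := Nat.floor_mono hμ1
    have h4 := Nat.floor_le hμ0
    have h5 := Nat.lt_floor_add_one μ
    rcases le_abs.1 h2 with h6 | h6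
    · refine ⟨⌊μ⌋₊ + 1, mem_range.2 (by omega), le_abs.2 (Or.inl ?_)⟩
      push_cast
      have h7 := Nw_mono a h5.le
      have h8 := min_le_left ((⌊μ⌋₊ : ℝ) + 1) s'
      linarith
    · refine ⟨⌊μ⌋₊, mem_range.2 (by omega), le_abs.2 (Or.inr ?_)⟩
      have h7 := Nw_mono a h4
      rw [min_eq_left (h4.trans hμ1)]
      linarith
  · rw [sum_const, card_range, nsmul_eq_mul, ← mul_assoc, mul_comm _ C]
    refine mul_le_mul_of_nonneg_right (mul_le_mul_of_nonneg_left ?_ (by linarith))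
      (Real.exp_pos _).le
    push_cast
    linarith [Nat.floor_le hs']

end Crest.Agent.R020
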