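import Crest.Agent.R020.Sv
import Crest.Agent.R020.Bas2
import Crest.Agent.R020.Scale
import Crest.Agent.R020.NPAux
import Crest.Agent.R020.NPAux0

set_option autoImplicit false

namespace Crest.Agent.R020

open Finset Filter Topology Crest.Agent.R008 Crest.Agent.R026 Crest.NumberTheoryR.TotientScale

/-- Chernoff bound.  Put `μ = min w s'`, `θ = D / (4 s) ≤ 1/4`; on `A` one has
`Nw a w = Nw a μ`.  For the upper deviation use `1 ≤ exp (θ (Nw a μ - μ - D))` and `E1` with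
`z r = exp (θ ind (LL r ≤ μ))` (`cm_exp`; `exp (1/4) ≤ 3/2`), `P = PL s'`:
`∑ z r / r ≤ s' + cM + (e^θ - 1) (μ + cM)`; for the lower deviation `-θ` and `mert_PL_ge`.
`e^(±θ) - 1 ∓ θ ≤ θ²`. -/
theorem NP0 : ∃ C : ℝ, 1 ≤ C ∧ ∀ (s s' w D : ℝ) (A : Finset ℕ), 0 ≤ w → 0 ≤ s' → s' ≤ s → 0 < s →
    0 ≤ D → D ≤ s → (∀ a ∈ A, Sm s' a ∧ D ≤ |Nw a w - min w s'|) →
    ∑ a ∈ A, 1 / (a : ℝ) ≤ C * Real.exp (s' - D ^ 2 / (8 * s)) :=
  npAux0_NP0

/-- All scales at once: if the deviation at `w` exceeds `D + 1`, then so does, up to `1`, the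
deviation at `⌊w'⌋₊` or `⌊w'⌋₊ + 1`, where `w' = min w s'` (`Nw_mono`, `Nw_smooth`). -/
theorem NP0' : ∃ C : ℝ, 1 ≤ C ∧ ∀ (s s' D : ℝ) (A : Finset ℕ), 0 ≤ s' → s' ≤ s → 0 < s →
    0 ≤ D → D ≤ s → (∀ a ∈ A, Sm s' a ∧ ∃ w, 0 ≤ w ∧ D + 1 ≤ |Nw a w - min w s'|) →
    ∑ a ∈ A, 1 / (a : ℝ) ≤ C * (s + 2) * Real.exp (s' - D ^ 2 / (8 * s)) :=
  npAux0_NP0'

/-- Non-normal primes are rare.  By `normal_of_le` we may assume `y > 2 ^ Δ`.  Put
`u = 20 LL y + Δ² / (16 s) ≤ min (log y / 4) (21 s)`.  Discard `p ≤ √y` and the `p` with `p - 1`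
`y^(1/u)`-smooth (`E3`).  Otherwise `p - 1 = a r` with a prime `r > y^(1/u)`; given `a` there
are at most `C (s + 1) (y / a) u² / log² y` choices (`SV2` at `y / a ≥ r`), and since
`LL y - 1 ≤ LL p ≤ LL y`, `Nw (p - 1) w - Nw a w ∈ {0, 1}`, the number `a` satisfies the
hypothesis of `NP0'` with `s' = LL y`, `D = Δ - 3 ≥ Δ / 2`. -/
theorem NP1 : ∃ C : ℝ, 1 ≤ C ∧ ∀ (Δ s y : ℝ) (A : Finset ℕ), C ≤ Δ → Δ ≤ s → 2 ≤ y → LL y ≤ s →
    (∀ p ∈ A, p.Prime ∧ (p : ℝ) ≤ y ∧ ¬ Normal Δ p) →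
    (A.card : ℝ) ≤ C * s ^ 5 * Real.exp (-(Δ ^ 2 / (C * s))) * (y / Real.log y) := by
  obtain ⟨C₀, hC₀, h₀⟩ := NP0'
  obtain ⟨C₂, hC₂, h₂⟩ := npAux_fib
  obtain ⟨C₃, hC₃, h₃⟩ := E3
  have hCC : 0 ≤ C₀ * C₂ := by positivity
  refine ⟨200000 + C₃ + 2646 * (C₀ * C₂), by linarith, fun Δ s y A hΔ hs hy hL hA => ?_⟩
  set C := 200000 + C₃ + 2646 * (C₀ * C₂) with hC
  have hΔ0 : 200000 ≤ Δ := by linarith
  have hs1 : 1 ≤ s := by linarith
  have hy0 : 0 < y := by linarith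
  have hl0 : 0 < Real.log y := Real.log_pos (by linarith)
  rcases A.eq_empty_or_nonempty with rfl | ⟨p₀, hp₀⟩
  · rw [card_empty, Nat.cast_zero]; positivity
  have hΔl : 0.69 * Δ ≤ Real.log y := by
    have h1 : (2 : ℝ) ^ Δ < y := by
      by_contra hc
      exact (hA p₀ hp₀).2.2 (normal_of_le (hA p₀ hp₀).1.one_le
        ((hA p₀ hp₀).2.1.trans (not_lt.1 hc)))
    have h2 := Real.log_le_log (by positivity) h1.le
    rw [Real.log_rpow two_pos] at h2
    nlinarith [Real.log_two_gt_d9]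
  obtain ⟨k1, k2⟩ := npAux_log (l := Real.log y) (by linarith)
  have hLL : LL y = Real.log (Real.log y) := max_eq_right (by linarith)
  set l := Real.log y with hl
  set X := Δ ^ 2 / s with hX
  have hX0 : 0 ≤ X := by positivity
  have hXΔ : X ≤ Δ := by rw [hX, div_le_iff₀ (by linarith)]; nlinarith
  set G := Real.exp (-(X / 32)) * (y / l) with hG
  have hG' : G = Real.exp (l - LL y - X / 32) := by
    rw [hG, hLL, Real.exp_sub, Real.exp_sub, Real.exp_log hl0, hl, Real.exp_log hy0, Real.exp_neg]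
    field_simp
  have hG0 : 0 < G := by positivity
  set u := 20 * LL y + X / 16 with hu
  have hu1 : 1 ≤ u := by rw [hu, hLL]; linarith
  have hu2 : u ≤ l / 4 := by rw [hu, hLL]; linarith
  have hu3 : u ≤ 21 * s := by rw [hu]; linarith
  have key : ∑ _p ∈ A, (1 : ℝ) ≤ G + (C₃ * G + 2646 * (C₀ * C₂) * s ^ 4 * G) := by
    refine sum_le_add_cover A _ (fun p => (p : ℝ) ^ 2 < y) _ _ (fun A₁ h1 hP => ?_)
      fun A₁ h1 hP => sum_le_add_cover A₁ _
        (fun p => ∀ r : ℕ, r.Prime → r ∣ p - 1 → (r : ℝ) ≤ y ^ (1 / u)) _ _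
        (fun A₂ h2 hQ => ?_) fun A₂ h2 hQ => ?_
    · have h4 : A₁ ⊆ Ioc 0 ⌊Real.exp (l / 2)⌋₊ := fun p hp => by
        refine mem_Ioc.2 ⟨(hA p (h1 hp)).1.pos, Nat.le_floor ?_⟩
        refine le_of_sq_le_sq (((hP p hp).le).trans (le_of_eq ?_)) (Real.exp_pos _).le
        rw [← Real.exp_nat_mul, show ((2 : ℕ) : ℝ) * (l / 2) = l by push_cast; ring, hl,
          Real.exp_log hy0]
      have h5 : (A₁.card : ℝ) ≤ ⌊Real.exp (l / 2)⌋₊ := by
        have := card_le_card h4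
        rw [Nat.card_Ioc] at this
        exact_mod_cast this
      rw [sum_const, nsmul_eq_mul, mul_one, hG']
      refine h5.trans ((Nat.floor_le (Real.exp_pos _).le).trans (Real.exp_le_exp.2 ?_))
      rw [hLL]; linarith
    · have hinj : Set.InjOn (fun p => p - 1) (A₂ : Set ℕ) := fun a ha b hb hab => by
        have := (hA a (h1 (h2 ha))).1.pos
        have := (hA b (h1 (h2 hb))).1.pos
        simp only at hab
        omega
      have h4 := h₃ y u (A₂.image (fun p => p - 1)) (by linarith) hu1 hu2 fun n hn => by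
        obtain ⟨p, hp, rfl⟩ := mem_image.1 hn
        obtain ⟨a1, a2, -⟩ := hA p (h1 (h2 hp))
        refine ⟨by have := a1.two_le; omega, le_trans ?_ a2, hQ p hp⟩
        exact_mod_cast Nat.sub_le _ _
      rw [card_image_of_injOn hinj] at h4
      rw [sum_const, nsmul_eq_mul, mul_one, hG']
      refine h4.trans ?_
      rw [mul_assoc]
      refine mul_le_mul_of_nonneg_left ?_ (by linarith)
      rw [← Real.exp_log hy0, ← Real.exp_add, Real.exp_log hy0]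
      refine Real.exp_le_exp.2 ?_
      have := LL_nonneg y
      rw [hu]; linarith
    · push Not at hQ
      choose! r hr using hQ
      have hd : ∀ p ∈ A₂, p - 1 = (p - 1) / r p * r p := fun p hp =>
        (Nat.div_mul_cancel (hr p hp).2.1).symm
      refine sum_le_of_inj A₂ (fun p => ((p - 1) / r p, r p)) (fun a ha b hb hab => ?_) _
        (fun e => 1 / (e.1 : ℝ) * (e.1 : ℝ)) (fun p hp => ?_)
        (fun e => (Sm (LL y) e.1 ∧ ∃ w, 0 ≤ w ∧ Δ - 3 + 1 ≤ |Nw e.1 w - min w (LL y)|) ∧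
          LL e.1 ≤ s ∧ e.2.Prime ∧ (e.1 * e.2 + 1).Prime ∧ ((e.1 * e.2 : ℕ) : ℝ) ≤ y ∧
          y ^ (1 / u) < e.2) (fun p hp => ?_) _ fun S hS => ?_
      · have := (hA a (h1 (h2 ha))).1.pos
        have := (hA b (h1 (h2 hb))).1.pos
        have e1 := hd a ha
        have e2 := hd b hb
        obtain ⟨e3, e4⟩ := Prod.mk.inj hab
        rw [e3, e4] at e1
        omega
      · have h5 : (p - 1) / r p ≠ 0 := fun h0 => by
          have := hd p hp
          have := (hA p (h1 (h2 hp))).1.two_le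
          rw [h0] at *
          omega
        dsimp only
        rw [one_div, inv_mul_cancel₀ (by exact_mod_cast h5)]
      · obtain ⟨a1, a2, a3⟩ := hA p (h1 (h2 hp))
        have b1 : (p - 1) / r p ≤ p := (Nat.div_le_self _ _).trans (Nat.sub_le _ _)
        have b2 : LL p ≤ s := (LL_mono (by exact_mod_cast a1.one_le) a2).trans hL
        refine ⟨npAux_dev a1 (hr p hp).1 (hd p hp) (by linarith) a2 (not_lt.1 (hP p (h2 hp))) a3,
          (LL_mono_nat b1).trans b2, (hr p hp).1, ?_, ?_, (hr p hp).2.2⟩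
        · dsimp only
          rw [← hd p hp, Nat.sub_add_cancel a1.one_le]
          exact a1
        · dsimp only
          rw [← hd p hp]
          exact le_trans (by exact_mod_cast Nat.sub_le _ _) a2
      · refine sum_fib_le S (fun a => 1 / (a : ℝ)) (fun a _ => (a : ℝ))
          (fun _ => C₂ * (s + 1) * (y * u ^ 2 / l ^ 2)) _
          (fun a => (Sm (LL y) a ∧ ∃ w, 0 ≤ w ∧ Δ - 3 + 1 ≤ |Nw a w - min w (LL y)|) ∧ LL a ≤ s)
          (fun a r => r.Prime ∧ (a * r + 1).Prime ∧ ((a * r : ℕ) : ℝ) ≤ y ∧ y ^ (1 / u) < r)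
          (fun a _ => by positivity) (fun B hB => ?_)
          (fun a ha B hB => h₂ y u s a B (by linarith) (by linarith)
            (Nat.pos_of_ne_zero ha.1.1.1) (by linarith) ha.2 hB)
          fun e he => ⟨⟨(hS e he).1, (hS e he).2.1⟩, (hS e he).2.2⟩
        have h4 := h₀ s (LL y) (Δ - 3) B (LL_nonneg y) hL (by linarith) (by linarith) (by linarith)
          fun a ha => (hB a ha).1
        have h5 : Real.exp (LL y - (Δ - 3) ^ 2 / (8 * s)) ≤ l * Real.exp (-(X / 32)) := by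
          rw [hLL, sub_eq_add_neg, Real.exp_add, Real.exp_log hl0]
          refine mul_le_mul_of_nonneg_left (Real.exp_le_exp.2 (neg_le_neg ?_)) hl0.le
          rw [hX, div_div, div_le_div_iff₀ (by linarith) (by linarith)]
          have : Δ ^ 2 ≤ 4 * (Δ - 3) ^ 2 := by nlinarith
          nlinarith
        rw [← sum_mul]
        calc _ ≤ C₀ * (3 * s) * (l * Real.exp (-(X / 32))) *
              (C₂ * (2 * s) * (y * (21 * s) ^ 2 / l ^ 2)) := by
              refine mul_le_mul (h4.trans (mul_le_mul ?_ h5 (Real.exp_pos _).le (by positivity)))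
                ?_ (by positivity) (by positivity)
              · gcongr; linarith
              · gcongr; linarith
          _ = _ := by rw [hG]; field_simp; norm_num
  rw [sum_const, nsmul_eq_mul, mul_one] at key
  refine key.trans ?_
  have s4 : 1 ≤ s ^ 5 := one_le_pow₀ hs1
  have s5 : s ^ 4 ≤ s ^ 5 := pow_le_pow_right₀ hs1 (by norm_num)
  have g1 : G ≤ Real.exp (-(Δ ^ 2 / (C * s))) * (y / l) := by
    refine mul_le_mul_of_nonneg_right (Real.exp_le_exp.2 (neg_le_neg ?_)) (by positivity)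
    rw [hX, div_div]
    refine div_le_div_of_nonneg_left (by positivity) (by positivity) ?_
    rw [mul_comm]
    exact mul_le_mul_of_nonneg_right (by linarith) (by linarith)
  calc _ = (1 + C₃ + 2646 * (C₀ * C₂) * s ^ 4) * G := by ring
    _ ≤ C * s ^ 5 * (Real.exp (-(Δ ^ 2 / (C * s))) * (y / l)) := by
        refine mul_le_mul ?_ g1 hG0.le (by positivity)
        rw [hC]
        nlinarith [mul_le_mul_of_nonneg_left s5 hCC, mul_le_mul_of_nonneg_left s4 (show 0 ≤ C₃ by linarith)]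
    _ = _ := by ring

/-- Blocks `n = ⌊log p⌋₊ ≤ exp s`; apply `NP1` with `y = exp (n + 1)` and `2 s` in place of `s`;
`∑_{n ≤ exp s} 1 / (n + 1) ≤ s + 2`. -/
theorem NP2 : ∃ C : ℝ, 1 ≤ C ∧ ∀ (Δ s : ℝ) (A : Finset ℕ), C ≤ Δ → Δ ≤ s →
    (∀ p ∈ A, p.Prime ∧ LL p ≤ s ∧ ¬ Normal Δ p) →
    ∑ p ∈ A, 1 / ((p : ℝ) - 1) ≤ C * s ^ 6 * Real.exp (-(Δ ^ 2 / (C * s))) := by
  obtain ⟨C, hC, h1⟩ := NP1
  refine ⟨576 * C, by linarith, fun Δ s A hΔ hs hA => ?_⟩
  have hs1 : 1 ≤ s := by linarith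
  have hes : 1 ≤ Real.exp s := Real.one_le_exp (by linarith)
  have hlog : ∀ n : ℕ, n ≤ ⌊Real.exp s⌋₊ → Real.log ((n : ℝ) + 1) ≤ s + 1 := by
    intro n hn
    have k1 : (n : ℝ) ≤ Real.exp s := (Nat.le_floor_iff (by positivity)).1 hn
    rw [Real.log_le_iff_le_exp (by positivity), Real.exp_add]
    nlinarith [Real.add_one_le_exp (1 : ℝ)]
  set G := 192 * C * s ^ 5 * Real.exp (-(Δ ^ 2 / (C * (2 * s)))) with hG
  have hG0 : 0 ≤ G := by positivity
  have key : ∑ p ∈ A, 1 / ((p : ℝ) - 1) ≤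
      ∑ n ∈ range (⌊Real.exp s⌋₊ + 1), G * ((n : ℝ) + 1)⁻¹ := by
    refine sum_le_sum_cover A _ _ (fun p hp => ?_) (fun n p => ⌊Real.log p⌋₊ = n) (fun p hp => ?_) _
      fun n hn B hB hP => ?_
    · have : (1 : ℝ) ≤ p := by exact_mod_cast (hA p hp).1.one_le
      exact div_nonneg zero_le_one (by linarith)
    · refine ⟨_, mem_range.2 (Nat.lt_succ_of_le (Nat.floor_le_floor ?_)), rfl⟩
      exact (log_le_exp_LL (by exact_mod_cast (hA p hp).1.one_le)).trans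
        (Real.exp_le_exp.2 (hA p hp).2.1)
    · have hn' := hlog n (Nat.lt_succ_iff.1 (mem_range.1 hn))
      have hn0 : (0 : ℝ) ≤ n := Nat.cast_nonneg n
      have k1 := h1 Δ (2 * s) (Real.exp (n + 1)) B (by linarith) (by linarith)
        (by linarith [Real.add_one_le_exp ((n : ℝ) + 1)])
        (by unfold LL; rw [Real.log_exp]; exact max_le (by linarith) (by linarith)) fun p hp => by
          refine ⟨(hA p (hB hp)).1, ?_, (hA p (hB hp)).2.2⟩
          rw [← Real.log_le_iff_le_exp (by exact_mod_cast (hA p (hB hp)).1.pos), ← hP p hp]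
          exact (Nat.lt_floor_add_one _).le
      have k2 : ∀ p ∈ B, 1 / ((p : ℝ) - 1) ≤ 2 / Real.exp n := by
        intro p hp
        have hp2 : (2 : ℝ) ≤ p := by exact_mod_cast (hA p (hB hp)).1.two_le
        have k3 : Real.exp n ≤ p := by
          rw [← Real.le_log_iff_exp_le (by linarith), ← hP p hp]
          exact Nat.floor_le (Real.log_nonneg (by linarith))
        rw [div_le_div_iff₀ (by linarith) (Real.exp_pos _)]
        linarith
      refine (sum_le_card_nsmul _ _ _ k2).trans ?_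
      rw [nsmul_eq_mul]
      refine (mul_le_mul_of_nonneg_right k1 (by positivity)).trans ?_
      rw [Real.log_exp, Real.exp_add]
      have k4 : Real.exp 1 ≤ 3 := by linarith [Real.exp_one_lt_d9]
      calc _ = 64 * C * s ^ 5 * Real.exp (-(Δ ^ 2 / (C * (2 * s)))) * ((n : ℝ) + 1)⁻¹ * Real.exp 1 := by
            field_simp; norm_num
        _ ≤ 64 * C * s ^ 5 * Real.exp (-(Δ ^ 2 / (C * (2 * s)))) * ((n : ℝ) + 1)⁻¹ * 3 := by gcongr
        _ = _ := by rw [hG]; ring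
  have hh : ∑ n ∈ range (⌊Real.exp s⌋₊ + 1), ((n : ℝ) + 1)⁻¹ ≤ 3 * s := by
    have k1 := harmonic_le_one_add_log (⌊Real.exp s⌋₊ + 1)
    have k2 := hlog _ le_rfl
    unfold harmonic at k1
    push_cast at k1
    linarith
  rw [← mul_sum] at key
  refine key.trans ((mul_le_mul_of_nonneg_left hh hG0).trans ?_)
  have k5 : Real.exp (-(Δ ^ 2 / (C * (2 * s)))) ≤ Real.exp (-(Δ ^ 2 / (576 * C * s))) := by
    refine Real.exp_le_exp.2 (neg_le_neg (div_le_div_of_nonneg_left (by positivity) (by positivity) ?_))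
    nlinarith [mul_pos (show 0 < C by linarith) (show 0 < s by linarith)]
  calc G * (3 * s) = 576 * C * s ^ 6 * Real.exp (-(Δ ^ 2 / (C * (2 * s)))) := by rw [hG]; ring
    _ ≤ _ := by gcongr

variable {ρ : ℝ}

theorem np_scale (h : Root ρ) {C : ℝ} (hC : 1 ≤ C) (C₁ : ℝ) (a : ℕ) : ∃ d₀ : ℕ, ∀ d : ℕ, d₀ ≤ d →
    C ≤ vr ρ ^ (6 * d) ∧ C * (vr ρ ^ (11 * d)) ^ a *
      Real.exp (-((vr ρ ^ (6 * d)) ^ 2 / (C * vr ρ ^ (11 * d)))) ≤ Real.exp (-(C₁ * (d : ℝ) ^ 2)) := by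
  obtain ⟨d₀, hd₀⟩ := poly_le_vr h (C * (C + 11 * a * vr ρ + |C₁|)) 2
  refine ⟨d₀, fun d hd => ?_⟩
  have h1 := hd₀ d hd
  have hv := vr_pos h
  have hd0 : (0 : ℝ) ≤ d := Nat.cast_nonneg d
  have ha0 : (0 : ℝ) ≤ 11 * a * vr ρ := by positivity
  have hb0 := abs_nonneg C₁
  have h2 : C + 11 * a * vr ρ * d + C₁ * (d : ℝ) ^ 2 ≤ vr ρ ^ d / C := by
    rw [le_div_iff₀ (by linarith), mul_comm]
    refine le_trans ?_ h1
    rw [mul_assoc C]
    refine mul_le_mul_of_nonneg_left ?_ (by linarith)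
    have k1 : C * 1 ≤ C * ((d : ℝ) + 1) ^ 2 := mul_le_mul_of_nonneg_left (by nlinarith) (by linarith)
    have k2 : 11 * a * vr ρ * d ≤ 11 * a * vr ρ * ((d : ℝ) + 1) ^ 2 :=
      mul_le_mul_of_nonneg_left (by nlinarith) ha0
    have k3 : C₁ * (d : ℝ) ^ 2 ≤ |C₁| * ((d : ℝ) + 1) ^ 2 :=
      mul_le_mul (le_abs_self _) (by nlinarith) (by positivity) hb0
    linarith
  constructor
  · refine le_trans ?_ (h1.trans (vr_pow_mono h (by omega)))
    have k1 : C * 1 ≤ C * (C + 11 * a * vr ρ + |C₁|) :=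
      mul_le_mul_of_nonneg_left (by linarith) (by linarith)
    have k2 : C * (C + 11 * a * vr ρ + |C₁|) * 1 ≤ C * (C + 11 * a * vr ρ + |C₁|) * ((d : ℝ) + 1) ^ 2 :=
      mul_le_mul_of_nonneg_left (by nlinarith) (by linarith)
    linarith
  · have e : (vr ρ ^ (6 * d)) ^ 2 / (C * vr ρ ^ (11 * d)) = vr ρ ^ d / C := by
      field_simp
      ring
    have k1 : C ≤ Real.exp C := by linarith [Real.add_one_le_exp C]
    have k2 : (vr ρ ^ (11 * d)) ^ a ≤ Real.exp (11 * a * vr ρ * d) := by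
      rw [← pow_mul, show 11 * a * vr ρ * d = ((11 * d * a : ℕ) : ℝ) * vr ρ by push_cast; ring,
        Real.exp_nat_mul]
      exact pow_le_pow_left₀ hv.le (by linarith [Real.add_one_le_exp (vr ρ)]) _
    rw [e]
    calc _ ≤ Real.exp C * Real.exp (11 * a * vr ρ * d) * Real.exp (-(vr ρ ^ d / C)) := by gcongr
      _ ≤ _ := by
        rw [← Real.exp_add, ← Real.exp_add]
        exact Real.exp_le_exp.2 (by linarith)

/-- `Δ² / s = ϱ^d` beats `d²` (`poly_le_vr`). -/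
theorem NP3 (h : Root ρ) (C₁ : ℝ) : ∃ d₀ : ℕ, ∀ (d : ℕ) (A : Finset ℕ), d₀ ≤ d →
    (∀ p ∈ A, p.Prime ∧ LL p ≤ vr ρ ^ (11 * d) ∧ ¬ Normal (vr ρ ^ (6 * d)) p) →
    ∑ p ∈ A, 1 / ((p : ℝ) - 1) ≤ Real.exp (-(C₁ * (d : ℝ) ^ 2)) := by
  obtain ⟨C, hC, h1⟩ := NP2
  obtain ⟨d₀, hd₀⟩ := np_scale h hC C₁ 6
  exact ⟨d₀, fun d A hd hA => (h1 _ _ A (hd₀ d hd).1 (vr_pow_mono h (by omega)) hA).trans (hd₀ d hd).2⟩

theorem NP4 (h : Root ρ) (C₁ : ℝ) : ∃ d₀ : ℕ, ∀ (d : ℕ) (y : ℝ) (A : Finset ℕ), d₀ ≤ d → 2 ≤ y →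
    LL y ≤ vr ρ ^ (11 * d) → (∀ p ∈ A, p.Prime ∧ (p : ℝ) ≤ y ∧ ¬ Normal (vr ρ ^ (6 * d)) p) →
    (A.card : ℝ) ≤ Real.exp (-(C₁ * (d : ℝ) ^ 2)) * (y / Real.log y) := by
  obtain ⟨C, hC, h1⟩ := NP1
  obtain ⟨d₀, hd₀⟩ := np_scale h hC C₁ 5
  refine ⟨d₀, fun d y A hd hy hL hA =>
    (h1 _ _ y A (hd₀ d hd).1 (vr_pow_mono h (by omega)) hy hL hA).trans ?_⟩
  exact mul_le_mul_of_nonneg_right (hd₀ d hd).2
    (div_nonneg (by linarith) (Real.log_nonneg (by linarith)))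

end Crest.Agent.R020
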