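import Crest.Agent.R020.WB
import Crest.Agent.R020.VB3
import Crest.Agent.R020.NP

set_option autoImplicit false

namespace Crest.Agent.R020

open Finset Filter Topology Crest.Agent.R008 Crest.Agent.R026 Crest.NumberTheoryR.TotientScale

theorem WB2_case1 {s : ℝ} (hs : 0 ≤ s) {A : Finset ℕ}
    (hA : ∀ v ∈ A, ∃ n : ℕ, Sm s n ∧ lv (pl n) 2 ≤ 9 / 10 * s ∧ Nat.totient n = v) :
    ∑ v ∈ A, 1 / (v : ℝ) ≤ (1 + 2 * (s + cM)) ^ 2 * W (9 / 10 * s) := by
  have hp : ∀ n j : ℕ, Sm s n → (pl n).getD j 1 = 1 ∨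
      (((pl n).getD j 1).Prime ∧ LL ((pl n).getD j 1 : ℕ) ≤ s) := fun n j hn =>
    (getD_pl_cases n j).imp_right fun h =>
      ⟨h, hn.2 _ h ((getD_dvd_nd n (Nat.zero_le j)).trans (nd_dvd_self n 0))⟩
  rw [sq, mul_assoc]
  refine WR3 hs (fun n => ∃ p m : ℕ, (p = 1 ∨ (p.Prime ∧ LL p ≤ s)) ∧ Sm (9 / 10 * s) m ∧
    n = p * m) (fun B hB => WR3 hs (Sm (9 / 10 * s)) (fun B' hB' => sum_le_W hB') fun v hv => ?_)
    fun v hv => ?_
  · obtain ⟨n, ⟨p, m, h1, h2, rfl⟩, h3⟩ := hB v hv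
    exact ⟨p, m, h1, h2, h3⟩
  · obtain ⟨n, h1, h2, h3⟩ := hA v hv
    refine ⟨_, nd n 1, hp n 0 h1, ⟨_, nd n 2, hp n 1 h1, (sm_nd n 2).mono h2, nd_succ n 1⟩, ?_⟩
    rw [← nd_succ, nd_zero h1.1, h3]

theorem WB2_exp : 4 * Real.exp (-Real.exp 3) ≤ 1 / 4 := by
  have h1 : (4 : ℝ) ≤ Real.exp 3 := by linarith [Real.add_one_le_exp 3]
  have h2 : (2 : ℝ) ≤ Real.exp 1 := by linarith [Real.add_one_le_exp 1]
  have h3 : (16 : ℝ) ≤ Real.exp (Real.exp 3) := by
    refine le_trans ?_ (Real.exp_le_exp.2 h1)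
    rw [show (4 : ℝ) = (4 : ℕ) * 1 by norm_num, Real.exp_nat_mul]
    calc (16 : ℝ) = 2 ^ 4 := by norm_num
      _ ≤ _ := by gcongr
  rw [Real.exp_neg]
  have := inv_anti₀ (by norm_num) h3
  linarith

theorem WB2_ev {C c : ℝ} (hC : 0 < C) (hc : 0 < c) :
    ∀ᶠ s : ℝ in atTop, C * s ^ 6 * Real.exp (-(c * s)) ≤ 1 / 8 := by
  have h := ((Real.tendsto_pow_mul_exp_neg_atTop_nhds_zero 6).comp
    (tendsto_id.const_mul_atTop hc)).const_mul (C / c ^ 6)
  rw [mul_zero] at h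
  filter_upwards [h.eventually (ge_mem_nhds (by norm_num : (0 : ℝ) < 1 / 8))] with s hs
  refine le_of_eq_of_le ?_ hs
  simp only [Function.comp, id]
  field_simp

/-- Let `v = φ n` with `Sm s n`.  If `lv (pl n) 2 ≤ 0.9 s`, then `n = p₀ p₁ (nd n 2)` with
`nd n 2` being `0.9 s`-smooth (`nd_succ`, `sm_nd`, `WR3` twice).  If `p² ∣ n` with `3 ≤ LL p`,
use `WR2` (`≤ W s / 4`).  If one of `p₀, p₁, p₂` is not `δ s`-normal use `WR1`, `NP2`
(`≤ W s / 4` for large `s`).  Otherwise `VB3` with `L = 2`, `σ = 3`, `Δ = δ s`, `e = 0.15 s`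
(`a_one`, `a_two`: `a₁ + a₂ ≥ 1.28`), where `9 C δ = 1 / 20`, gives a weight `≤ 1`. -/
theorem W_rec : ∃ s₀ : ℝ, ∀ s : ℝ, s₀ ≤ s →
    W s ≤ 2 * (1 + 2 * (s + cM)) ^ 2 * W (9 / 10 * s) + 2 := by
  obtain ⟨C, hC, hVB⟩ := VB3
  obtain ⟨C', hC', hNP⟩ := NP2
  set δ : ℝ := 1 / (180 * C) with hδ
  have hδ0 : 0 < δ := by positivity
  have hδ1 : δ ≤ 1 := by rw [hδ, div_le_one (by positivity)]; linarith
  have hCδ : C * δ = 1 / 180 := by rw [hδ]; field_simp
  refine eventually_atTop.1 ?_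
  filter_upwards [WB2_ev (C := C') (c := δ ^ 2 / C') (by positivity) (by positivity),
    eventually_gt_atTop 0, eventually_ge_atTop (C' / δ),
    eventually_ge_atTop (20 * (36 * C + 1 + 9 * C * Real.log (180 * C)))] with s h1 hs h2 h3
  have hW := W_nonneg s
  have key : W s ≤ (1 + 2 * (s + cM)) ^ 2 * W (9 / 10 * s) + (W s / 4 + (W s / 4 + 1)) := by
    refine W_le fun A hA => ?_
    refine sum_le_add_cover A _
      (fun v => ∃ n : ℕ, Sm s n ∧ lv (pl n) 2 ≤ 9 / 10 * s ∧ Nat.totient n = v) _ _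
      (fun B _ hB => WB2_case1 hs.le hB) fun A₁ hA₁ hn₁ => ?_
    refine sum_le_add_cover A₁ _
      (fun v => ∃ p n : ℕ, p.Prime ∧ 3 ≤ LL p ∧ Sm s n ∧ p ^ 2 ∣ n ∧ Nat.totient n = v) _ _
      (fun B _ hB => (WR2 (by norm_num) hB).trans ?_) fun A₂ hA₂ hn₂ => ?_
    · nlinarith [WB2_exp]
    refine sum_le_add_cover A₂ _
      (fun v => ∃ p n : ℕ, p.Prime ∧ (LL p ≤ s ∧ ¬ Normal (δ * s) p) ∧ Sm s n ∧
        Nat.totient (p * n) = v) _ _
      (fun B _ hB => (WR1 (D := 1 / 8) _ (fun B' hB' => ?_) hB).trans ?_) fun A₃ hA₃ hn₃ => ?_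
    · refine (hNP (δ * s) s B' ?_ ?_ hB').trans ?_
      · rw [div_le_iff₀ hδ0] at h2; linarith
      · nlinarith
      · rwa [show (δ * s) ^ 2 / (C' * s) = δ ^ 2 / C' * s by field_simp]
    · linarith
    refine (hVB (δ * s) 3 s (15 / 100 * s) 2 A₃ (by positivity) (by norm_num) hs.le
      fun v hv => ?_).trans ?_
    · obtain ⟨n, hn, rfl⟩ := hA v (hA₁ (hA₂ (hA₃ hv)))
      have hd : ∀ j, (pl n).getD j 1 ∣ n := fun j =>
        (getD_dvd_nd n (Nat.zero_le j)).trans (nd_dvd_self n 0)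
      have h0 : lv (pl n) 0 ≤ s := by
        rcases getD_pl_cases n 0 with h | h
        · unfold lv; rw [h, Nat.cast_one, LL_one]; exact hs.le
        · exact hn.2 _ h (hd 0)
      refine ⟨n, hn.1, rfl, h0, fun p hp hp3 hpn => hn₂ _ (hA₃ hv) ⟨p, n, hp, hp3, hn, hpn, rfl⟩,
        fun j _ => ?_, ?_⟩
      · by_contra hN
        rcases getD_pl_cases n j with h | h
        · exact hN (by rw [h]; exact normal_one (by positivity))
        · obtain ⟨m, hm⟩ := hd j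
          exact hn₃ _ hv ⟨_, m, h, ⟨hn.2 _ h (hd j), hN⟩, hn.of_dvd (Dvd.intro_left _ hm.symm),
            by rw [← hm]⟩
      · have h4 : 9 / 10 * s < lv (pl n) 2 :=
          lt_of_not_ge fun h => hn₁ _ (hA₂ (hA₃ hv)) ⟨n, hn, h, rfl⟩
        have h5 := lv_pl_anti n (show 1 ≤ 2 by norm_num)
        rw [show Icc 1 2 = ({1, 2} : Finset ℕ) from rfl, sum_pair (by norm_num)]
        have h6 : 0.38 * (9 / 10 * s) ≤ aCoef 1 * lv (pl n) 1 :=
          mul_le_mul a_one.1 (by linarith) (by positivity) (a_nonneg le_rfl)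
        have h7 : 0.9 * (9 / 10 * s) ≤ aCoef 2 * lv (pl n) 2 :=
          mul_le_mul a_two h4.le (by positivity) (a_nonneg (by norm_num))
        linarith
    · rw [Real.exp_le_one_iff]
      unfold Er
      have h4 : Real.log (s + 2) ≤ (s + 2) * δ + Real.log (180 * C) := by
        have := Real.log_le_sub_one_of_pos (show 0 < (s + 2) / (180 * C) by positivity)
        rw [Real.log_div (by positivity) (by positivity), div_eq_mul_one_div, ← hδ] at this
        linarith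
      have h5 : C * Real.log (s + 2) ≤ (s + 2) / 180 + C * Real.log (180 * C) := by
        have := mul_le_mul_of_nonneg_left h4 (by linarith : 0 ≤ C)
        have e : C * ((s + 2) * δ) = (s + 2) / 180 := by
          rw [mul_left_comm, hCδ]; ring
        linarith
      have e : C * (δ * s) = s / 180 := by rw [← mul_assoc, hCδ]; ring
      push_cast
      nlinarith
  linarith

/-- Induction on `k` for `s ≤ s₀ (10/9)^k`, or strong induction on `⌈s⌉₊`:
`log² (s + 2) - log² (0.9 s + 2) ≥ c log (s + 2)` for `s ≥ 10`. -/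
theorem W_le_sq : ∃ C : ℝ, 1 ≤ C ∧ ∀ s : ℝ, 0 ≤ s → W s ≤ Real.exp (C * Real.log (s + 2) ^ 2) := by
  obtain ⟨s₀, h₀⟩ := W_rec
  have hM := one_le_cM
  set s₁ : ℝ := max s₀ (max 10 cM) with hs₁
  have h10 : 10 ≤ s₁ := le_max_of_le_right (le_max_left _ _)
  have hcM : cM ≤ s₁ := le_max_of_le_right (le_max_right _ _)
  set C : ℝ := 4 * (s₁ + cM + 2) with hC
  have hC48 : 48 ≤ C := by linarith
  refine ⟨C, by linarith, fun s hs => ?_⟩
  have small : ∀ s : ℝ, 0 ≤ s → s ≤ s₁ → W s ≤ Real.exp (C * Real.log (s + 2) ^ 2) := by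
    intro s hs h
    refine (W_le_exp hs).trans (Real.exp_le_exp.2 ?_)
    have h1 : 1 / 2 ≤ Real.log (s + 2) := by
      have := Real.log_le_log (by norm_num) (show 2 ≤ s + 2 by linarith)
      linarith [Real.log_two_gt_d9]
    have h2 : 1 / 4 ≤ Real.log (s + 2) ^ 2 := by nlinarith
    nlinarith
  obtain ⟨k, hk⟩ := exists_nat_ge s
  induction k generalizing s with
  | zero => exact small s hs (by simp at hk; linarith)
  | succ k ih =>
    rcases le_total s s₁ with h | h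
    · exact small s hs h
    have ih' := ih (9 / 10 * s) (by positivity) (by push_cast at hk; linarith)
    have h1 := h₀ s ((le_max_left _ _).trans h)
    have h2 := one_le_W (9 / 10 * s)
    have h3 : 4 * (1 + 2 * (s + cM)) ^ 2 ≤ (s + 2) ^ 4 := by
      have : 2 * (1 + 2 * (s + cM)) ≤ (s + 2) ^ 2 := by nlinarith
      calc 4 * (1 + 2 * (s + cM)) ^ 2 = (2 * (1 + 2 * (s + cM))) ^ 2 := by ring
        _ ≤ ((s + 2) ^ 2) ^ 2 := by gcongr
        _ = _ := by ring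
    have h4 : 1 ≤ (1 + 2 * (s + cM)) ^ 2 := one_le_pow₀ (by linarith)
    have h5 : W s ≤ (s + 2) ^ 4 * W (9 / 10 * s) := by nlinarith
    have hL : Real.log (9 / 10 * s + 2) ≤ Real.log (s + 2) - 1 / 12 := by
      have := Real.log_le_sub_one_of_pos (show 0 < (9 / 10 * s + 2) / (s + 2) by positivity)
      rw [Real.log_div (by positivity) (by positivity)] at this
      have h6 : (9 / 10 * s + 2) / (s + 2) ≤ 11 / 12 := by
        rw [div_le_iff₀ (by positivity)]; linarith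
      linarith
    have hL0 : 0 ≤ Real.log (9 / 10 * s + 2) := Real.log_nonneg (by linarith)
    have h7 : (s + 2) ^ 4 = Real.exp (4 * Real.log (s + 2)) := by
      rw [show (4 : ℝ) = (4 : ℕ) by norm_num, Real.exp_nat_mul, Real.exp_log (by positivity)]
    refine h5.trans ((mul_le_mul_of_nonneg_left ih' (by positivity)).trans ?_)
    rw [h7, ← Real.exp_add, Real.exp_le_exp]
    generalize Real.log (9 / 10 * s + 2) = L' at *
    generalize Real.log (s + 2) = L at *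
    have h8 : L / 12 ≤ L ^ 2 - L' ^ 2 := by nlinarith
    have h9 : C * (L / 12) ≤ C * (L ^ 2 - L' ^ 2) := mul_le_mul_of_nonneg_left h8 (by linarith)
    nlinarith

theorem W_pow {ρ : ℝ} (h : Root ρ) : ∃ C : ℝ, 1 ≤ C ∧ ∀ d : ℕ, 1 ≤ d →
    W (vr ρ ^ (11 * d)) ≤ Real.exp (C * (d : ℝ) ^ 2) := by
  obtain ⟨C, hC, hW⟩ := W_le_sq
  have hl : 0 ≤ Real.log (vr ρ) := Real.log_nonneg (vr_gt h).le
  refine ⟨C * (2 + 11 * Real.log (vr ρ)) ^ 2, ?_, fun d hd => ?_⟩
  · have : 1 ≤ (2 + 11 * Real.log (vr ρ)) ^ 2 := one_le_pow₀ (by linarith)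
    nlinarith
  have h1 := one_le_vr_pow h (11 * d)
  refine (hW _ (by linarith)).trans (Real.exp_le_exp.2 ?_)
  have hd' : (1 : ℝ) ≤ d := by exact_mod_cast hd
  have h2 : Real.log (vr ρ ^ (11 * d) + 2) ≤ (2 + 11 * Real.log (vr ρ)) * d := by
    have h3 : Real.log (vr ρ ^ (11 * d) + 2) ≤ Real.log (3 * vr ρ ^ (11 * d)) :=
      Real.log_le_log (by linarith) (by linarith)
    rw [Real.log_mul (by norm_num) (by linarith), Real.log_pow] at h3
    have h4 := Real.log_le_sub_one_of_pos (show (0 : ℝ) < 3 by norm_num)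
    push_cast at h3
    nlinarith
  rw [mul_assoc, ← mul_pow]
  have h3 : 0 ≤ Real.log (vr ρ ^ (11 * d) + 2) := Real.log_nonneg (by linarith)
  gcongr

end Crest.Agent.R020
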