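import Crest.Agent.R020.Big
import Crest.Agent.R020.WB2

set_option autoImplicit false

namespace Crest.Agent.R020

open Finset Filter Topology Crest.Agent.R008 Crest.Agent.R026 Crest.NumberTheoryR.TotientScale

variable {ρ : ℝ}

theorem L0_big_pt (h : Root ρ) {C₁ : ℝ} (hC : 0 ≤ C₁) : ∃ C₂ : ℝ, ∀ (d : ℕ) (L : ℝ),
    vr ρ ^ (11 * d) < L → (L + cM) ^ d ≤
      Real.exp (C₂ * Real.log (L + 2) ^ 2) * Real.exp (-(C₁ * (d : ℝ) ^ 2)) := by
  have hl : 0 < Real.log (vr ρ) := Real.log_pos (vr_gt h)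
  have hM := one_le_cM
  have hlM : 0 ≤ Real.log cM := Real.log_nonneg hM
  set c : ℝ := 1 / (11 * Real.log (vr ρ)) with hc
  have hc0 : 0 < c := by positivity
  refine ⟨c * (Real.log cM + 1) + C₁ * c ^ 2, fun d L hL => ?_⟩
  have h1 : 1 < L := (one_le_vr_pow h _).trans_lt hL
  set t := Real.log (L + 2) with ht
  have ht1 : 1 ≤ t := by
    rw [ht, Real.le_log_iff_exp_le (by linarith)]
    linarith [Real.exp_one_lt_d9]
  have hd : (d : ℝ) ≤ c * t := by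
    have h2 : Real.log (vr ρ ^ (11 * d)) ≤ t :=
      Real.log_le_log (pow_pos (vr_pos h) _) (by linarith)
    rw [Real.log_pow] at h2
    push_cast at h2
    rw [hc, one_div, ← div_eq_inv_mul, le_div_iff₀ (by positivity)]
    linarith
  have h3 : Real.log (L + cM) ≤ (Real.log cM + 1) * t := by
    have h4 : Real.log (L + cM) ≤ Real.log (cM * (L + 2)) :=
      Real.log_le_log (by linarith) (by nlinarith)
    rw [Real.log_mul (by linarith) (by linarith)] at h4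
    nlinarith
  have h5 : 0 ≤ Real.log (L + cM) := Real.log_nonneg (by linarith)
  have hd0 : (0 : ℝ) ≤ d := Nat.cast_nonneg d
  rw [← Real.exp_add, ← Real.exp_log (show 0 < L + cM by linarith), ← Real.exp_nat_mul,
    Real.exp_le_exp]
  have h6 : (d : ℝ) * Real.log (L + cM) ≤ (c * t) * ((Real.log cM + 1) * t) :=
    mul_le_mul hd h3 h5 (by positivity)
  have h7 : C₁ * (d : ℝ) ^ 2 ≤ C₁ * (c * t) ^ 2 := by gcongr
  nlinarith

theorem L0_small_pt (h : Root ρ) : ∃ C₄ : ℝ, ∀ d : ℕ, 1 ≤ d →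
    (vr ρ ^ (11 * d) + cM) ^ d ≤ Real.exp (C₄ * (d : ℝ) ^ 2) := by
  have hM := one_le_cM
  have hlM : 0 ≤ Real.log (1 + cM) := Real.log_nonneg (by linarith)
  refine ⟨11 * Real.log (vr ρ) + Real.log (1 + cM), fun d hd => ?_⟩
  have h1 := one_le_vr_pow h (11 * d)
  have hd1 : (1 : ℝ) ≤ d := by exact_mod_cast hd
  have h4 : Real.log (vr ρ ^ (11 * d) + cM) ≤ Real.log (vr ρ ^ (11 * d) * (1 + cM)) :=
    Real.log_le_log (by linarith) (by nlinarith)
  rw [Real.log_mul (by linarith) (by linarith), Real.log_pow] at h4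
  push_cast at h4
  rw [← Real.exp_log (show 0 < vr ρ ^ (11 * d) + cM by linarith), ← Real.exp_nat_mul,
    Real.exp_le_exp]
  have h5 := mul_le_mul_of_nonneg_left h4 (show (0 : ℝ) ≤ d by linarith)
  have h6 : (d : ℝ) * Real.log (1 + cM) ≤ (d : ℝ) ^ 2 * Real.log (1 + cM) :=
    mul_le_mul_of_nonneg_right (by nlinarith) hlM
  nlinarith

theorem L0_const {C : ℝ} (hC : 1 ≤ C) (C₁ C₄ : ℝ) {d : ℕ} (hd : 1 ≤ d) :
    C * Real.exp (-((C₄ + C₁ + Real.log C + 1) * (d : ℝ) ^ 2)) * Real.exp (C₄ * (d : ℝ) ^ 2) ≤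
      (1 / 2) ^ d * Real.exp (-(C₁ * (d : ℝ) ^ 2)) := by
  have hd1 : (1 : ℝ) ≤ d := by exact_mod_cast hd
  have hl : 0 ≤ Real.log C := Real.log_nonneg hC
  have h2 : (1 / 2 : ℝ) = Real.exp (-Real.log 2) := by
    rw [Real.exp_neg, Real.exp_log two_pos, one_div]
  nth_rewrite 1 [← Real.exp_log (show 0 < C by linarith)]
  rw [h2, ← Real.exp_nat_mul, ← Real.exp_add, ← Real.exp_add, ← Real.exp_add, Real.exp_le_exp]
  have h3 : (d : ℝ) ≤ (d : ℝ) ^ 2 := by nlinarith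
  have h4 : Real.log C ≤ Real.log C * (d : ℝ) ^ 2 := le_mul_of_one_le_right hl (by linarith)
  have h5 : (d : ℝ) * Real.log 2 ≤ d :=
    mul_le_of_le_one_right (by linarith) (by linarith [Real.log_two_lt_d9])
  nlinarith

/-- Splitting decreasing lists at the position `j`. -/
theorem L0_split {A : Finset (List ℕ)} {j k d : ℕ} (hjk : j < k) (hd : k - (j + 1) ≤ d)
    (P : List ℕ × ℕ → Prop) (D₁ : ℝ)
    (h₁ : ∀ S : Finset (List ℕ × ℕ), (∀ u ∈ S, u.2.Prime ∧ P u) →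
      ∑ u ∈ S, wt u.1 / ((u.2 : ℝ) - 1) * (LL u.2 + cM) ^ d ≤ D₁)
    (hA : ∀ l ∈ A, l.length = k ∧ Pr l ∧ Dec l ∧ P (l.take j, l.getD j 1)) :
    ∑ l ∈ A, wt l ≤ D₁ := by
  refine sum_split_le A j P
    (fun u l => l.length = k - (j + 1) ∧ ∀ p ∈ l, p.Prime ∧ LL p ≤ LL u.2)
    (fun u => (LL u.2 + cM) ^ d) D₁ h₁ (fun u _ _ S hS => ?_) fun l hl => ?_
  · refine (sum_lists_le (fun p => LL p ≤ LL u.2) (LL u.2 + cM)
      (fun A' hA' => mert_up0 (LL_nonneg _) hA') _ S hS).trans ?_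
    exact pow_le_pow_right₀ (by linarith [one_le_cM, LL_nonneg (u.2 : ℝ)]) hd
  · obtain ⟨h1, h2, h3, h4⟩ := hA l hl
    refine ⟨by omega, h2, h4, by rw [List.length_drop, h1], fun p hp => ⟨h2.drop _ p hp, ?_⟩⟩
    have h5 : p ∈ l.drop j := by
      rw [← List.drop_drop] at hp
      exact List.mem_of_mem_drop hp
    have h6 := (h3.sublist (List.drop_sublist j l)).LL_le h5
    rwa [lv_drop, add_zero] at h6

theorem L0_geom {m k : ℕ} (hk : k ≤ m) :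
    ∑ j ∈ range k, (1 / 2 : ℝ) ^ (m - (j + 1)) ≤ 2 * (1 / 2) ^ (m - k) := by
  induction k with
  | zero => simp
  | succ k ih =>
    rw [sum_range_succ]
    have h1 := ih (by omega)
    rw [show m - k = m - (k + 1) + 1 by omega, pow_succ] at h1
    linarith

/-- Decreasing lists with a bad entry at the position `j` (depth `d = m - (j + 1) ≥ m - k`).
Split at `j` (`sum_split_le`): with `p` the entry, the rest has `k - j - 1 ≤ d` entries with
`LL ≤ LL p`, hence weight `≤ (LL p + cM)^d` (`sum_lists_le`, `mert_up0`, `LL p + cM ≥ 1`).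
* If `LL p > ϱ^(11 d)` then `d ≤ c log (LL p + 2)` with `c = 1 / (11 log ϱ)`, so
  `(LL p + cM)^d exp (C₁ d²) ≤ exp (C₂ log² (LL p + 2))`; use `big` (`Con.take_one`, `Con.mono`).
* Otherwise `p` is not normal: `top1`, `NP3`, `(ϱ^(11 d) + cM)^d ≤ exp (C d²)`. -/
theorem L0 (h : Root ρ) {C₁ : ℝ} (hC : 0 ≤ C₁) : ∃ d₀ : ℕ, ∀ᶠ q in Fl ρ,
    ∀ (k j : ℕ) (A : Finset (List ℕ)), j < k → k + d₀ ≤ q.2 → Fam a0 (fun _ => 0) (bigB q.1) k A →
      (∀ l ∈ A, Dec l ∧ ¬ (lv l j ≤ vr ρ ^ (11 * (q.2 - (j + 1))) ∧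
        Normal (vr ρ ^ (6 * (q.2 - (j + 1)))) (l.getD j 1))) →
      (∑ l ∈ A, wt l) * Real.exp (C₁ * ((q.2 - k : ℕ) : ℝ) ^ 2) ≤
        2 * (1 / 2) ^ (q.2 - (j + 1)) * Vol j (bigB q.1) := by
  obtain ⟨C₂, hC₂⟩ := L0_big_pt h hC
  obtain ⟨C₄, hC₄⟩ := L0_small_pt h
  obtain ⟨d₁, m₀, hbig⟩ := big h C₂
  obtain ⟨C, hC1, htop⟩ := top1 h
  obtain ⟨d₂, hNP⟩ := NP3 h (C₄ + C₁ + Real.log C + 1)
  refine ⟨d₁ + d₂ + 1, ?_⟩
  filter_upwards [ev_SB h, (tendsto_m h).eventually_ge_atTop m₀] with q hSB hm k j A hjk hk hF hA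
  set m := q.2 with hmq
  set B := bigB q.1 with hB
  set d := m - (j + 1) with hd
  have hV := Vol_nonneg j B
  have hbe : ∀ i, be ρ m i ≤ 0 := fun i => neg_nonpos.2 (pow_pos (vr_pos h) _).le
  have hwt : ∀ u : List ℕ × ℕ, u.2.Prime → 0 ≤ wt u.1 / ((u.2 : ℝ) - 1) := fun u hu =>
    div_nonneg (wt_nonneg _) (sub_nonneg.2 (by exact_mod_cast hu.one_le))
  set D : ℝ := (1 / 2) ^ d * Vol j B * Real.exp (-(C₁ * (d : ℝ) ^ 2)) with hD
  have key : ∑ l ∈ A, wt l ≤ D + D := by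
    refine sum_le_add_cover A wt (fun l => vr ρ ^ (11 * d) < lv l j) D D
      (fun A' hsub hA' => ?_) fun A' hsub hA' => ?_
    · refine L0_split (d := d) hjk (by omega) (fun u => u.1.length = j ∧ Pr u.1 ∧
        vr ρ ^ (11 * d) < LL u.2 ∧
        Con a0 (fun i => aCoef (j + 1 - i) * LL u.2 + be ρ m i) B u.1) D
        (fun S hS => ?_) fun l hl => ?_
      · have h1 := hbig B m j d S hSB hm (by omega) (by omega) fun u hu =>
          ⟨(hS u hu).2.1, (hS u hu).2.2.1, (hS u hu).1, (hS u hu).2.2.2.1, (hS u hu).2.2.2.2⟩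
        refine le_trans ?_ (mul_le_mul_of_nonneg_right h1 (Real.exp_pos _).le)
        rw [sum_mul]
        refine sum_le_sum fun u hu => ?_
        rw [mul_assoc]
        exact mul_le_mul_of_nonneg_left (hC₂ d _ (hS u hu).2.2.2.1) (hwt u (hS u hu).1)
      · obtain ⟨h1, h2, h3⟩ := hF l (hsub hl)
        refine ⟨h1, h2, (hA l (hsub hl)).1, by rw [List.length_take]; omega, h2.take j,
          hA' l hl, ?_⟩
        exact (h3.take_one (j := j) (by omega)).mono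
          (fun i _ => add_le_add le_rfl (hbe i)) le_rfl
    · refine L0_split (d := d) hjk (by omega) (fun u =>
        (u.1.length = j ∧ Pr u.1 ∧ Con a0 (be ρ m) B u.1) ∧
        LL u.2 ≤ vr ρ ^ (11 * d) ∧ ¬ Normal (vr ρ ^ (6 * d)) u.2) D
        (fun S hS => ?_) fun l hl => ?_
      · have h1 := sum_pair_le S wt (fun p : ℕ => 1 / ((p : ℝ) - 1)) (C * Vol j B)
          (Real.exp (-((C₄ + C₁ + Real.log C + 1) * (d : ℝ) ^ 2)))
          (fun l => l.length = j ∧ Pr l ∧ Con a0 (be ρ m) B l)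
          (fun p => p.Prime ∧ LL p ≤ vr ρ ^ (11 * d) ∧ ¬ Normal (vr ρ ^ (6 * d)) p)
          (fun l _ => wt_nonneg l) (fun A'' h'' => htop B m j A'' hSB (by omega) h'')
          (fun A'' h'' => hNP d A'' (by omega) h'')
          fun u hu => ⟨(hS u hu).2.1, (hS u hu).1, (hS u hu).2.2⟩
        have h2 := L0_const hC1 C₁ C₄ (d := d) (by omega)
        calc ∑ u ∈ S, wt u.1 / ((u.2 : ℝ) - 1) * (LL u.2 + cM) ^ d
            ≤ (∑ u ∈ S, wt u.1 * (1 / ((u.2 : ℝ) - 1))) * Real.exp (C₄ * (d : ℝ) ^ 2) := by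
              rw [sum_mul]
              refine sum_le_sum fun u hu => ?_
              rw [mul_one_div]
              refine mul_le_mul_of_nonneg_left (le_trans ?_ (hC₄ d (by omega)))
                (hwt u (hS u hu).1)
              exact pow_le_pow_left₀ (by linarith [one_le_cM, LL_nonneg (u.2 : ℝ)])
                (by linarith [(hS u hu).2.2.1]) d
          _ ≤ (C * Vol j B * Real.exp (-((C₄ + C₁ + Real.log C + 1) * (d : ℝ) ^ 2))) *
              Real.exp (C₄ * (d : ℝ) ^ 2) := mul_le_mul_of_nonneg_right h1 (Real.exp_pos _).le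
          _ = (C * Real.exp (-((C₄ + C₁ + Real.log C + 1) * (d : ℝ) ^ 2)) *
              Real.exp (C₄ * (d : ℝ) ^ 2)) * Vol j B := by ring
          _ ≤ ((1 / 2) ^ d * Real.exp (-(C₁ * (d : ℝ) ^ 2))) * Vol j B :=
              mul_le_mul_of_nonneg_right h2 hV
          _ = D := by rw [hD]; ring
      · obtain ⟨h1, h2, h3⟩ := hF l (hsub hl)
        have h4 := not_lt.1 (hA' l hl)
        exact ⟨h1, h2, (hA l (hsub hl)).1, ⟨by rw [List.length_take]; omega, h2.take j,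
          (h3.take j).mono (fun i _ => hbe i) le_rfl⟩, h4,
          fun hn => (hA l (hsub hl)).2 ⟨h4, hn⟩⟩
  have hD0 : 0 ≤ D := by positivity
  have he : ((m - k : ℕ) : ℝ) ≤ d := by exact_mod_cast (by omega : m - k ≤ d)
  calc (∑ l ∈ A, wt l) * Real.exp (C₁ * ((m - k : ℕ) : ℝ) ^ 2)
      ≤ (D + D) * Real.exp (C₁ * (d : ℝ) ^ 2) := by gcongr
    _ = 2 * (1 / 2) ^ d * Vol j B *
        (Real.exp (-(C₁ * (d : ℝ) ^ 2)) * Real.exp (C₁ * (d : ℝ) ^ 2)) := by rw [hD]; ring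
    _ = _ := by rw [← Real.exp_add, neg_add_cancel, Real.exp_zero, mul_one]

/-- Sum `L0` over `j < k` (`sum_le_sum_cover`, `V1'`). -/
theorem L0_all (h : Root ρ) {C₁ ε : ℝ} (hC : 0 ≤ C₁) (hε : 0 < ε) : ∃ d₀ : ℕ, ∀ᶠ q in Fl ρ,
    ∀ (k : ℕ) (A : Finset (List ℕ)), k + d₀ ≤ q.2 → Fam a0 (fun _ => 0) (bigB q.1) k A →
      (∀ l ∈ A, Dec l ∧ ∃ j, j < k ∧ ¬ (lv l j ≤ vr ρ ^ (11 * (q.2 - (j + 1))) ∧
        Normal (vr ρ ^ (6 * (q.2 - (j + 1)))) (l.getD j 1))) →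
      (∑ l ∈ A, wt l) * Real.exp (C₁ * ((q.2 - k : ℕ) : ℝ) ^ 2) ≤ ε * Vol k (bigB q.1) := by
  obtain ⟨d₁, h₁⟩ := L0 h hC
  obtain ⟨C, hC1, hV⟩ := V1' h
  obtain ⟨d₂, h₂⟩ := exists_pow_lt_of_lt_one (x := ε / (4 * C)) (y := 1 / 2) (by positivity)
    (by norm_num)
  refine ⟨d₁ + d₂, ?_⟩
  filter_upwards [ev_SB h, h₁] with q hSB h₁ k A hk hF hA
  have hVk := Vol_nonneg k (bigB q.1)
  rw [sum_mul]
  refine (sum_le_sum_cover A (range k) _ (fun l _ => mul_nonneg (wt_nonneg l) (Real.exp_pos _).le)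
    (fun j l => ¬ (lv l j ≤ vr ρ ^ (11 * (q.2 - (j + 1))) ∧
        Normal (vr ρ ^ (6 * (q.2 - (j + 1)))) (l.getD j 1)))
    (fun l hl => ?_) (fun j => (1 / 2) ^ (q.2 - (j + 1)) * (2 * C * Vol k (bigB q.1)))
    fun j hj A' hsub hA' => ?_).trans ?_
  · obtain ⟨j, hj, hj'⟩ := (hA l hl).2
    exact ⟨j, mem_range.2 hj, hj'⟩
  · rw [← sum_mul]
    have hjk := mem_range.1 hj
    refine (h₁ k j A' hjk (by omega) (fun l hl => hF l (hsub hl))
      fun l hl => ⟨(hA l (hsub hl)).1, hA' l hl⟩).trans ?_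
    have h3 := hV _ _ j k hSB hjk.le (by omega)
    calc 2 * (1 / 2) ^ (q.2 - (j + 1)) * Vol j (bigB q.1)
        ≤ 2 * (1 / 2) ^ (q.2 - (j + 1)) * (C * Vol k (bigB q.1)) := by gcongr
      _ = _ := by ring
  · rw [← sum_mul]
    have h3 := L0_geom (m := q.2) (k := k) (by omega)
    have h4 : (1 / 2 : ℝ) ^ (q.2 - k) ≤ (1 / 2) ^ d₂ :=
      pow_le_pow_of_le_one (by norm_num) (by norm_num) (by omega)
    have h5 : ∑ j ∈ range k, (1 / 2 : ℝ) ^ (q.2 - (j + 1)) ≤ 2 * (ε / (4 * C)) := by linarith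
    calc _ ≤ 2 * (ε / (4 * C)) * (2 * C * Vol k (bigB q.1)) := by gcongr
      _ = _ := by field_simp; ring

end Crest.Agent.R020
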