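import Crest.Agent.R020.Simp
import Crest.Agent.R020.Vol

set_option autoImplicit false

namespace Crest.Agent.R020

open Finset Filter Topology Crest.Agent.R008 Crest.Agent.R026 Crest.NumberTheoryR.TotientScale

variable {ρ : ℝ}

/-- `κ = a₁ / (1 - a₁)`. -/
noncomputable def kap : ℝ := aCoef 1 / (1 - aCoef 1)

/-- The dual weights of the modified simplex. -/
noncomputable def cj (j l : ℕ) : ℝ := if l ≤ j then gSeq l else gSeq l + kap * gSeq j * gSeq (l - j)

theorem MSx_a : 0 < 1 - aCoef 1 := by linarith [a_one.2]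

theorem MSx_kap_pos : 0 < kap := div_pos (a_pos le_rfl) MSx_a

theorem MSx_div (x : ℝ) : x / (1 - aCoef 1) = x + kap * x := by
  have := MSx_a.ne'
  unfold kap
  field_simp
  ring

theorem MSx_g_le (j l : ℕ) : gSeq l ≤ cj j l := by
  unfold cj
  split_ifs
  · exact le_rfl
  · have := mul_pos (mul_pos MSx_kap_pos (g_pos j)) (g_pos (l - j))
    linarith

theorem MSx_pos (j l : ℕ) : 0 < cj j l := (g_pos l).trans_le (MSx_g_le j l)

theorem MSx_self (j : ℕ) : cj j j = gSeq j := if_pos le_rfl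

/-- The modified simplex.  Apply `SU` with the `j`-th inequality replaced by `Ext`:
`α i l = if i = j then a_{l-j+1} / (1 - a₁) else a_{l-i}`,
`β' i = if i = j then βs / (1 - a₁) else β i`, `c = cj j`.  For `l > j` one has
`a_{l-j+1} / (1 - a₁) ≥ a_{l-j} + κ a_{l-j}` (`a_mono`) and
`∑_{i<l} cj i a_{l-i} + κ g_j a_{l-j} = g_l + κ g_j g_{l-j}` (`g_eq` twice). -/
theorem ms0 {β : ℕ → ℝ} {βs B : ℝ} {k j : ℕ} {A : Finset (List ℕ)} (h1 : 1 ≤ j) (hj : j ≤ k)
    (hA : Fam a0 β B k A) (hE : ∀ l ∈ A, Ext j βs B l) :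
    ∑ l ∈ A, wt l ≤ Vp k (B - ∑ i ∈ range (k + 1), cj j i * (if i = j then βs / (1 - aCoef 1)
      else β i) + cM * ∑ i ∈ range k, cj j (i + 1)) / ∏ i ∈ range k, cj j (i + 1) := by
  refine SU (fun i l => if i = j then aCoef (l - j + 1) / (1 - aCoef 1) else aCoef (l - i)) (cj j)
    (by rw [cj, if_pos (Nat.zero_le j), g_zero]) B k (fun l hl1 _ => ⟨MSx_pos j l, ?_⟩)
    (fun i => if i = j then βs / (1 - aCoef 1) else β i) A fun l hl => ?_
  · rcases le_or_gt l j with hlj | hlj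
    · rw [cj, if_pos hlj, g_eq hl1]
      refine le_of_eq (sum_congr rfl fun i hi => ?_)
      have := mem_range.1 hi
      rw [cj, if_pos (by omega), if_neg (by omega)]
    · have e1 : ∑ i ∈ range l, (if j ≤ i then gSeq (i - j) * aCoef (l - i) else 0) = gSeq (l - j) := by
        obtain ⟨n, rfl⟩ := Nat.exists_eq_add_of_le hlj.le
        rw [sum_range_add, sum_eq_zero fun i hi => if_neg (not_le.2 (mem_range.1 hi)), zero_add,
          Nat.add_sub_cancel_left, g_eq (show 1 ≤ n by omega)]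
        refine sum_congr rfl fun i _ => ?_
        rw [if_pos (Nat.le_add_right _ _), Nat.add_sub_cancel_left, Nat.add_sub_add_left]
      rw [cj, if_neg (not_le.2 hlj), ← e1, g_eq hl1, mul_sum, ← sum_add_distrib]
      refine sum_le_sum fun i _ => ?_
      rcases lt_trichotomy i j with hij | rfl | hij
      · rw [if_neg (not_le.2 hij), if_neg hij.ne, cj, if_pos hij.le, mul_zero, add_zero]
      · rw [if_pos le_rfl, if_pos rfl, MSx_self, Nat.sub_self, g_zero, MSx_div]
        have h2 : aCoef (l - i) ≤ aCoef (l - i + 1) := a_mono (Nat.le_succ _)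
        have h3 := mul_le_mul_of_nonneg_left h2 (g_pos i).le
        have h4 := mul_le_mul_of_nonneg_left h3 MSx_kap_pos.le
        linarith
      · rw [if_pos hij.le, if_neg hij.ne', cj, if_neg (not_le.2 hij)]
        exact le_of_eq (by ring)
  · obtain ⟨h2, h3, h4⟩ := hA l hl
    refine ⟨h2, h3, fun i hi => ?_⟩
    by_cases hij : i = j
    · subst hij
      simp only [if_true]
      have h5 := hE l hl
      unfold Ext at h5
      simp only [div_mul_eq_mul_div]
      rw [← sum_div, ← add_div, div_le_iff₀ MSx_a]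
      linarith
    · simp only [if_neg hij]
      exact h4 i hi

/-- `g_j g_{l-j}` is comparable with `g_l` (`g_le`, `g_lower`). -/
theorem cj_bounds (h : Root ρ) : ∃ θ C : ℝ, 0 < θ ∧ θ < 1 ∧ 1 ≤ C ∧
    (∀ j l, gSeq l ≤ cj j l ∧ cj j l ≤ C * gSeq l) ∧
    ∀ j k, j ≤ k → ∏ i ∈ range k, gSeq (i + 1) ≤ θ ^ (k - j) * ∏ i ∈ range k, cj j (i + 1) := by
  obtain ⟨c, hc, -, hg⟩ := g_lower h
  have hk := MSx_kap_pos
  have hv := vr_pos h
  have h1 : 0 < kap * c ^ 2 := by positivity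
  have h2 : 0 < kap / c := by positivity
  have e : ∀ j l : ℕ, j ≤ l → vr ρ ^ (10 * l) = vr ρ ^ (10 * j) * vr ρ ^ (10 * (l - j)) := by
    intro j l hjl
    rw [← pow_add]; congr 1; omega
  refine ⟨(1 + kap * c ^ 2)⁻¹, 1 + kap / c, by positivity, inv_lt_one_of_one_lt₀ (by linarith),
    by linarith, fun j l => ⟨MSx_g_le j l, ?_⟩, fun j k hjk => ?_⟩
  · have h3 := g_pos l
    unfold cj
    split_ifs with hl
    · nlinarith
    · have h4 : gSeq j * gSeq (l - j) ≤ vr ρ ^ (10 * l) := by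
        rw [e j l (by omega)]
        exact mul_le_mul (g_le h j) (g_le h _) (g_pos _).le (by positivity)
      have h5 : vr ρ ^ (10 * l) ≤ gSeq l / c := by
        rw [le_div_iff₀ hc, mul_comm]; exact hg l
      have h6 := mul_le_mul_of_nonneg_left (h4.trans h5) hk.le
      have h7 : kap * (gSeq l / c) = kap / c * gSeq l := by ring
      linarith
  · induction k, hjk using Nat.le_induction with
    | base =>
      rw [Nat.sub_self, pow_zero, one_mul]
      exact prod_le_prod (fun i _ => (g_pos _).le) fun i _ => MSx_g_le _ _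
    | succ k hk' ih =>
      have h3 : gSeq (k + 1) ≤ (1 + kap * c ^ 2)⁻¹ * cj j (k + 1) := by
        rw [le_inv_mul_iff₀ (by positivity), cj, if_neg (by omega)]
        have h4 : c ^ 2 * vr ρ ^ (10 * (k + 1)) ≤ gSeq j * gSeq (k + 1 - j) := by
          rw [e j (k + 1) (by omega)]
          calc _ = c * vr ρ ^ (10 * j) * (c * vr ρ ^ (10 * (k + 1 - j))) := by ring
            _ ≤ _ := mul_le_mul (hg _) (hg _) (by positivity) (g_pos _).le
        have h5 := mul_le_mul_of_nonneg_left (g_le h (k + 1)) (sq_nonneg c)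
        have h6 := mul_le_mul_of_nonneg_left (h5.trans h4) hk.le
        linarith
      rw [prod_range_succ, prod_range_succ, Nat.succ_sub hk', pow_succ]
      calc _ ≤ ((1 + kap * c ^ 2)⁻¹ ^ (k - j) * ∏ i ∈ range k, cj j (i + 1)) *
            ((1 + kap * c ^ 2)⁻¹ * cj j (k + 1)) :=
            mul_le_mul ih h3 (g_pos _).le ((prod_g_pos k).le.trans ih)
        _ = _ := by ring

theorem MSx_fin {θ s s' : ℝ} {j k : ℕ}
    (hθ : ∏ i ∈ range k, gSeq (i + 1) ≤ θ ^ (k - j) * ∏ i ∈ range k, cj j (i + 1)) (hs : s ≤ s') :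
    Vp k s / ∏ i ∈ range k, cj j (i + 1) ≤ θ ^ (k - j) * Vol k s' := by
  have h1 : 0 < ∏ i ∈ range k, cj j (i + 1) := prod_pos fun _ _ => MSx_pos _ _
  have h2 := prod_g_pos k
  have h3 := Vp_mono k hs
  have h4 := Vp_nonneg k s
  rw [Vol, ← mul_div_assoc, div_le_div_iff₀ h1 h2]
  calc _ ≤ Vp k s' * (θ ^ (k - j) * ∏ i ∈ range k, cj j (i + 1)) :=
        mul_le_mul h3 hθ h2.le (h4.trans h3)
    _ = _ := by ring

theorem MSx_sum {C : ℝ} {j : ℕ} (hC : 0 ≤ C) (h : ∀ l, cj j l ≤ C * gSeq l) (k : ℕ) :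
    cM * ∑ i ∈ range k, cj j (i + 1) ≤ C * ∑ i ∈ range (k + 1), gSeq i * cM := by
  have h0 : 0 ≤ cM := zero_le_one.trans one_le_cM
  rw [sum_range_succ', mul_add, mul_sum, mul_sum]
  have h1 : 0 ≤ C * (gSeq 0 * cM) := mul_nonneg hC (mul_nonneg (g_pos 0).le h0)
  refine le_trans (sum_le_sum fun i _ => ?_) (le_add_of_nonneg_right h1)
  have := mul_le_mul_of_nonneg_left (h (i + 1)) h0
  linarith

/-- Absolute version: the budget grows by at most `C ϱ^(10 m)` (`V3`, `g_le`), `Vol_add_SB`. -/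
theorem ms1 (h : Root ρ) : ∃ θ C : ℝ, 0 < θ ∧ θ < 1 ∧ 1 ≤ C ∧
    ∀ (B βs : ℝ) (m k j : ℕ) (A : Finset (List ℕ)), SB ρ B m → 1 ≤ j → j ≤ k → k ≤ m →
      -(2 * vr ρ ^ (10 * (m - j + 1))) ≤ βs → Fam a0 (be ρ m) B k A → (∀ l ∈ A, Ext j βs B l) →
      ∑ l ∈ A, wt l ≤ C * θ ^ (k - j) * Vol k B := by
  obtain ⟨θ, C, hθ0, hθ1, hC, hcj, hprod⟩ := cj_bounds h
  obtain ⟨C₃, hC₃, hV⟩ := V3 h cM
  have hv := vr_pos h
  have hl := lam_pos h
  have hP : 0 ≤ C * C₃ + 4 * vr ρ ^ 10 := by positivity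
  refine ⟨θ, Real.exp ((C * C₃ + 4 * vr ρ ^ 10) / lam ρ), hθ0, hθ1,
    Real.one_le_exp (by positivity), fun B βs m k j A hB h1 hj hk hβ hA hE => ?_⟩
  refine (ms0 h1 hj hA hE).trans ((MSx_fin (hprod j k hj)
    (s' := B + (C * C₃ + 4 * vr ρ ^ 10) * vr ρ ^ (10 * m)) ?_).trans ?_)
  · have h2 := MSx_sum (by linarith) (fun l => (hcj j l).2) k
    have h3 : ∑ i ∈ range (k + 1), -(cj j i * (if i = j then βs / (1 - aCoef 1) else be ρ m i)) ≤
        ∑ i ∈ range (k + 1), (C * (gSeq i * vr ρ ^ (7 * (m - i))) +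
          if i = j then 4 * vr ρ ^ 10 * vr ρ ^ (10 * m) else 0) := by
      refine sum_le_sum fun i _ => ?_
      have h4 : 0 ≤ C * (gSeq i * vr ρ ^ (7 * (m - i))) :=
        mul_nonneg (by linarith) (mul_nonneg (g_pos i).le (by positivity))
      split_ifs with hij
      · subst hij
        have h5 : -(4 * vr ρ ^ (10 * (m - i + 1))) ≤ βs / (1 - aCoef 1) := by
          rw [le_div_iff₀ MSx_a]
          have h6 : 0 ≤ vr ρ ^ (10 * (m - i + 1)) := by positivity
          nlinarith [a_one.2]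
        have h6 := mul_le_mul_of_nonneg_left h5 (g_pos i).le
        have h7 := mul_le_mul_of_nonneg_right (g_le h i)
          (show 0 ≤ vr ρ ^ (10 * (m - i + 1)) by positivity)
        have h8 : vr ρ ^ (10 * i) * vr ρ ^ (10 * (m - i + 1)) = vr ρ ^ 10 * vr ρ ^ (10 * m) := by
          rw [← pow_add, ← pow_add]; congr 1; omega
        rw [MSx_self]
        linarith
      · have h5 := mul_le_mul_of_nonneg_right (hcj j i).2
          (show 0 ≤ vr ρ ^ (7 * (m - i)) by positivity)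
        unfold be
        linarith
    rw [sum_neg_distrib, sum_add_distrib, sum_ite_eq', if_pos (mem_range.2 (by omega)),
      ← mul_sum] at h3
    have h4 := (hV m k hk).trans (mul_le_mul_of_nonneg_left
      (vr_pow_mono h (show 10 * k + 7 * (m - k) ≤ 10 * m by omega)) (by linarith))
    simp only [mul_add, sum_add_distrib] at h4
    have h5 := mul_le_mul_of_nonneg_left h4 (show 0 ≤ C by linarith)
    linarith
  · have h2 := mul_le_mul_of_nonneg_left (Vol_add_SB h hB hk hP) (pow_nonneg hθ0.le (k - j))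
    linarith

/-- Relative version.  The budget is at most `s - Y + P`, where `s = B - H ∈ [B/2, B]`,
`P = C ϱ^(10 m)` and `Y = κ g_j g_{k-j} β k ≥ κ c² K ϱ^(10 m)` (for `j = k` use
`βs / (1 - a₁) ≥ (1 + κ) β j`); `Vol_sub_le` with `k Y / s ≥ k Y / B ≥ c' K` and
`k P / s ≤ 2 C / λ`. -/
theorem ms2 (h : Root ρ) : ∃ θ C c : ℝ, 0 < θ ∧ θ < 1 ∧ 1 ≤ C ∧ 0 < c ∧
    ∀ (B K : ℝ) (β : ℕ → ℝ) (m k j : ℕ) (A : Finset (List ℕ)), SB ρ B m → 1 ≤ j → j ≤ k → k ≤ m →
      m ≤ 2 * k → 0 ≤ K → (∀ i, 0 ≤ β i) → β j ≤ β (j - 1) → K * vr ρ ^ (10 * (m - k)) ≤ β k →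
      ∑ i ∈ range (k + 1), gSeq i * β i ≤ B / 2 → Fam a0 β B k A →
      (∀ l ∈ A, Ext j (β (j - 1)) B l) →
      ∑ l ∈ A, wt l ≤ C * θ ^ (k - j) * Real.exp (-(c * K)) *
        Vol k (B - ∑ i ∈ range (k + 1), gSeq i * β i) := by
  obtain ⟨θ, C, hθ0, hθ1, hC, hcj, hprod⟩ := cj_bounds h
  obtain ⟨C₃, hC₃, hV⟩ := V3 h cM
  obtain ⟨c, hc, -, hg⟩ := g_lower h
  have hv := vr_pos h
  have hl := lam_pos h
  have hκ := MSx_kap_pos
  refine ⟨θ, Real.exp (C * C₃ * (2 / lam ρ)), kap * c ^ 2 * (1 / (4 * lam ρ * vr ρ ^ 30)), hθ0, hθ1,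
    Real.one_le_exp (by positivity), by positivity,
    fun B K β m k j A hB h1 hj hk hm hK hβ hβj hβk hH hA hE => ?_⟩
  have hB0 := SB.pos h hB (by omega)
  set H := ∑ i ∈ range (k + 1), gSeq i * β i with hHdef
  have hH0 : 0 ≤ H := sum_nonneg fun i _ => mul_nonneg (g_pos i).le (hβ i)
  have hs : 0 < B - H := by linarith
  refine (ms0 h1 hj hA hE).trans ((MSx_fin (hprod j k hj)
    (s' := B - H - (kap * c ^ 2 * K - C * C₃) * vr ρ ^ (10 * m)) ?_).trans ?_)
  · have h2 := MSx_sum (by linarith) (fun l => (hcj j l).2) k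
    have h3 : ∑ i ∈ range (k + 1), (gSeq i * β i +
          if i = k then kap * gSeq j * gSeq (k - j) * β k else 0) ≤
        ∑ i ∈ range (k + 1), cj j i * (if i = j then β (j - 1) / (1 - aCoef 1) else β i) := by
      refine sum_le_sum fun i _ => ?_
      by_cases hij : i = j
      · subst hij
        rw [if_pos rfl, MSx_self, MSx_div]
        have h4 := mul_le_mul_of_nonneg_left hβj (g_pos i).le
        have h5 := mul_le_mul_of_nonneg_left h4 hκ.le
        split_ifs with hik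
        · subst hik
          rw [Nat.sub_self, g_zero]
          linarith
        · have h6 := mul_nonneg hκ.le (mul_nonneg (g_pos i).le (hβ (i - 1)))
          linarith
      · rw [if_neg hij]
        split_ifs with hik
        · subst hik
          rw [cj, if_neg (by omega)]
          exact le_of_eq (by ring)
        · rw [add_zero]
          exact mul_le_mul_of_nonneg_right (hcj j i).1 (hβ i)
    rw [sum_add_distrib, sum_ite_eq', if_pos (mem_range.2 (Nat.lt_succ_self k))] at h3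
    have h4 := (hV m k hk).trans (mul_le_mul_of_nonneg_left
      (vr_pow_mono h (show 10 * k + 7 * (m - k) ≤ 10 * m by omega)) (by linarith))
    simp only [mul_add, sum_add_distrib] at h4
    have h5 := mul_le_mul_of_nonneg_left h4 (show 0 ≤ C by linarith)
    have h6 : 0 ≤ C * ∑ i ∈ range (k + 1), gSeq i * vr ρ ^ (7 * (m - i)) :=
      mul_nonneg (by linarith) (sum_nonneg fun i _ => mul_nonneg (g_pos i).le (by positivity))
    have h7 : kap * c ^ 2 * K * vr ρ ^ (10 * m) ≤ kap * gSeq j * gSeq (k - j) * β k := by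
      have e : vr ρ ^ (10 * m) =
          vr ρ ^ (10 * j) * vr ρ ^ (10 * (k - j)) * vr ρ ^ (10 * (m - k)) := by
        rw [← pow_add, ← pow_add]; congr 1; omega
      have := (g_pos j).le
      have := (g_pos (k - j)).le
      calc _ = kap * (c * vr ρ ^ (10 * j)) * (c * vr ρ ^ (10 * (k - j))) *
            (K * vr ρ ^ (10 * (m - k))) := by rw [e]; ring
        _ ≤ _ := by gcongr <;> exact hg _
    linarith
  · have h2 := Vol_sub_le k hs ((kap * c ^ 2 * K - C * C₃) * vr ρ ^ (10 * m))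
    have hw : 0 < vr ρ ^ (10 * m) := by positivity
    have hkm : (k : ℝ) ≤ m := by exact_mod_cast hk
    have hmk : (m : ℝ) ≤ 2 * k := by exact_mod_cast hm
    have h3 : k * vr ρ ^ (10 * m) / (B - H) ≤ 2 / lam ρ := by
      rw [div_le_div_iff₀ hs hl]
      have h4 := mul_le_mul_of_nonneg_left (mul_le_mul_of_nonneg_right hkm hw.le) hl.le
      linarith [hB.1]
    have h4 : 1 / (4 * lam ρ * vr ρ ^ 30) ≤ k * vr ρ ^ (10 * m) / (B - H) := by
      rw [div_le_div_iff₀ (by positivity) hs]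
      have h5 := mul_le_mul_of_nonneg_left (mul_le_mul_of_nonneg_right hmk hw.le)
        (show 0 ≤ 2 * lam ρ * vr ρ ^ 30 by positivity)
      linarith [hB.2]
    have h5 : Real.exp (-(k * ((kap * c ^ 2 * K - C * C₃) * vr ρ ^ (10 * m)) / (B - H))) ≤
        Real.exp (C * C₃ * (2 / lam ρ)) *
          Real.exp (-(kap * c ^ 2 * (1 / (4 * lam ρ * vr ρ ^ 30)) * K)) := by
      rw [← Real.exp_add, Real.exp_le_exp]
      have h6 := mul_le_mul_of_nonneg_left h3 (show 0 ≤ C * C₃ by positivity)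
      have h7 := mul_le_mul_of_nonneg_left h4 (show 0 ≤ kap * c ^ 2 * K by positivity)
      have e : k * ((kap * c ^ 2 * K - C * C₃) * vr ρ ^ (10 * m)) / (B - H) =
          kap * c ^ 2 * K * (k * vr ρ ^ (10 * m) / (B - H)) -
            C * C₃ * (k * vr ρ ^ (10 * m) / (B - H)) := by ring
      rw [e]
      linarith
    have h6 := mul_le_mul_of_nonneg_left
      (h2.trans (mul_le_mul_of_nonneg_right h5 (Vol_nonneg k _))) (pow_nonneg hθ0.le (k - j))
    linarith

end Crest.Agent.R020
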