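import Crest.Agent.R020.Simp
import Crest.Agent.R020.Vol
import Crest.Agent.R020.Bas3

set_option autoImplicit false

namespace Crest.Agent.R020

open Finset Filter Topology Crest.Agent.R008 Crest.Agent.R026 Crest.NumberTheoryR.TotientScale

variable {ρ : ℝ}

theorem Tail.H_nonneg {t : Tail} (ht : ∀ j, 0 ≤ t.lam j) (J k : ℕ) : 0 ≤ t.H J k := by
  exact sum_nonneg fun i _ => mul_nonneg (g_pos i).le (Tail.beta_nonneg ht J k i)

/-- `V3'` gives `H ≤ C(t) ϱ^(10 k)`; `ev_large`. -/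
theorem H_small (h : Root ρ) (t : Tail) (ht : ∀ j, 0 ≤ t.lam j) (J M : ℕ) :
    ∀ᶠ q in Fl ρ, t.H J (q.2 - M) ≤ bigB q.1 / 2 := by
  obtain ⟨C, hC, hV⟩ := V3' h
  filter_upwards [ev_large h (2 * ∑ j ∈ range J, C * ((j : ℝ) + 1) * t.lam j)] with q hq
  have h1 : t.H J (q.2 - M) ≤
      (∑ j ∈ range J, C * ((j : ℝ) + 1) * t.lam j) * vr ρ ^ (10 * q.2) := by
    simp only [Tail.H, Tail.beta, mul_sum, ← mul_assoc]
    rw [sum_comm, sum_mul]
    refine sum_le_sum fun j _ => ?_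
    rw [← sum_mul, mul_right_comm]
    refine mul_le_mul_of_nonneg_right ((hV _ j).trans ?_) (ht j)
    exact mul_le_mul_of_nonneg_left (vr_pow_mono h (by omega)) (by positivity)
  linarith [hq.1]

theorem rel_key (h : Root ρ) {C δ : ℝ} (hC : 0 ≤ C) (hδ : 0 < δ) : ∃ M₀ : ℕ, ∀ M : ℕ, M₀ ≤ M →
    ∀ (B s P : ℝ) (m : ℕ), SB ρ B m → M ≤ m → B / 2 ≤ s →
      P ≤ C * ((M : ℝ) + 1) ^ 3 * vr ρ ^ (10 * (m - M) + 7 * M) → m * P ≤ δ * s := by
  obtain ⟨M₀, hM₀⟩ := poly_le_vr h (2 * C / (lam ρ * δ)) 3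
  refine ⟨M₀, fun M hM B s P m hB hm hs hP => ?_⟩
  have hl := lam_pos h
  have hv := vr_pos h
  have h1 : 2 * C * ((M : ℝ) + 1) ^ 3 ≤ lam ρ * δ * vr ρ ^ (3 * M) := by
    have := (hM₀ M hM).trans (vr_pow_mono h (show M ≤ 3 * M by omega))
    rw [div_mul_eq_mul_div, div_le_iff₀ (by positivity)] at this
    linarith
  have h2 : vr ρ ^ (10 * m) = vr ρ ^ (3 * M) * vr ρ ^ (10 * (m - M) + 7 * M) := by
    rw [← pow_add]
    congr 1
    omega
  have h3 : 2 * P ≤ lam ρ * δ * vr ρ ^ (10 * m) := by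
    have := mul_le_mul_of_nonneg_right h1
      (show 0 ≤ vr ρ ^ (10 * (m - M) + 7 * M) by positivity)
    rw [h2]
    linarith
  have h4 := mul_le_mul_of_nonneg_left h3 (Nat.cast_nonneg (α := ℝ) m)
  have h5 := mul_le_mul_of_nonneg_left hB.1 hδ.le
  have h6 := mul_le_mul_of_nonneg_left hs hδ.le
  linarith

/-- `SU_g`; the budget is `s + P` with `s = B - H ≥ B / 2` and
`P ≤ C (M³ ϱ^(6 M) + ϱ^(7 M)) ϱ^(10 k)` (`V3`, `V3'`), so `k P / s ≤ 2 P / (λ ϱ^(10 m))` is small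
when `M` is large (`poly_le_vr`); `Vol_add_le`. -/
theorem rel_up (h : Root ρ) {ε : ℝ} (hε : 0 < ε) : ∃ M₀ : ℕ, ∀ M J : ℕ, M₀ ≤ M → J ≤ M →
    ∀ t : Tail, (∀ j, 0 ≤ t.lam j) → ∀ᶠ q in Fl ρ, ∀ A : Finset (List ℕ),
      Fam a0 (fun i => t.beta J (q.2 - M) i -
        10 * J * vr ρ ^ (6 * M) * ∑ j ∈ range J, aCoef (q.2 - M - i + j + 1) + be ρ q.2 i)
        (bigB q.1) (q.2 - M) A →
      ∑ l ∈ A, wt l ≤ (1 + ε) * Vol (q.2 - M) (bigB q.1 - t.H J (q.2 - M)) := by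
  obtain ⟨C, hC, hV⟩ := V3 h cM
  obtain ⟨C', hC', hV'⟩ := V3' h
  obtain ⟨M₀, hM₀⟩ := rel_key h (C := 10 * C' + C) (by positivity)
    (Real.log_pos (show 1 < 1 + ε by linarith))
  refine ⟨M₀, fun M J hM hJ t ht => ?_⟩
  filter_upwards [ev_SB h, H_small h t ht J M, (tendsto_m h).eventually_ge_atTop (M + 1)]
    with q hB hH hm A hA
  have hv := vr_pos h
  have hM1 := one_le_cM
  have hB0 := hB.pos h (by omega)
  have e : q.2 - (q.2 - M) = M := by omega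
  have h1 := hV q.2 (q.2 - M) (by omega)
  rw [e] at h1
  have h2 : ∑ i ∈ range (q.2 - M + 1), gSeq i * ∑ j ∈ range J, aCoef (q.2 - M - i + j + 1) ≤
      J * (C' * ((M : ℝ) + 1) * vr ρ ^ (10 * (q.2 - M))) := by
    simp only [mul_sum]
    rw [sum_comm]
    refine (sum_le_card_nsmul _ _ _ fun j hj => (hV' _ j).trans ?_).trans
      (le_of_eq (by rw [card_range, nsmul_eq_mul]))
    have : (j : ℝ) ≤ M := by exact_mod_cast ((mem_range.1 hj).le.trans hJ)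
    gcongr
  set P := 10 * J * vr ρ ^ (6 * M) *
      ∑ i ∈ range (q.2 - M + 1), gSeq i * ∑ j ∈ range J, aCoef (q.2 - M - i + j + 1) +
    ∑ i ∈ range (q.2 - M + 1), gSeq i * (vr ρ ^ (7 * (q.2 - i)) + cM) with hP
  have hP0 : 0 ≤ P := add_nonneg (mul_nonneg (by positivity) (sum_nonneg fun i _ =>
    mul_nonneg (g_pos i).le (sum_nonneg fun j _ => a_nonneg (by omega))))
    (sum_nonneg fun i _ => mul_nonneg (g_pos i).le (by positivity))
  have hP1 : P ≤ (10 * C' + C) * ((M : ℝ) + 1) ^ 3 * vr ρ ^ (10 * (q.2 - M) + 7 * M) := by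
    have a1 : (J : ℝ) ≤ M + 1 := by exact_mod_cast (by omega : J ≤ M + 1)
    have a2 : vr ρ ^ (6 * M) ≤ vr ρ ^ (7 * M) := vr_pow_mono h (by omega)
    have a3 : (1 : ℝ) ≤ ((M : ℝ) + 1) ^ 3 := one_le_pow₀ (by linarith [Nat.cast_nonneg (α := ℝ) M])
    calc P ≤ 10 * (M + 1) * vr ρ ^ (7 * M) *
          ((M + 1) * (C' * ((M : ℝ) + 1) * vr ρ ^ (10 * (q.2 - M)))) +
          C * ((M : ℝ) + 1) ^ 3 * vr ρ ^ (10 * (q.2 - M) + 7 * M) := by
          refine add_le_add ((mul_le_mul_of_nonneg_left h2 (by positivity)).trans (by gcongr))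
            (h1.trans ?_)
          exact mul_le_mul_of_nonneg_right (le_mul_of_one_le_right (by positivity) a3)
            (by positivity)
      _ = _ := by rw [pow_add]; ring
  have hs : 0 < bigB q.1 - t.H J (q.2 - M) := by linarith
  have h3 := hM₀ M hM (bigB q.1) (bigB q.1 - t.H J (q.2 - M)) P q.2 hB (by omega) (by linarith) hP1
  refine (SU_g _ _ _ A hA).trans ?_
  rw [show bigB q.1 - ∑ i ∈ range (q.2 - M + 1), gSeq i * (t.beta J (q.2 - M) i -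
      10 * J * vr ρ ^ (6 * M) * ∑ j ∈ range J, aCoef (q.2 - M - i + j + 1) + be ρ q.2 i) +
      cM * ∑ i ∈ range (q.2 - M + 1), gSeq i = bigB q.1 - t.H J (q.2 - M) + P by
    rw [hP, Tail.H, mul_sum, mul_sum, sub_add, sub_add, ← sum_add_distrib, ← sum_sub_distrib,
      ← sum_sub_distrib]
    congr 1
    exact sum_congr rfl fun i _ => by rw [be]; ring]
  refine (Vol_add_le _ hs P).trans (mul_le_mul_of_nonneg_right ?_ (Vol_nonneg _ _))
  rw [← Real.exp_log (show 0 < 1 + ε by linarith), Real.exp_le_exp, div_le_iff₀ hs]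
  refine le_trans (mul_le_mul_of_nonneg_right ?_ hP0) h3
  exact_mod_cast Nat.sub_le _ _

/-- `SL`, `V3`, `le_Vol_sub`. -/
theorem rel_lo (h : Root ρ) {ε : ℝ} (hε : 0 < ε) : ∃ M₀ : ℕ, ∀ M J : ℕ, M₀ ≤ M →
    ∀ t : Tail, (∀ j, 0 ≤ t.lam j) → ∀ᶠ q in Fl ρ,
      (1 - ε) * Vol (q.2 - M) (bigB q.1 - t.H J (q.2 - M)) ≤
        ∑ l ∈ Reg (fun i => t.beta J (q.2 - M) i - be ρ q.2 i) (bigB q.1) (q.2 - M), wt l := by
  obtain ⟨C, hC, hV⟩ := V3 h cM
  obtain ⟨M₀, hM₀⟩ := rel_key h (C := C) (by positivity) (lt_min hε one_pos)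
  refine ⟨M₀, fun M J hM t ht => ?_⟩
  filter_upwards [ev_SB h, H_small h t ht J M, (tendsto_m h).eventually_ge_atTop (M + 1)]
    with q hB hH hm
  have hv := vr_pos h
  have hM1 := one_le_cM
  have hB0 := hB.pos h (by omega)
  have e : q.2 - (q.2 - M) = M := by omega
  have h1 := hV q.2 (q.2 - M) (by omega)
  rw [e] at h1
  set P := ∑ i ∈ range (q.2 - M + 1), gSeq i * (vr ρ ^ (7 * (q.2 - i)) + cM) with hP
  have hP0 : 0 ≤ P := sum_nonneg fun i _ => mul_nonneg (g_pos i).le (by positivity)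
  have a3 : (1 : ℝ) ≤ ((M : ℝ) + 1) ^ 3 := one_le_pow₀ (by linarith [Nat.cast_nonneg (α := ℝ) M])
  have hs : 0 < bigB q.1 - t.H J (q.2 - M) := by linarith
  have h3 := hM₀ M hM (bigB q.1) (bigB q.1 - t.H J (q.2 - M)) P q.2 hB (by omega) (by linarith)
    (h1.trans (mul_le_mul_of_nonneg_right (le_mul_of_one_le_right (by positivity) a3)
      (by positivity)))
  have h4 := mul_le_mul_of_nonneg_right (min_le_left ε 1) hs.le
  have h5 := mul_le_mul_of_nonneg_right (min_le_right ε 1) hs.le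
  have h6 : (1 : ℝ) * P ≤ q.2 * P :=
    mul_le_mul_of_nonneg_right (by exact_mod_cast (by omega : 1 ≤ q.2)) hP0
  have h7 : ((q.2 - M : ℕ) : ℝ) * P ≤ q.2 * P :=
    mul_le_mul_of_nonneg_right (by exact_mod_cast Nat.sub_le _ _) hP0
  refine le_trans ?_ (SL hB0.le _ _ fun i _ =>
    sub_nonneg.2 ((be_nonpos h _ _).trans (Tail.beta_nonneg ht _ _ _)))
  rw [show bigB q.1 - ∑ i ∈ range (q.2 - M + 1), gSeq i * (t.beta J (q.2 - M) i - be ρ q.2 i) -
      cM * ∑ i ∈ range (q.2 - M + 1), gSeq i = bigB q.1 - t.H J (q.2 - M) - P by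
    rw [hP, Tail.H, mul_sum, sub_sub, sub_sub, ← sum_add_distrib, ← sum_add_distrib]
    congr 1
    exact sum_congr rfl fun i _ => by rw [be]; ring]
  refine le_trans (mul_le_mul_of_nonneg_right ?_ (Vol_nonneg _ _)) (le_Vol_sub _ hs (by linarith))
  rw [sub_le_sub_iff_left, div_le_iff₀ hs]
  linarith

end Crest.Agent.R020
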