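import Crest.Agent.R020.L0
import Crest.Agent.R020.MSx
import Crest.Agent.R020.Rel

set_option autoImplicit false

namespace Crest.Agent.R020

open Finset Filter Topology Crest.Agent.R008 Crest.Agent.R026 Crest.NumberTheoryR.TotientScale

variable {ρ : ℝ}

theorem L1_geom {θ : ℝ} (h0 : 0 < θ) (h1 : θ < 1) (k : ℕ) :
    ∑ j ∈ Icc 1 k, θ ^ (k - j) ≤ (1 - θ)⁻¹ := by
  calc ∑ j ∈ Icc 1 k, θ ^ (k - j) ≤ ∑ j ∈ range (k + 1), θ ^ (k - j) :=
        sum_le_sum_of_subset_of_nonneg (fun j hj => by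
          simp only [mem_Icc, mem_range] at hj ⊢; omega) fun j _ _ => by positivity
    _ = ∑ j ∈ range (k + 1), θ ^ j := sum_flip fun j => θ ^ j
    _ ≤ ∑' j : ℕ, θ ^ j :=
        (summable_geometric_of_lt_one h0.le h1).sum_le_tsum _ fun j _ => by positivity
    _ = (1 - θ)⁻¹ := tsum_geometric_of_lt_one h0.le h1

/-- Lists which are not decreasing.  By `dec_iff` there is `2 ≤ j ≤ k` with
`ys B l (j - 1) ≤ ys B l j`; `Con.ext` with `e = 0`, `ms2` (`Tail.beta_nonneg`, `Tail.beta_anti`,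
`Tail.beta_self`), and `∑ θ^(k-j) ≤ 1 / (1 - θ)`. -/
theorem not_dec (h : Root ρ) : ∃ C c : ℝ, 1 ≤ C ∧ 0 < c ∧ ∀ (B K : ℝ) (m k J : ℕ) (t : Tail)
    (A : Finset (List ℕ)), SB ρ B m → k ≤ m → m ≤ 2 * k → 0 ≤ K → (∀ j, 0 ≤ t.lam j) →
    K * vr ρ ^ (10 * (m - k)) ≤ t.beta J 0 0 → t.H J k ≤ B / 2 → Fam a0 (t.beta J k) B k A →
    (∀ l ∈ A, ¬ Dec l) → ∑ l ∈ A, wt l ≤ C * Real.exp (-(c * K)) * Vol k (B - t.H J k) := by
  obtain ⟨θ, C, c, h0, h1, hC, hc, hms⟩ := ms2 h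
  have hθ : 1 ≤ (1 - θ)⁻¹ := (one_le_inv₀ (by linarith)).2 (by linarith)
  refine ⟨C * (1 - θ)⁻¹, c, one_le_mul_of_one_le_of_one_le hC hθ, hc,
    fun B K m k J t A hB hk hm hK ht hb hH hA hd => ?_⟩
  have hV := Vol_nonneg k (B - t.H J k)
  refine (sum_le_sum_cover A (Icc 1 k) wt (fun l _ => wt_nonneg l)
    (fun j l => Ext j (t.beta J k (j - 1)) B l) (fun l hl => ?_)
    (fun j => C * θ ^ (k - j) * Real.exp (-(c * K)) * Vol k (B - t.H J k))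
    fun j hj A' hA' hE => ?_).trans ?_
  · have h2 := hd l hl
    rw [dec_iff] at h2
    push Not at h2
    obtain ⟨i, hi, hle⟩ := h2
    obtain ⟨hlen, -, hcon⟩ := hA l hl
    refine ⟨i + 2, mem_Icc.2 ⟨by omega, by omega⟩, ?_⟩
    have := hcon.ext (e := 0) (j := i + 2) (by omega) (by omega) (by
      rw [add_zero]
      exact LL_mono_nat hle)
    rwa [sub_zero] at this
  · obtain ⟨hj1, hj2⟩ := mem_Icc.1 hj
    exact hms B K (t.beta J k) m k j A' hB hj1 hj2 hk hm hK (fun i => Tail.beta_nonneg ht J k i)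
      (Tail.beta_anti ht J k (Nat.sub_le j 1)) (by rwa [Tail.beta_self]) hH (hA.subset hA') hE
  · rw [← sum_mul, ← sum_mul, ← mul_sum]
    have := L1_geom h0 h1 k
    gcongr

/-- The first entry is too large: `Con.ext` with `j = 1`, `ms1`, `θ^(k-1) → 0`. -/
theorem top_big (h : Root ρ) {ε : ℝ} (hε : 0 < ε) (M : ℕ) : ∀ᶠ q in Fl ρ, ∀ A : Finset (List ℕ),
    Fam a0 (fun _ => 0) (bigB q.1) (q.2 - M) A →
    (∀ l ∈ A, bigB q.1 - vr ρ ^ (8 * q.2) < lv l 0) →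
    ∑ l ∈ A, wt l ≤ ε * Vol (q.2 - M) (bigB q.1) := by
  obtain ⟨θ, C, h0, h1, hC, hms⟩ := ms1 h
  have hT : Tendsto (fun q : ℝ × ℕ => C * θ ^ (q.2 - M - 1)) (Fl ρ) (𝓝 (C * 0)) := by
    refine Tendsto.const_mul C ((tendsto_pow_atTop_nhds_zero_of_lt_one h0.le h1).comp ?_)
    exact (tendsto_sub_atTop_nat 1).comp ((tendsto_sub_atTop_nat M).comp (tendsto_m h))
  rw [mul_zero] at hT
  filter_upwards [hT.eventually_le_const hε, ev_SB h, (tendsto_m h).eventually_ge_atTop (M + 1)]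
    with q h2 hB hm A hA hl
  have hA' : Fam a0 (be ρ q.2) (bigB q.1) (q.2 - M) A := hA.mono (fun i _ => be_nonpos h _ _) le_rfl
  refine (hms (bigB q.1) (be ρ q.2 0 - vr ρ ^ (8 * q.2)) q.2 (q.2 - M) 1 A hB le_rfl (by omega)
    (Nat.sub_le _ _) ?_ hA' fun l hl' => ?_).trans
    (mul_le_mul_of_nonneg_right h2 (Vol_nonneg _ _))
  · have a1 : vr ρ ^ (7 * (q.2 - 0)) ≤ vr ρ ^ (10 * (q.2 - 1 + 1)) := vr_pow_mono h (by omega)
    have a2 : vr ρ ^ (8 * q.2) ≤ vr ρ ^ (10 * (q.2 - 1 + 1)) := vr_pow_mono h (by omega)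
    unfold be
    linarith
  · obtain ⟨hlen, -, hcon⟩ := hA' l hl'
    refine hcon.ext (j := 1) le_rfl (by omega) ?_
    have := hl l hl'
    show bigB q.1 ≤ lv l 0 + _
    linarith

/-- The weight of the good lists.  For `t ∈ 𝒯` the region `Reg` is covered by `Gd`, the
non-decreasing lists (`not_dec`, `H_small`), those of `top_big` and those of `L0_all`; the last
two have weight `≤ ε Vol k B / W (ϱ^(11 M))` (`W_pow`; for `top_big` use `ε / W`), and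
`∑_t 1 / val ≤ W (ϱ^(11 M))` (`Tail.OK.tot`, injectivity, `sum_le_W`).  Main term: `rel_lo`. -/
theorem L1 (h : Root ρ) : ∃ C c : ℝ, 1 ≤ C ∧ 0 < c ∧ ∀ ε : ℝ, 0 < ε → ∃ M₀ : ℕ,
    ∀ (M' J : ℕ) (K : ℝ) (𝒯 : Finset Tail), M₀ ≤ M' + J → 0 ≤ K → Tails ρ J M' K 𝒯 →
    ∀ᶠ q in Fl ρ, (1 - ε - C * Real.exp (-(c * K))) * Main 𝒯 J (q.2 - (M' + J)) (bigB q.1) -
      ε * Vol (q.2 - (M' + J)) (bigB q.1) ≤
      ∑ t ∈ 𝒯, (∑ l ∈ Gd ρ (bigB q.1) q.2 J (q.2 - (M' + J)) t, wt l) / (t.val : ℝ) := by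
  classical
  obtain ⟨C, c, hC, hc, hnd⟩ := not_dec h
  obtain ⟨C₁, hC₁, hW⟩ := W_pow h
  refine ⟨C, c, hC, hc, fun ε hε => ?_⟩
  obtain ⟨M₁, hlo⟩ := rel_lo h hε
  obtain ⟨d₀, hL0⟩ := L0_all h (C₁ := C₁) (by linarith) (half_pos hε)
  refine ⟨M₁ + d₀ + 1, fun M' J K 𝒯 hM hK hT => ?_⟩
  set M := M' + J with hMd
  have hW1 := one_le_W (vr ρ ^ (11 * M))
  have hW0 : 0 < W (vr ρ ^ (11 * M)) := by linarith
  have hWM := hW M (by omega)
  have e1 := (eventually_all_finset 𝒯).2 fun t ht =>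
    hlo M J (by omega) t (hT.1 t ht).lam_nonneg
  have e2 := (eventually_all_finset 𝒯).2 fun t ht => H_small h t (hT.1 t ht).lam_nonneg J M
  filter_upwards [e1, e2, hL0, top_big h (div_pos (half_pos hε) hW0) M, ev_SB h,
    (tendsto_m h).eventually_ge_atTop (2 * M)] with q q1 q2 q3 q4 hB hm
  have hmk : q.2 - (q.2 - M) = M := by omega
  have hV := Vol_nonneg (q.2 - M) (bigB q.1)
  have key : ∀ t ∈ 𝒯, (1 - ε - C * Real.exp (-(c * K))) * Vol (q.2 - M) (bigB q.1 - t.H J (q.2 - M)) -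
      ε * Vol (q.2 - M) (bigB q.1) / W (vr ρ ^ (11 * M)) ≤
      ∑ l ∈ Gd ρ (bigB q.1) q.2 J (q.2 - M) t, wt l := by
    intro t ht
    have hok := hT.1 t ht
    have hF := fam_Reg (fun i => t.beta J (q.2 - M) i - be ρ q.2 i) (bigB q.1) (q.2 - M)
    have hF1 : Fam a0 (t.beta J (q.2 - M)) (bigB q.1) (q.2 - M) _ :=
      hF.mono (fun i _ => by linarith [be_nonpos h q.2 i]) le_rfl
    have hF0 : Fam a0 (fun _ => 0) (bigB q.1) (q.2 - M) _ :=
      hF1.mono (fun i _ => Tail.beta_nonneg hok.lam_nonneg _ _ _) le_rfl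
    have hc := sum_le_add_cover
      (Reg (fun i => t.beta J (q.2 - M) i - be ρ q.2 i) (bigB q.1) (q.2 - M)) wt
      (fun l => l ∈ Gd ρ (bigB q.1) q.2 J (q.2 - M) t)
      (∑ l ∈ Gd ρ (bigB q.1) q.2 J (q.2 - M) t, wt l)
      ((ε / 2 / W (vr ρ ^ (11 * M)) * Vol (q.2 - M) (bigB q.1) +
        ε / 2 / W (vr ρ ^ (11 * M)) * Vol (q.2 - M) (bigB q.1)) +
        C * Real.exp (-(c * K)) * Vol (q.2 - M) (bigB q.1 - t.H J (q.2 - M)))
      (fun A _ hA => sum_le_sum_of_subset_of_nonneg (fun l hl => hA l hl) fun l _ _ => wt_nonneg l)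
      (fun A hA hA' => sum_le_add_cover A wt Dec _ _
        (fun A₁ h₁ h₁' => sum_le_add_cover A₁ wt (fun l => bigB q.1 - vr ρ ^ (8 * q.2) < lv l 0) _ _
          (fun A₂ h₂ h₂' => q4 A₂ (hF0.subset (h₂.trans (h₁.trans hA))) h₂')
          fun A₂ h₂ h₂' => by
            have h3 := q3 (q.2 - M) A₂ (by omega) (hF0.subset (h₂.trans (h₁.trans hA))) fun l hl => by
              refine ⟨h₁' l (h₂ hl), ?_⟩
              by_contra hne
              refine hA' l (h₁ (h₂ hl)) (mem_filter.2 ⟨hA (h₁ (h₂ hl)), h₁' l (h₂ hl),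
                not_lt.1 (h₂' l hl), fun j hj => ?_⟩)
              by_contra hne'
              exact hne ⟨j, hj, hne'⟩
            rw [hmk] at h3
            have h4 := mul_le_mul_of_nonneg_left hWM (sum_nonneg fun l (_ : l ∈ A₂) => wt_nonneg l)
            rw [div_mul_eq_mul_div, le_div_iff₀ hW0]
            exact h4.trans h3)
        fun A₁ h₁ h₁' => hnd (bigB q.1) K q.2 (q.2 - M) J t A₁ hB (Nat.sub_le _ _) (by omega) hK
          hok.lam_nonneg (by rw [hmk]; exact hok.big) (q2 t ht) (hF1.subset (h₁.trans hA)) h₁')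
    have h5 := q1 t ht
    have h6 : ε * Vol (q.2 - M) (bigB q.1) / W (vr ρ ^ (11 * M)) =
        ε / 2 / W (vr ρ ^ (11 * M)) * Vol (q.2 - M) (bigB q.1) +
        ε / 2 / W (vr ρ ^ (11 * M)) * Vol (q.2 - M) (bigB q.1) := by ring
    linarith
  have hsum : ∑ t ∈ 𝒯, 1 / (t.val : ℝ) ≤ W (vr ρ ^ (11 * M)) := by
    rw [← sum_image (f := fun v : ℕ => 1 / (v : ℝ)) hT.2]
    refine sum_le_W fun v hv => ?_
    obtain ⟨t, ht, rfl⟩ := mem_image.1 hv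
    exact ((hT.1 t ht).tot h).2.2.1
  have h7 := sum_le_sum fun t (ht : t ∈ 𝒯) =>
    div_le_div_of_nonneg_right (key t ht) (Nat.cast_nonneg t.val : (0 : ℝ) ≤ t.val)
  refine le_trans ?_ h7
  have h8 : ∑ t ∈ 𝒯, ((1 - ε - C * Real.exp (-(c * K))) * Vol (q.2 - M) (bigB q.1 - t.H J (q.2 - M)) -
      ε * Vol (q.2 - M) (bigB q.1) / W (vr ρ ^ (11 * M))) / (t.val : ℝ) =
      (1 - ε - C * Real.exp (-(c * K))) * Main 𝒯 J (q.2 - M) (bigB q.1) -
        ε * Vol (q.2 - M) (bigB q.1) / W (vr ρ ^ (11 * M)) * ∑ t ∈ 𝒯, 1 / (t.val : ℝ) := by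
    rw [Main, mul_sum, mul_sum, ← sum_sub_distrib]
    exact sum_congr rfl fun t _ => by ring
  rw [h8]
  have h9 : ε * Vol (q.2 - M) (bigB q.1) / W (vr ρ ^ (11 * M)) * ∑ t ∈ 𝒯, 1 / (t.val : ℝ) ≤
      ε * Vol (q.2 - M) (bigB q.1) := by
    refine (mul_le_mul_of_nonneg_left hsum (by positivity)).trans (le_of_eq ?_)
    field_simp
  linarith

end Crest.Agent.R020
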