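import Crest.Agent.R020.Cnt

set_option autoImplicit false

namespace Crest.Agent.R020

open Finset Filter Topology Crest.Agent.R008 Crest.Agent.R026 Crest.NumberTheoryR.TotientScale

variable {ρ : ℝ}

theorem mem_Tup {x : ℝ} {m J k : ℕ} {𝒯 : Finset Tail} {τ : Tpl} : τ ∈ Tup ρ x m J k 𝒯 ↔
    τ.1.1 ∈ 𝒯 ∧ τ.1.2 ∈ Gd ρ (bigB x) m J k τ.1.1 ∧
      τ.2 ∈ P0 (vr ρ ^ (6 * m)) x (pm τ.1.2 * τ.1.1.val) := by
  unfold Tup
  rw [mem_sigma, mem_sigma, and_assoc]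

theorem mem_Gd {B : ℝ} {m J k : ℕ} {t : Tail} {l : List ℕ} : l ∈ Gd ρ B m J k t ↔
    l ∈ Reg (fun i => t.beta J k i - be ρ m i) B k ∧ Dec l ∧ lv l 0 ≤ B - vr ρ ^ (8 * m) ∧
      ∀ j, j < k → lv l j ≤ vr ρ ^ (11 * (m - (j + 1))) ∧
        Normal (vr ρ ^ (6 * (m - (j + 1)))) (l.getD j 1) := by
  classical
  unfold Gd
  rw [mem_filter]

/-- `small_pm`, `Dec.LL_le`. -/
theorem cof_small (h : Root ρ) {η : ℝ} (hη : 0 < η) {J M' : ℕ} {K : ℝ} {𝒯 : Finset Tail}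
    (hT : Tails ρ J M' K 𝒯) : ∀ᶠ q in Fl ρ, ∀ t ∈ 𝒯,
      ∀ l ∈ Gd ρ (bigB q.1) q.2 J (q.2 - (M' + J)) t,
      1 ≤ pm l * t.val ∧ ((pm l * t.val : ℕ) : ℝ) ≤ q.1 ^ η := by
  filter_upwards [small_pm h hη (∑ t ∈ 𝒯, (t.val : ℝ))] with q hq t ht l hl
  obtain ⟨hR, hD, h0, -⟩ := mem_Gd.1 hl
  obtain ⟨hlen, hp, -⟩ := mem_Reg.1 hR
  refine ⟨Nat.mul_pos (pm_pos fun p hp' => (hp p hp').1) ((hT.1 t ht).tot h).2.2.2,
    hq l t.val (by omega) (fun p hp' => (hD.LL_le hp').trans h0) ?_⟩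
  exact single_le_sum (f := fun t : Tail => (t.val : ℝ)) (fun _ _ => Nat.cast_nonneg _) ht

theorem L2_log_sq : ∀ᶠ x : ℝ in atTop, Real.log x ^ 2 ≤ x ^ (1 / 4 : ℝ) := by
  filter_upwards [(isLittleO_log_rpow_rpow_atTop 2 (s := 1 / 4) (by norm_num)).eventuallyLE,
    eventually_ge_atTop 0] with x hx hx0
  rw [Real.norm_of_nonneg (Real.rpow_nonneg hx0 _), Real.rpow_two] at hx
  exact (le_abs_self _).trans hx

/-- The basic structure of a tuple.  The inequality at the level `k ≥ 1` says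
`t.beta J 0 0 + ϱ^(7 M) ≤ lv l (k - 1)`, so by `ord` all primes of the tail are smaller than the
last entry of `l` (`lt_of_LL_lt`).  Also `p₀ - 1 > x / (log² x · r) ≥ √x` (`cof_small` with
`η = 1/4`), so `LL p₀ ≥ B - 1 > lv l 0`; `p₀ ≤ x + 1 ≤ x²`.  Then `totient_prod_mul`. -/
theorem tup_struct (h : Root ρ) {J M' : ℕ} {K : ℝ} {𝒯 : Finset Tail} (hT : Tails ρ J M' K 𝒯) :
    ∀ᶠ q in Fl ρ, ∀ τ ∈ Tup ρ q.1 q.2 J (q.2 - (M' + J)) 𝒯,
      (fl τ).length = q.2 - (M' + J) + 1 ∧ Pr (fl τ ++ τ.1.1.q) ∧ Dec (fl τ ++ τ.1.1.q) ∧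
      bigB q.1 - 1 ≤ LL τ.2 ∧ LL τ.2 ≤ bigB q.1 + 1 ∧ tv τ ∈ VS q.1 ∧
      q.1 / Real.log q.1 ^ 2 < (tv τ : ℝ) := by
  classical
  filter_upwards [cof_small h (η := 1 / 4) (by norm_num) hT,
    (tendsto_m h).eventually_ge_atTop (M' + J + 1), (tendsto_fst_Fl ρ).eventually L2_log_sq,
    (tendsto_fst_Fl ρ).eventually_ge_atTop 3] with q hcof hm hlog hx τ hτ
  obtain ⟨x, m⟩ := q
  obtain ⟨⟨t, l⟩, p⟩ := τ
  obtain ⟨ht, hl, hp⟩ := mem_Tup.1 hτ
  simp only at hcof hm hlog hx ht hl hp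
  simp only [fl, tv]
  set k := m - (M' + J) with hk
  have hok := hT.1 t ht
  obtain ⟨-, hr⟩ := hcof t ht l hl
  obtain ⟨hR, hD, h0, -⟩ := mem_Gd.1 hl
  obtain ⟨hlen, hpl, hcon⟩ := mem_Reg.1 hR
  unfold P0 primesIoc at hp
  obtain ⟨hp1, hp2, hp3, -⟩ := mem_filter.1 hp
  obtain ⟨hp1, hpp⟩ := mem_filter.1 hp1
  have hp4 : (p : ℝ) ≤ x + 1 := (Nat.le_floor_iff (by linarith)).1 (mem_Ioc.1 hp1).2
  have hp5 : (1 : ℝ) ≤ p := by exact_mod_cast hpp.one_le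
  have hB : LL x = bigB x := LL_eq_bigB (Real.exp_one_lt_three.le.trans hx)
  have hlo : bigB x - 1 ≤ LL p := by
    have hs : (x ^ (1 / 4 : ℝ)) ^ 4 = x := by
      rw [← Real.rpow_natCast, ← Real.rpow_mul (by linarith)]; norm_num
    set s := x ^ (1 / 4 : ℝ) with hs'
    have hs0 : 0 < s := Real.rpow_pos_of_pos (by linarith) _
    have hl0 : 0 < Real.log x ^ 2 := pow_pos (Real.log_pos (by linarith)) 2
    rw [div_lt_iff₀ hl0, Nat.cast_mul, Nat.cast_sub hpp.one_le, Nat.cast_one] at hp2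
    have h1 : ((p : ℝ) - 1) * ((pm l * t.val : ℕ) : ℝ) * Real.log x ^ 2 ≤ p * s * s := by
      gcongr
      linarith
    have h2 : s ^ 2 * s ^ 2 < p * s ^ 2 := by nlinarith
    have h3 : s ^ 2 < p := lt_of_mul_lt_mul_right h2 (by positivity)
    have h4 : x ≤ (p : ℝ) ^ 2 := by
      rw [← hs, show s ^ 4 = (s ^ 2) ^ 2 by ring]
      exact pow_le_pow_left₀ (by positivity) h3.le 2
    have := LL_le_add_one hp5 (by linarith) h4
    linarith
  have hhi : LL p ≤ bigB x + 1 := by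
    rw [← hB]
    exact LL_le_add_one (by linarith) hp5 (by nlinarith)
  have hv1 : 1 < vr ρ ^ (8 * m) := one_lt_pow₀ (vr_gt h) (by omega)
  have hpl' : ∀ a ∈ l, LL a < LL p := fun a ha => by linarith [hD.LL_le ha]
  have hlast : t.beta J 0 0 < lv l (k - 1) := by
    have h1 := hcon k hlen.ge
    rw [hlen, Ioc_self, sum_empty, ys_of_pos _ _ (by omega)] at h1
    have h2 : 0 < vr ρ ^ (7 * (m - k)) := pow_pos (vr_pos h) _
    simp only [be, Tail.beta_self] at h1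
    linarith
  have hbig : ∀ a ∈ p :: l, t.beta J 0 0 < LL a := by
    have h1 : ∀ a ∈ l, t.beta J 0 0 < LL a := by
      intro a ha
      obtain ⟨j, hj, -, hj'⟩ := exists_lv_of_mem ha
      rw [← hj']
      exact hlast.trans_le (hD.lv_anti (by omega))
    intro a ha
    rcases List.mem_cons.1 ha with rfl | ha
    · have h2 : l.getD 0 1 ∈ l := getD_mem (by omega)
      exact (h1 _ h2).trans (hpl' _ h2)
    · exact h1 a ha
  have hPr0 : Pr (p :: l) := by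
    intro a ha
    rcases List.mem_cons.1 ha with rfl | ha
    · exact hpp
    · exact (hpl a ha).1
  have hPr : Pr (p :: l ++ t.q) := by
    intro a ha
    rcases List.mem_append.1 ha with ha | ha
    · exact hPr0 a ha
    · exact (hok.nor a ha).1
  have hDec : Dec (p :: l ++ t.q) := by
    refine List.pairwise_append.2 ⟨List.pairwise_cons.2 ⟨fun a ha => lt_of_LL_lt (hpl' a ha), hD⟩,
      hok.dec, fun a ha b hb => ?_⟩
    exact lt_of_LL_lt ((hok.ord b (hok.nor b hb).1 (Or.inl hb)).trans_lt (hbig a ha))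
  refine ⟨by simp [hlen], hPr, hDec, hlo, hhi, ?_, hp2⟩
  refine (mem_VS (by linarith)).2 ⟨hp3, (p :: l ++ t.q).prod * t.n, ?_, ?_⟩
  · exact Nat.mul_pos (List.prod_pos fun a ha => (hPr a ha).pos) (Nat.pos_of_ne_zero hok.deep.1)
  · rw [totient_prod_mul hPr hDec.nodup, pm_append, pm_cons, Tail.val]
    · ring
    · intro a ha han
      rcases List.mem_append.1 ha with ha | ha
      · exact absurd (hok.ord a (hPr0 a ha) (Or.inr han)) (not_le.2 (hbig a ha))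
      · exact hok.cop a ha han

theorem tv_eq (τ : Tpl) (i : ℕ) : tv τ = pm ((fl τ).take i) * (pm (sd τ i).1 * (sd τ i).2) := by
  have h := pm_take_mul_drop (fl τ) i
  simp only [sd, pm_append]
  rw [← mul_assoc, ← mul_assoc, h, fl, pm_cons, tv, Tail.val]
  ring

/-- A tuple is determined by its first `i` primes and its side: the first
`k + 1 - i` entries of the side give the rest of `fl τ`, the others `q`, hence the value of the
tail and the tail. -/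
theorem sd_inj {J M' k i : ℕ} {K : ℝ} {𝒯 : Finset Tail} (hT : Tails ρ J M' K 𝒯) {τ τ' : Tpl}
    (ht : τ.1.1 ∈ 𝒯) (ht' : τ'.1.1 ∈ 𝒯) (hl : (fl τ).length = k + 1) (hl' : (fl τ').length = k + 1)
    (h1 : (fl τ).take i = (fl τ').take i) (h2 : sd τ i = sd τ' i) : τ = τ' := by
  simp only [sd, Prod.mk.injEq] at h2
  obtain ⟨h3, h4⟩ := List.append_inj h2.1 (by simp [hl, hl'])
  have h5 : fl τ = fl τ' := by
    rw [← List.take_append_drop i (fl τ), h1, h3, List.take_append_drop]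
  have h6 : τ.1.1 = τ'.1.1 := hT.2 ht ht' (by simp only [Tail.val, h4, h2.2])
  obtain ⟨⟨t, l⟩, p⟩ := τ
  obtain ⟨⟨t', l'⟩, p'⟩ := τ'
  simp only [fl, List.cons.injEq] at h5 h6
  obtain ⟨rfl, rfl⟩ := h5
  subst h6
  rfl

theorem l2s_sum {J M' k i : ℕ} {K B : ℝ} {t : Tail} (ht : t.OK ρ J M' K) {l : List ℕ}
    (hl : l.length = k) (hi : i ≤ k) (p L : ℕ) :
    ∑ j ∈ Icc 1 L, aCoef j * lv ((p :: l).drop i ++ t.q) j ≤
      ∑ j ∈ Ioc i l.length, a0 i j * ys B l j + t.beta J k i := by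
  obtain ⟨d, rfl⟩ := Nat.exists_eq_add_of_le hi
  have hlen : ((p :: l).drop i).length = d + 1 := by simp [hl]; omega
  have h1 : ∑ j ∈ Icc 1 L, aCoef j * lv ((p :: l).drop i ++ t.q) j ≤
      ∑ j ∈ Icc 1 (d + J), aCoef j * lv ((p :: l).drop i ++ t.q) j := by
    rw [← sum_filter_of_ne (s := Icc 1 L) (p := fun j => j ≤ d + J)]
    · exact sum_le_sum_of_subset_of_nonneg
        (fun j hj => mem_Icc.2 ⟨(mem_Icc.1 (mem_filter.1 hj).1).1, (mem_filter.1 hj).2⟩)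
        fun j hj _ => mul_nonneg (a_nonneg (mem_Icc.1 hj).1) (lv_nonneg _ _)
    intro j _ h0
    by_contra hcon
    refine h0 ?_
    rw [lv_of_le, mul_zero]
    have := ht.len
    rw [List.length_append, hlen]
    omega
  refine h1.trans ?_
  rw [← Ico_add_one_right_eq_Icc, sum_Ico_eq_sum_range, show d + J + 1 - 1 = d + J by omega,
    sum_range_add, hl, ← Ico_add_one_add_one_eq_Ioc, sum_Ico_eq_sum_range,
    show i + d + 1 - (i + 1) = d by omega, Tail.beta]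
  refine add_le_add (le_of_eq (sum_congr rfl fun j hj => ?_)) (sum_le_sum fun j _ => ?_)
  · rw [lv_append_left _ (by have := mem_range.1 hj; omega), lv_drop, a0,
      show i + 1 + j - i = 1 + j by omega, show i + (1 + j) = i + j + 1 by omega, lv_cons_succ,
      show i + 1 + j = i + j + 1 by omega, ys_succ]
  · rw [show i + d - i + j + 1 = 1 + (d + j) by omega]
    refine mul_le_mul_of_nonneg_left ?_ (a_nonneg (by omega))
    rw [show 1 + (d + j) = ((p :: l).drop i).length + j by omega, lv_append_right]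
    exact ht.dom j

theorem l2s_mem {B : ℝ} {m J M' i p : ℕ} {K : ℝ} {t : Tail} (h : Root ρ) (ht : t.OK ρ J M' K)
    {l : List ℕ} (hl : l ∈ Gd ρ B m J (m - (M' + J)) t) (hi : i + 1 + (M' + J) ≤ m)
    (hp : p ∈ l.drop i ++ t.q) :
    Normal (vr ρ ^ (6 * (m - (i + 1)))) p ∧ LL p ≤ vr ρ ^ (11 * (m - (i + 1))) := by
  obtain ⟨h1, -, -, h2⟩ := mem_Gd.1 hl
  rcases List.mem_append.1 hp with hp | hp
  · obtain ⟨j, hj, e1, e2⟩ := exists_lv_of_mem hp
    rw [List.length_drop, (mem_Reg.1 h1).1] at hj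
    obtain ⟨a1, a2⟩ := h2 (i + j) (by omega)
    rw [lv_drop] at e2
    rw [show l.getD (i + j) 1 = p by rw [← e1]; simp] at a2
    exact ⟨a2.mono (vr_pow_mono h (by omega)), e2 ▸ a1.trans (vr_pow_mono h (by omega))⟩
  · obtain ⟨-, a1, a2⟩ := ht.nor p hp
    exact ⟨a1.mono (vr_pow_mono h (by omega)), a2.trans (vr_pow_mono h (by omega))⟩

/-- The sides at the levels `1 ≤ i ≤ k` (depth `d = m - i`).  The slack is the inequality `Con`
at the level `i` together with `dom`. -/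
theorem side_mid (h : Root ρ) {J M' : ℕ} {K : ℝ} {𝒯 : Finset Tail} (hT : Tails ρ J M' K 𝒯) :
    ∀ᶠ q in Fl ρ, ∀ τ ∈ Tup ρ q.1 q.2 J (q.2 - (M' + J)) 𝒯, ∀ i, 1 ≤ i → i ≤ q.2 - (M' + J) →
      Side (vr ρ ^ (6 * (q.2 - i))) (vr ρ ^ (11 * M')) (vr ρ ^ (11 * (q.2 - i))) (q.2 - i + 1)
        (sd τ i) ∧
      ∑ j ∈ Icc 1 (q.2 - i + 1), aCoef j * lv (sd τ i).1 j + vr ρ ^ (7 * (q.2 - i)) ≤
        lv (sd τ i).1 0 := by
  filter_upwards [tup_struct h hT, (tendsto_m h).eventually_ge_atTop (M' + J + 1)]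
    with q hq hm τ hτ i h1 hi
  obtain ⟨a1, a2, a3, -⟩ := hq τ hτ
  obtain ⟨b1, b2, -⟩ := mem_Tup.1 hτ
  have ht := hT.1 _ b1
  obtain ⟨c1, -, c2⟩ := mem_Reg.1 (mem_Gd.1 b2).1
  have hs : (sd τ i).1.Sublist (fl τ ++ τ.1.1.q) := (List.drop_sublist i _).append_right _
  obtain ⟨i, rfl⟩ : ∃ j, i = j + 1 := ⟨i - 1, by omega⟩
  refine ⟨⟨?_, a3.sublist hs, fun p hp => ⟨a2 p (hs.subset hp), l2s_mem h ht b2 (by omega) hp⟩,
    ht.deep.totient⟩, ?_⟩
  · have := ht.len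
    simp only [sd, List.length_append, List.length_drop, a1]
    omega
  · have d1 := c2 (i + 1) (by omega)
    have d2 := l2s_sum (B := bigB q.1) ht c1 hi τ.2 (q.2 - (i + 1) + 1)
    have d3 : lv (sd τ (i + 1)).1 0 = ys (bigB q.1) τ.1.2 (i + 1) := by
      rw [sd, lv_append_left _ (by rw [List.length_drop, a1]; omega), lv_drop, ys_succ]
      exact lv_cons_succ _ _ _
    rw [d3]
    simp only [be] at d1
    exact le_trans (add_le_add_left d2 _) (by linarith)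

/-- The side at the level `0`. -/
theorem side_top (h : Root ρ) {J M' : ℕ} {K : ℝ} {𝒯 : Finset Tail} (hT : Tails ρ J M' K 𝒯) :
    ∀ᶠ q in Fl ρ, ∀ τ ∈ Tup ρ q.1 q.2 J (q.2 - (M' + J)) 𝒯,
      Side (vr ρ ^ (6 * q.2)) (vr ρ ^ (11 * M')) (bigB q.1 + 1) (q.2 + 1) (sd τ 0) ∧
      ∑ j ∈ Icc 1 (q.2 + 1), aCoef j * lv (sd τ 0).1 j + (vr ρ ^ (7 * q.2) - 1) ≤
        lv (sd τ 0).1 0 ∧
      bigB q.1 - 1 ≤ lv (sd τ 0).1 0 ∧ lv (sd τ 0).1 1 ≤ bigB q.1 - vr ρ ^ (8 * q.2) := by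
  filter_upwards [tup_struct h hT, (tendsto_m h).eventually_ge_atTop (M' + J + 1)]
    with q hq hm τ hτ
  obtain ⟨a1, a2, a3, a4, a5, -⟩ := hq τ hτ
  obtain ⟨b1, b2, b3⟩ := mem_Tup.1 hτ
  have ht := hT.1 _ b1
  obtain ⟨c1, -, c2⟩ := mem_Reg.1 (mem_Gd.1 b2).1
  have d3 : lv (sd τ 0).1 0 = LL τ.2 := lv_cons_zero _ _
  refine ⟨⟨?_, a3, fun p hp => ⟨a2 p hp, ?_, (a3.LL_le hp).trans a5⟩, ht.deep.totient⟩, ?_,
    d3 ▸ a4, ?_⟩
  · have := ht.len
    simp only [sd, List.length_append, List.length_drop, a1]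
    omega
  · rcases List.mem_cons.1 hp with rfl | hp
    · simp only [P0, mem_filter] at b3
      exact b3.2.2.2
    · exact (l2s_mem (i := 0) h ht b2 (by omega) hp).1.mono (vr_pow_mono h (by omega))
  · have d1 := c2 0 (Nat.zero_le _)
    have d2 := l2s_sum (B := bigB q.1) ht c1 (Nat.zero_le _) τ.2 (q.2 + 1)
    rw [d3]
    simp only [be, ys_zero, Nat.sub_zero] at d1
    exact le_trans (add_le_add_left d2 _) (by linarith)
  · refine le_trans (le_of_eq ?_) (mem_Gd.1 b2).2.2.1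
    exact (lv_cons_succ _ _ 0).trans (lv_append_left _ (by omega))

end Crest.Agent.R020
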