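import Crest.Agent.R020.Ren1

set_option autoImplicit false

namespace Crest.Agent.R020

open Finset Filter Topology Crest.Agent.R008 Crest.Agent.R026 Crest.NumberTheoryR.TotientScale

theorem Ren2_conv {α : Type} {F : Filter α} {m : α → ℕ} (hm : Tendsto m F atTop) {w v q : ℕ → ℝ}
    (hw : ∀ n, |w n| ≤ 1) (hq0 : ∀ d, 0 ≤ q d) (hq : Summable q)
    (hv : ∀ d, Tendsto (fun a => w (m a - d)) F (𝓝 (v d))) :
    Tendsto (fun a => ∑ d ∈ range (m a + 1), q d * w (m a - d)) F (𝓝 (∑' d, q d * v d)) := by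
  have e : ∀ a, ∑ d ∈ range (m a + 1), q d * w (m a - d) =
      ∑' d, if d ≤ m a then q d * w (m a - d) else 0 := by
    intro a
    rw [tsum_eq_sum (s := range (m a + 1)) fun d hd => if_neg (by simpa using hd)]
    exact sum_congr rfl fun d hd => (if_pos (by simpa [Nat.lt_succ_iff] using hd)).symm
  simp only [e]
  refine tendsto_tsum_of_dominated_convergence hq (fun d => ?_) (.of_forall fun a d => ?_)
  · refine ((hv d).const_mul (q d)).congr' ?_
    filter_upwards [hm.eventually_ge_atTop d] with a ha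
    rw [if_pos ha]
  · split_ifs
    · rw [Real.norm_eq_abs, abs_mul, abs_of_nonneg (hq0 d)]
      exact mul_le_of_le_one_right (hq0 d) (hw _)
    · simpa using hq0 d

theorem Ren2_key {w p r : ℕ → ℝ} (hw : ∀ n, |w n| ≤ 1) (hp0 : ∀ d, 0 ≤ p d) (hp1 : 0 < p 0)
    (hp : HasSum p 1) (hr0 : ∀ d, 0 ≤ r d) (hr : Summable r)
    (hrec : ∀ n, w (n + 1) = ∑ d ∈ range (n + 1), p d * w (n - d))
    (hid : ∀ n, ∑ d ∈ range (n + 1), r d * w (n - d) = 1) {L s : ℝ} (hs : s ≠ 0)
    (hL : MapClusterPt L atTop w) (hext : ∀ x, MapClusterPt x atTop w → 0 ≤ s * (L - x)) :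
    (∑' d, r d) * L = 1 := by
  obtain ⟨U, hU, hUL⟩ := mapClusterPt_iff_ultrafilter.1 hL
  have hsub : ∀ i : ℕ, Tendsto (fun n => n - i) (U : Filter ℕ) atTop :=
    fun i => (tendsto_sub_atTop_nat i).mono_left hU
  have hex : ∀ i : ℕ, ∃ x, Tendsto (fun n => w (n - i)) (U : Filter ℕ) (𝓝 x) := by
    intro i
    obtain ⟨x, -, hx⟩ := (isCompact_Icc (a := (-1 : ℝ)) (b := 1)).ultrafilter_le_nhds
      (U.map fun n => w (n - i)) (le_principal_iff.2 (mem_map.2 (univ_mem' fun n => abs_le.1 (hw _))))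
    exact ⟨x, hx⟩
  choose v hv using hex
  have hvb : ∀ i, |v i| ≤ 1 := fun i => le_of_tendsto' (hv i).abs fun n => hw _
  have hcl : ∀ i, 0 ≤ s * (L - v i) := fun i => hext _
    (mapClusterPt_iff_ultrafilter.2 ⟨U.map fun n => n - i, hsub i, hv i⟩)
  have hvr : ∀ j, v j = ∑' d, p d * v (j + 1 + d) := by
    intro j
    have h1 := Ren2_conv (hsub (j + 1)) hw hp0 hp.summable (v := fun d => v (j + 1 + d))
      fun d => by simpa only [Nat.sub_sub] using hv (j + 1 + d)
    refine tendsto_nhds_unique (hv j) (h1.congr' ?_)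
    filter_upwards [hU (eventually_ge_atTop (j + 1))] with n hn
    rw [← hrec]
    congr 1
    omega
  have hall : ∀ j, v j = L := by
    intro j
    induction j with
    | zero => exact tendsto_nhds_unique (by simpa using hv 0) hUL
    | succ j ih =>
      have h1 : Summable fun d => p d * v (j + 1 + d) :=
        Summable.of_norm_bounded hp.summable fun d => by
          rw [Real.norm_eq_abs, abs_mul, abs_of_nonneg (hp0 d)]
          exact mul_le_of_le_one_right (hp0 d) (hvb _)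
      have h2 := ((hp.mul_right L).sub h1.hasSum).mul_left s
      rw [← hvr, ih, one_mul, sub_self, mul_zero] at h2
      have h3 := le_hasSum h2 0 fun d _ => by
        have := mul_nonneg (hp0 d) (hcl (j + 1 + d))
        linarith
      have h4 : p 0 * (s * (L - v (j + 1))) = 0 := by
        have := mul_nonneg (hp0 0) (hcl (j + 1))
        simp only [add_zero] at h3
        linarith
      rcases mul_eq_zero.1 h4 with h | h
      · exact absurd h hp1.ne'
      · exact (sub_eq_zero.1 ((mul_eq_zero.1 h).resolve_left hs)).symm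
  have h5 := Ren2_conv (m := fun n => n) (F := (U : Filter ℕ)) hU hw hr0 hr hv
  simp only [hid, hall, tsum_mul_right] at h5
  exact (tendsto_nhds_unique tendsto_const_nhds h5).symm

/-- The renewal theorem (Erdős–Feller–Pollard) when `f 1 > 0`.
Proof.  `0 ≤ u n ≤ 1`.  With the tails `r n = ∑_{d > n} f d` (`r 0 = 1`, `∑ r n = μ < ∞`) one has
`∑_{i ≤ n} r i * u (n - i) = 1` (induction).  Let `L = limsup u`, and let `u (n k) → L`.  From
`u n = ∑ f d u (n - d)` and `f 1 > 0` we get `u (n k - 1) → L` (otherwise the average is below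
`L`), hence `u (n k - i) → L` for every `i`, and dominated convergence
(`tendsto_tsum_of_dominated_convergence`) gives `L μ = 1`.  The same argument for the `liminf`.
An ultrafilter (`hyperfilter`, `Ultrafilter.lim`, or `Filter.Tendsto` along subsequences) avoids
repeated extraction: call a filter `F ≤ atTop` good if `u → L` along `F`; then `map (· - 1) F` is
good. -/
theorem renewal_gen (f u : ℕ → ℝ) (hf : ∀ d, 0 ≤ f d) (hf1 : 0 < f 1)
    (hs : HasSum (fun d => f (d + 1)) 1) (hm : Summable (fun d : ℕ => (d : ℝ) * f d))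
    (hu0 : u 0 = 1) (hu : ∀ n, u (n + 1) = ∑ i ∈ range (n + 1), u i * f (n + 1 - i)) :
    ∃ γ : ℝ, 0 < γ ∧ Tendsto u atTop (𝓝 γ) := by
  set p : ℕ → ℝ := fun d => f (d + 1) with hpdef
  have hp0 : ∀ d, 0 ≤ p d := fun d => hf _
  have hrec : ∀ n, u (n + 1) = ∑ d ∈ range (n + 1), p d * u (n - d) := by
    intro n
    rw [hu, ← sum_range_reflect]
    refine sum_congr rfl fun d hd => ?_
    have := mem_range.1 hd
    rw [mul_comm, show n + 1 - (n + 1 - 1 - d) = d + 1 by omega, show n + 1 - 1 - d = n - d by omega]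
  have hb : ∀ n, 0 ≤ u n ∧ u n ≤ 1 := by
    intro n
    induction n using Nat.strong_induction_on with
    | _ n ih =>
      rcases n with _ | n
      · simp [hu0]
      · rw [hrec]
        refine ⟨sum_nonneg fun d _ => mul_nonneg (hp0 d) (ih _ (by omega)).1, le_trans
          (sum_le_sum fun d _ => mul_le_of_le_one_right (hp0 d) (ih _ (by omega)).2) ?_⟩
        exact sum_le_hasSum _ (fun d _ => hp0 d) hs
  have hw : ∀ n, |u n| ≤ 1 := fun n => by rw [abs_of_nonneg (hb n).1]; exact (hb n).2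
  set r : ℕ → ℝ := fun i => ∑' d, p (d + i) with hrdef
  have hps : ∀ i, Summable fun d => p (d + i) := fun i => (summable_nat_add_iff i).2 hs.summable
  have hr0 : ∀ i, 0 ≤ r i := fun i => tsum_nonneg fun d => hp0 _
  have hrz : r 0 = 1 := hs.tsum_eq
  have hrs : ∀ i, r i = p i + r (i + 1) := by
    intro i
    simp only [hrdef]
    rw [(hps i).tsum_eq_zero_add, zero_add]
    congr 1
    exact tsum_congr fun d => by rw [add_assoc, add_comm 1 i]
  have hm' : Summable fun d : ℕ => ((d + 1 : ℕ) : ℝ) * p d := (summable_nat_add_iff 1).2 hm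
  have hr : Summable r := by
    refine summable_of_sum_range_le hr0 (c := ∑' d : ℕ, ((d + 1 : ℕ) : ℝ) * p d) fun N => ?_
    have h1 : ∑ i ∈ range N, r i = ∑ d ∈ range N, ((d + 1 : ℕ) : ℝ) * p d + N * r N := by
      induction N with
      | zero => simp
      | succ N ih => rw [sum_range_succ, sum_range_succ, ih, hrs N]; push_cast; ring
    rw [h1, ← hm'.sum_add_tsum_nat_add N, hrdef, ← tsum_mul_left]
    refine add_le_add le_rfl (((hps N).mul_left _).tsum_le_tsum (fun d => ?_)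
      ((summable_nat_add_iff N).2 hm'))
    exact mul_le_mul_of_nonneg_right (by exact_mod_cast by omega) (hp0 _)
  have hid : ∀ n, ∑ d ∈ range (n + 1), r d * u (n - d) = 1 := by
    intro n
    induction n with
    | zero => simp [hrz, hu0]
    | succ n ih =>
      rw [sum_range_succ', hrz, one_mul, Nat.sub_zero, hrec, ← sum_add_distrib, ← ih]
      refine sum_congr rfl fun d _ => ?_
      rw [hrs d, Nat.add_sub_add_right]; ring
  have hA : IsBoundedUnder (· ≤ ·) atTop u := isBoundedUnder_of ⟨1, fun n => (hb n).2⟩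
  have hB : IsBoundedUnder (· ≥ ·) atTop u := isBoundedUnder_of ⟨0, fun n => (hb n).1⟩
  have g1 := isGreatest_mapClusterPt_limsup hB.isCoboundedUnder_le hA
  have g2 := isLeast_mapClusterPt_liminf hA.isCoboundedUnder_ge hB
  have k1 := Ren2_key hw hp0 hf1 hs hr0 hr hrec hid one_ne_zero g1.1 fun x hx => by
    have := g1.2 hx; linarith
  have k2 := Ren2_key hw hp0 hf1 hs hr0 hr hrec hid (neg_ne_zero.2 one_ne_zero) g2.1 fun x hx => by
    have := g2.2 hx; linarith
  have hμ : 0 < ∑' d, r d := hr.tsum_pos hr0 0 (by rw [hrz]; exact one_pos)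
  refine ⟨(∑' d, r d)⁻¹, inv_pos.2 hμ, tendsto_of_liminf_eq_limsup ?_ ?_ hA hB⟩
  · exact eq_inv_of_mul_eq_one_right k2
  · exact eq_inv_of_mul_eq_one_right k1

variable {ρ : ℝ}

/-- Apply `renewal_gen` to `f d = a_d ρ^d` (`f 0 = 0`), `u j = g_j ρ^j`. -/
theorem renewal (h : Root ρ) :
    ∃ γ : ℝ, 0 < γ ∧ Tendsto (fun j : ℕ => gSeq j * ρ ^ j) atTop (𝓝 γ) := by
  have h0 := h.1
  refine renewal_gen (fun d => if d = 0 then 0 else aCoef d * ρ ^ d) _ (fun d => ?_) ?_ ?_ ?_ ?_
    fun n => ?_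
  · split_ifs with hd
    · exact le_rfl
    · exact mul_nonneg (a_nonneg (by omega)) (by positivity)
  · simpa using mul_pos (a_pos le_rfl) h0
  · simpa using h.2.2
  · refine Summable.of_norm_bounded (summable_pow_mul_geometric_of_norm_lt_one 2
      (r := ρ) (by rw [Real.norm_eq_abs, abs_of_pos h0]; exact h.2.1)) fun d => ?_
    split_ifs with hd
    · simp [hd]
    · have h1 := a_nonneg (j := d) (by omega)
      rw [Real.norm_eq_abs, abs_of_nonneg (by positivity), pow_two, mul_assoc]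
      gcongr
      exact a_le d
  · simp [g_zero]
  · rw [g_succ, sum_mul]
    refine sum_congr rfl fun i hi => ?_
    have := mem_range.1 hi
    rw [if_neg (by omega), show ρ ^ (n + 1) = ρ ^ i * ρ ^ (n + 1 - i) by
      rw [← pow_add]; congr 1; omega]
    ring

theorem g_lower (h : Root ρ) :
    ∃ c : ℝ, 0 < c ∧ c ≤ 1 ∧ ∀ j : ℕ, c * vr ρ ^ (10 * j) ≤ gSeq j := by
  obtain ⟨γ, hγ, ht⟩ := renewal h
  obtain ⟨M, hM⟩ := (ht.inv₀ hγ.ne').bddAbove_range
  have h1 : ∀ j : ℕ, (gSeq j * ρ ^ j)⁻¹ ≤ M := fun j => hM ⟨j, rfl⟩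
  have h2 : 1 ≤ M := by simpa [g_zero] using h1 0
  refine ⟨M⁻¹, by positivity, inv_le_one_of_one_le₀ h2, fun j => ?_⟩
  have h3 : 0 < gSeq j * ρ ^ j := mul_pos (g_pos j) (pow_pos h.1 j)
  have h4 : M⁻¹ ≤ gSeq j * ρ ^ j := inv_le_of_inv_le₀ h3 (h1 j)
  calc M⁻¹ * vr ρ ^ (10 * j) ≤ gSeq j * ρ ^ j * vr ρ ^ (10 * j) :=
        mul_le_mul_of_nonneg_right h4 (pow_pos (vr_pos h) _).le
    _ = gSeq j * (vr ρ ^ (10 * j) * ρ ^ j) := by ring
    _ = gSeq j := by rw [vr_pow_mul h, mul_one]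

/-- `G_j(k) = ∑_{i ≤ k} g_i a_{k-i+j+1}` satisfies `G_0(k) = g_{k+1}` and
`G_{j+1}(k) = G_j(k+1) - g_{k+1} a_{j+1}`. -/
theorem G_tendsto (h : Root ρ) (j : ℕ) : ∃ γ : ℝ, Tendsto
    (fun k : ℕ => (∑ i ∈ range (k + 1), gSeq i * aCoef (k - i + j + 1)) * ρ ^ k) atTop (𝓝 γ) := by
  obtain ⟨γ, -, ht⟩ := renewal h
  have h0 := h.1.ne'
  have ht1 := (tendsto_add_atTop_iff_nat 1).2 ht
  induction j with
  | zero =>
    refine ⟨γ * ρ⁻¹, (ht1.mul_const ρ⁻¹).congr fun k => ?_⟩
    have e : ∑ i ∈ range (k + 1), gSeq i * aCoef (k - i + 0 + 1) = gSeq (k + 1) := by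
      rw [g_succ]
      refine sum_congr rfl fun i hi => ?_
      have := mem_range.1 hi
      rw [show k - i + 0 + 1 = k + 1 - i by omega]
    rw [e]; field_simp; ring
  | succ j ih =>
    obtain ⟨δ, hδ⟩ := ih
    refine ⟨(δ - γ * aCoef (j + 1)) * ρ⁻¹, ((((tendsto_add_atTop_iff_nat 1).2 hδ).sub
      (ht1.mul_const (aCoef (j + 1)))).mul_const ρ⁻¹).congr fun k => ?_⟩
    have e : ∑ i ∈ range (k + 1 + 1), gSeq i * aCoef (k + 1 - i + j + 1) =
        ∑ i ∈ range (k + 1), gSeq i * aCoef (k - i + (j + 1) + 1) + gSeq (k + 1) * aCoef (j + 1) := by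
      rw [sum_range_succ, Nat.sub_self, zero_add]
      congr 1
      refine sum_congr rfl fun i hi => ?_
      have := mem_range.1 hi
      rw [show k + 1 - i + j + 1 = k - i + (j + 1) + 1 by omega]
    rw [e]; field_simp; ring

end Crest.Agent.R020
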