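import Crest.Agent.R020.Bas2
import Crest.Agent.R020.Mert

set_option autoImplicit false

namespace Crest.Agent.R020

open Finset Filter Topology Crest.Agent.R008 Crest.Agent.R026 Crest.NumberTheoryR.TotientScale

/-- Upper bound for the weight of a simplex.  Induction on `k` generalizing `β` and `A`: group
the lists by their last entry `p` (`con_concat`); the induction hypothesis with
`β i + α i (k+1) * LL p`, monotonicity of `Vp` (as `LL p ≥ 0`) and `mon_up` with `c (k+1)`,
`τ = β (k+1)`. -/
theorem SU (α : ℕ → ℕ → ℝ) (c : ℕ → ℝ) (h0 : c 0 = 1) (B : ℝ) (k : ℕ)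
    (hc : ∀ l, 1 ≤ l → l ≤ k → 0 < c l ∧ c l ≤ ∑ i ∈ range l, c i * α i l)
    (β : ℕ → ℝ) (A : Finset (List ℕ)) (hA : Fam α β B k A) :
    ∑ l ∈ A, wt l ≤ Vp k (B - ∑ i ∈ range (k + 1), c i * β i + cM * ∑ i ∈ range k, c (i + 1)) /
      ∏ i ∈ range k, c (i + 1) := by
  induction k generalizing β A with
  | zero =>
    simp only [zero_add, range_one, sum_singleton, range_zero, sum_empty, prod_empty, mul_zero,
      add_zero, div_one, h0, one_mul]
    rcases A.eq_empty_or_nonempty with rfl | ⟨l, hl⟩
    · simpa using Vp_nonneg 0 _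
    · have hsub : A ⊆ {[]} := fun l hl => by
        rw [mem_singleton]; exact List.length_eq_zero_iff.1 (hA l hl).1
      have hl0 : l = [] := List.length_eq_zero_iff.1 (hA l hl).1
      have hcon := (hA l hl).2.2 0 (Nat.zero_le _)
      rw [hl0] at hcon
      simp only [List.length_nil, Ioc_self, sum_empty, zero_add, ys_zero] at hcon
      have h1 : Vp 0 (B - β 0) = 1 := by
        unfold Vp
        rw [if_pos (by linarith)]; simp
      rw [h1]
      calc ∑ l ∈ A, wt l ≤ ∑ l ∈ ({[]} : Finset (List ℕ)), wt l :=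
            sum_le_sum_of_subset_of_nonneg hsub (fun l _ _ => wt_nonneg l)
        _ = 1 := by rw [sum_singleton, wt_nil]
  | succ k ih =>
    have ih' := ih (fun l h1 h2 => hc l h1 (h2.trans (Nat.le_succ k)))
    obtain ⟨hck, hck'⟩ := hc (k + 1) (by omega) le_rfl
    set s : ℝ := B - ∑ i ∈ range (k + 1), c i * β i + cM * ∑ i ∈ range k, c (i + 1) with hs
    set Pi : ℝ := ∏ i ∈ range k, c (i + 1) with hPi
    have hPi0 : 0 < Pi := prod_pos fun i hi =>
      (hc (i + 1) (by omega) (by have := mem_range.1 hi; omega)).1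
    have hsplit : ∀ l ∈ A, l = l.take k ++ [l.getD k 1] := fun l hl => by
      have hlen := (hA l hl).1
      have h1 := split_at (l := l) (j := k) (by omega)
      rw [List.drop_eq_nil_of_le (by omega)] at h1
      exact h1
    have key : ∑ l ∈ A, wt l ≤ Vp (k + 1) (s - c (k + 1) * (β (k + 1) - cM)) / c (k + 1) / Pi := by
      refine sum_le_of_inj A (fun l => ((l.getD k 1, l.take k) : ℕ × List ℕ)) ?_ wt
        (fun u => 1 / ((u.1 : ℝ) - 1) * wt u.2) ?_
        (fun u => (u.1.Prime ∧ β (k + 1) ≤ LL u.1) ∧ (u.2.length = k ∧ Pr u.2 ∧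
          Con α (fun i => β i + α i (k + 1) * LL u.1) B u.2)) ?_ _ ?_
      · intro l hl l' hl' h
        simp only [Prod.mk.injEq] at h
        rw [hsplit l hl, hsplit l' hl', h.1, h.2]
      · intro l hl
        have hlen := (hA l hl).1
        have hp : (l.getD k 1).Prime := (hA l hl).2.1.getD (by omega)
        conv_lhs => rw [hsplit l hl]
        rw [wt_append, wt_cons hp.one_le, wt_nil]
        simp only
        rw [mul_one, mul_comm]
      · intro l hl
        have hlen := (hA l hl).1
        have hp : (l.getD k 1).Prime := (hA l hl).2.1.getD (by omega)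
        have hcon := (hA l hl).2.2
        rw [hsplit l hl, con_concat] at hcon
        have hlt : (l.take k).length = k := by rw [List.length_take]; omega
        rw [hlt] at hcon
        exact ⟨⟨hp, hcon.2⟩, hlt, (hA l hl).2.1.take k, hcon.1⟩
      · intro S hS
        refine sum_fib_le S (fun p : ℕ => 1 / ((p : ℝ) - 1)) (fun _ l => wt l)
          (fun p : ℕ => Vp k (s - c (k + 1) * LL p) / Pi) _
          (fun p : ℕ => p.Prime ∧ β (k + 1) ≤ LL p)
          (fun (p : ℕ) l => l.length = k ∧ Pr l ∧
            Con α (fun i => β i + α i (k + 1) * LL p) B l) ?_ ?_ ?_ hS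
        · intro p hp
          have : (2 : ℝ) ≤ p := by exact_mod_cast hp.1.two_le
          exact div_nonneg zero_le_one (by linarith)
        · intro T hT
          have h1 := mon_up k hck s (β (k + 1)) hT
          refine le_trans (le_of_eq ?_) (div_le_div_of_nonneg_right h1 hPi0.le)
          rw [sum_div]
          refine sum_congr rfl fun p _ => ?_
          ring
        · intro p _ T hT
          refine (ih' (fun i => β i + α i (k + 1) * LL p) T hT).trans ?_
          refine div_le_div_of_nonneg_right (Vp_mono k ?_) hPi0.le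
          have h1 : ∑ i ∈ range (k + 1), c i * (β i + α i (k + 1) * LL p) =
              ∑ i ∈ range (k + 1), c i * β i +
                (∑ i ∈ range (k + 1), c i * α i (k + 1)) * LL p := by
            rw [sum_mul, ← sum_add_distrib]
            exact sum_congr rfl fun i _ => by ring
          rw [h1]
          have h2 := mul_le_mul_of_nonneg_right hck' (LL_nonneg (p : ℝ))
          linarith
    refine key.trans (le_of_eq ?_)
    rw [prod_range_succ, sum_range_succ (fun i => c i * β i) (k + 1),
      sum_range_succ (fun i => c (i + 1)) k, div_div, mul_comm (c (k + 1)) Pi]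
    congr 2
    rw [hs]; ring

theorem SU_g (B : ℝ) (k : ℕ) (β : ℕ → ℝ) (A : Finset (List ℕ)) (hA : Fam a0 β B k A) :
    ∑ l ∈ A, wt l ≤
      Vol k (B - ∑ i ∈ range (k + 1), gSeq i * β i + cM * ∑ i ∈ range (k + 1), gSeq i) := by
  have h := SU a0 gSeq g_zero B k (fun l h1 _ => ⟨g_pos l, (g_eq h1).le⟩) β A hA
  refine h.trans ?_
  unfold Vol
  refine div_le_div_of_nonneg_right (Vp_mono k ?_) (prod_nonneg fun i _ => (g_pos _).le)
  rw [sum_range_succ' gSeq k, g_zero]
  have := one_le_cM
  nlinarith

/-- Lower bound.  Induction on `k` generalizing `β`: `Reg β B (k+1)` contains `l ++ [p]` for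
`p ∈ PL (3 B)` with `β (k+1) < LL p` and `l ∈ Reg (β i + a_{k+1-i} LL p) B k`; then `mon_lo` with
`c = g_{k+1} ≥ 1/3`. -/
theorem SL {B : ℝ} (hB : 0 ≤ B) (k : ℕ) (β : ℕ → ℝ) (hβ : ∀ i, i ≤ k → 0 ≤ β i) :
    Vol k (B - ∑ i ∈ range (k + 1), gSeq i * β i - cM * ∑ i ∈ range (k + 1), gSeq i) ≤
      ∑ l ∈ Reg β B k, wt l := by
  classical
  induction k generalizing β with
  | zero =>
    unfold Vol
    simp only [zero_add, range_one, sum_singleton, range_zero, prod_empty, div_one, g_zero,
      one_mul, mul_one]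
    unfold Vp
    split_ifs with h
    · have hmem : [] ∈ Reg β B 0 := by
        rw [mem_Reg]
        refine ⟨rfl, by simp, fun i hi => ?_⟩
        obtain rfl : i = 0 := by simpa using hi
        simp only [List.length_nil, Ioc_self, sum_empty, zero_add, ys_zero]
        have := one_le_cM
        linarith
      have h1 := single_le_sum (f := wt) (fun l _ => wt_nonneg l) hmem
      rw [wt_nil] at h1
      simpa using h1
    · exact sum_nonneg fun l _ => wt_nonneg l
  | succ k ih =>
    set s : ℝ := B - ∑ i ∈ range (k + 1), gSeq i * β i - cM * ∑ i ∈ range (k + 1), gSeq i with hs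
    set Pi : ℝ := ∏ i ∈ range k, gSeq (i + 1) with hPi
    have hPi0 : 0 < Pi := prod_pos fun i _ => g_pos _
    have hsB : s ≤ gSeq (k + 1) * (3 * B) := by
      have h1 : 0 ≤ ∑ i ∈ range (k + 1), gSeq i * β i := sum_nonneg fun i hi =>
        mul_nonneg (g_pos i).le (hβ i (by have := mem_range.1 hi; omega))
      have h2 : 0 ≤ cM * ∑ i ∈ range (k + 1), gSeq i :=
        mul_nonneg (zero_le_one.trans one_le_cM) (sum_nonneg fun i _ => (g_pos i).le)
      have h3 := g_ge (k + 1)
      nlinarith
    have hmon := mon_lo k (g_pos (k + 1)) (hβ (k + 1) le_rfl) hsB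
    set P : Finset ℕ := (PL (3 * B)).filter (fun p => β (k + 1) < LL p) with hP
    set S : Finset (Σ _ : ℕ, List ℕ) :=
      P.sigma (fun p => Reg (fun i => β i + a0 i (k + 1) * LL p) B k) with hS
    have hinj : Set.InjOn (fun u : (Σ _ : ℕ, List ℕ) => u.2 ++ [u.1]) (S : Set (Σ _ : ℕ, List ℕ)) := by
      rintro ⟨p, l⟩ _ ⟨p', l'⟩ _ h
      simp only at h
      obtain ⟨h1, h2⟩ := List.append_inj' h rfl
      obtain rfl : p = p' := by simpa using h2
      subst h1
      rfl
    have hsub : S.image (fun u : (Σ _ : ℕ, List ℕ) => u.2 ++ [u.1]) ⊆ Reg β B (k + 1) := by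
      intro l hl
      obtain ⟨⟨p, l'⟩, hu, rfl⟩ := mem_image.1 hl
      rw [hS, mem_sigma, hP, mem_filter, mem_PL, mem_Reg] at hu
      obtain ⟨⟨⟨hp, hp1⟩, hp2⟩, hlen, hpr, hcon⟩ := hu
      simp only at hp hp1 hp2 hlen hpr hcon ⊢
      rw [mem_Reg, con_concat, hlen]
      refine ⟨by simp [hlen], fun q hq => ?_, hcon, hp2.le⟩
      rcases List.mem_append.1 hq with hq | hq
      · exact hpr q hq
      · obtain rfl : q = p := by simpa using hq
        exact ⟨hp, hp1⟩
    calc Vol (k + 1) (B - ∑ i ∈ range (k + 1 + 1), gSeq i * β i -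
          cM * ∑ i ∈ range (k + 1 + 1), gSeq i)
        = Vp (k + 1) (s - gSeq (k + 1) * (β (k + 1) + cM)) / gSeq (k + 1) / Pi := by
          unfold Vol
          rw [prod_range_succ, sum_range_succ (fun i => gSeq i * β i) (k + 1),
            sum_range_succ gSeq (k + 1), div_div, mul_comm (gSeq (k + 1)) Pi]
          congr 2
          rw [hs]; ring
      _ ≤ (∑ p ∈ PL (3 * B), ind (β (k + 1) < LL p) *
            (Vp k (s - gSeq (k + 1) * LL p) / ((p : ℝ) - 1))) / Pi :=
          div_le_div_of_nonneg_right hmon hPi0.le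
      _ = ∑ p ∈ P, 1 / ((p : ℝ) - 1) * Vol k (s - gSeq (k + 1) * LL p) := by
          rw [hP, sum_filter, sum_div]
          refine sum_congr rfl fun p _ => ?_
          unfold Vol
          split_ifs with h
          · rw [ind_pos h]; ring
          · rw [ind_neg h]; ring
      _ ≤ ∑ p ∈ P, ∑ l ∈ Reg (fun i => β i + a0 i (k + 1) * LL p) B k, wt (l ++ [p]) := by
          refine sum_le_sum fun p hp => ?_
          have hpp : p.Prime := (mem_PL.1 (mem_filter.1 hp).1).1
          have h2 : (2 : ℝ) ≤ p := by exact_mod_cast hpp.two_le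
          have h1 := ih (fun i => β i + a0 i (k + 1) * LL p) (fun i hi =>
            add_nonneg (hβ i (by omega))
              (mul_nonneg (a_nonneg (by omega)) (LL_nonneg _)))
          have h3 : ∑ i ∈ range (k + 1), gSeq i * (β i + a0 i (k + 1) * LL p) =
              ∑ i ∈ range (k + 1), gSeq i * β i + gSeq (k + 1) * LL p := by
            rw [g_succ k, sum_mul, ← sum_add_distrib]
            exact sum_congr rfl fun i _ => by unfold a0; ring
          rw [h3] at h1
          have h4 : B - (∑ i ∈ range (k + 1), gSeq i * β i + gSeq (k + 1) * LL p) -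
              cM * ∑ i ∈ range (k + 1), gSeq i = s - gSeq (k + 1) * LL p := by
            rw [hs]; ring
          rw [h4] at h1
          refine (mul_le_mul_of_nonneg_left h1 (div_nonneg zero_le_one (by linarith))).trans
            (le_of_eq ?_)
          rw [mul_sum]
          refine sum_congr rfl fun l _ => ?_
          rw [wt_append, wt_cons hpp.one_le, wt_nil]; ring
      _ = ∑ u ∈ S, wt (u.2 ++ [u.1]) := by rw [hS, sum_sigma]
      _ = ∑ l ∈ S.image (fun u : (Σ _ : ℕ, List ℕ) => u.2 ++ [u.1]), wt l :=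
          (sum_image hinj).symm
      _ ≤ ∑ l ∈ Reg β B (k + 1), wt l :=
          sum_le_sum_of_subset_of_nonneg hsub (fun l _ _ => wt_nonneg l)

end Crest.Agent.R020
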