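import Crest.Agent.R020.Bas3

set_option autoImplicit false

namespace Crest.Agent.R020

open Finset Filter Topology Crest.Agent.R008 Crest.Agent.R026 Crest.NumberTheoryR.TotientScale

variable {ρ : ℝ}

theorem stab_le {J b : ℕ} (hb : b ≤ J) {y : ℕ → ℝ} (w : ℝ) :
    ∑ j ∈ range J, min w (y j) ≤ b * w + ∑ j ∈ Ico b J, y j := by
  rw [← sum_range_add_sum_Ico _ hb]
  refine add_le_add ?_ (sum_le_sum fun j _ => min_le_right _ _)
  simpa using sum_le_card_nsmul (range b) (fun j => min w (y j)) w fun j _ => min_le_left _ _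

theorem stab_ex {J b : ℕ} (hb : b ≤ J) {y : ℕ → ℝ} (h0 : ∀ j, 0 ≤ y j)
    (ha : ∀ i j, i ≤ j → y j ≤ y i) :
    ∃ w, 0 ≤ w ∧ ∑ j ∈ range J, min w (y j) = b * w + ∑ j ∈ Ico b J, y j := by
  refine ⟨y b, h0 b, ?_⟩
  rw [← sum_range_add_sum_Ico _ hb, sum_congr rfl fun j hj => min_eq_left (ha j b (mem_range.1 hj).le),
    sum_congr rfl fun j hj => min_eq_right (ha b j (mem_Ico.1 hj).1)]
  simp

theorem stab_D {J b : ℕ} (hb : b ≤ J) {y y' : ℕ → ℝ} {η : ℝ} (h0 : ∀ j, 0 ≤ y j)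
    (ha : ∀ i j, i ≤ j → y j ≤ y i)
    (h : ∀ w, 0 ≤ w → ∑ j ∈ range J, min w (y j) - ∑ j ∈ range J, min w (y' j) ≤ η) :
    ∑ j ∈ Ico b J, y j - ∑ j ∈ Ico b J, y' j ≤ η := by
  obtain ⟨w, hw, e⟩ := stab_ex hb h0 ha
  have := h w hw
  have := stab_le hb (y := y') w
  linarith

theorem stab_Nb {J M' : ℕ} {K : ℝ} {t : Tail} (ht : t.OK ρ J M' K) {Δ w : ℝ}
    (hΔ : Δ = vr ρ ^ (6 * (M' + J))) (h0 : 0 ≤ Δ) (hσ : 0 ≤ vr ρ ^ (11 * M'))
    (hw : vr ρ ^ (11 * M') ≤ w) :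
    |Nb t.val (vr ρ ^ (11 * M')) w - (∑ j ∈ range J, min w (lv t.q j) -
      ∑ j ∈ range J, min (vr ρ ^ (11 * M')) (lv t.q j))| ≤ J * (2 * Δ) := by
  have hp : Pr t.q := fun p hp => (ht.nor p hp).1
  have e1 : Nb t.val (vr ρ ^ (11 * M')) w =
      ∑ j ∈ range J, Nb (t.q.getD j 1 - 1) (vr ρ ^ (11 * M')) w := by
    rw [Tail.val, Nb_mul (pm_pos hp).ne' ht.deep.totient.1, Nb_smooth ht.deep.totient, add_zero,
      Nb_pm hp]
    refine sum_subset (range_subset_range.2 ht.len) fun j _ hj => ?_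
    rw [List.getD_eq_default _ _ (by simpa using hj)]
    simp [Nb]
  rw [e1, ← sum_sub_distrib, ← sum_sub_distrib]
  refine (abs_sum_le_sum_abs _ _).trans ?_
  refine (sum_le_card_nsmul _ _ (2 * Δ) fun j _ => ?_).trans (by simp)
  refine Normal.Nb_abs ?_ hσ hw
  by_cases hj : j < t.q.length
  · exact hΔ ▸ (ht.nor _ (getD_mem hj)).2.1
  · rw [List.getD_eq_default _ _ (not_lt.1 hj)]
    exact normal_one h0

theorem stab_F (J : ℕ) (l : List ℕ) {w : ℝ} (hw : 0 ≤ w) :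
    0 ≤ ∑ j ∈ range J, min w (lv l j) ∧ ∑ j ∈ range J, min w (lv l j) ≤ J * w :=
  ⟨sum_nonneg fun j _ => le_min hw (lv_nonneg l j), by simpa using stab_le le_rfl (y := lv l) w⟩

/-- An antitone sequence is determined by `F w = ∑_{j<J} min w (y j)`: for `b ≤ J`,
`D b = ∑_{b ≤ j < J} y j` is the maximum of `F w - b w` over `w ≥ 0` (attained at `w = y b`, and
for `b = J` at `w = 0`), so `|D b - D' b| ≤ η`, and `y b = D b - D (b + 1)`. -/
theorem stab_gen (J : ℕ) (y y' : ℕ → ℝ) (η : ℝ) (h0 : ∀ j, 0 ≤ y j) (h0' : ∀ j, 0 ≤ y' j)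
    (ha : ∀ i j, i ≤ j → y j ≤ y i) (ha' : ∀ i j, i ≤ j → y' j ≤ y' i)
    (h : ∀ w, 0 ≤ w → |∑ j ∈ range J, min w (y j) - ∑ j ∈ range J, min w (y' j)| ≤ η)
    {b : ℕ} (hb : b < J) : |y b - y' b| ≤ 2 * η := by
  have a1 := stab_D hb.le h0 ha fun w hw => (abs_le.1 (h w hw)).2
  have a2 := stab_D (Nat.succ_le_of_lt hb) h0 ha fun w hw => (abs_le.1 (h w hw)).2
  have a3 := stab_D hb.le (y' := y) (η := η) h0' ha' fun w hw => by linarith [(abs_le.1 (h w hw)).1]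
  have a4 := stab_D (Nat.succ_le_of_lt hb) (y' := y) (η := η) h0' ha'
    fun w hw => by linarith [(abs_le.1 (h w hw)).1]
  rw [sum_eq_sum_Ico_succ_bot hb, sum_eq_sum_Ico_succ_bot hb] at a1 a3
  rw [abs_le]
  constructor <;> linarith

/-- Two tails with the same value.  With `σ = ϱ^(11 M') ≤ Δ = ϱ^(6 (M' + J))`: for `w ≥ σ`,
`Nb val σ w = ∑_j Nb (q_j - 1) σ w` (`Nb_mul`, `Nb_pm`, `Nb_smooth`, `Sm.totient`) is within
`2 J Δ` of `F w - F σ` (`Normal.Nb_abs`), and `0 ≤ F σ ≤ J σ`; so `η = 5 J Δ`. -/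
theorem stab (h : Root ρ) {J M' : ℕ} {K K' : ℝ} (hJ : M' ≤ J) {t t' : Tail} (ht : t.OK ρ J M' K)
    (ht' : t'.OK ρ J M' K') (hv : t.val = t'.val) (j : ℕ) :
    |lv t.q j - lv t'.q j| ≤ 10 * J * vr ρ ^ (6 * (M' + J)) := by
  have h1 : 1 ≤ vr ρ := (vr_gt h).le
  have hΔ : 0 ≤ vr ρ ^ (6 * (M' + J)) := by positivity
  have hσ : 0 ≤ vr ρ ^ (11 * M') := by positivity
  have hle : vr ρ ^ (11 * M') ≤ vr ρ ^ (6 * (M' + J)) := pow_le_pow_right₀ h1 (by omega)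
  have hJ0 : (0 : ℝ) ≤ J := Nat.cast_nonneg J
  by_cases hj : j < J
  swap
  · rw [lv_of_le (ht.len.trans (not_lt.1 hj)), lv_of_le (ht'.len.trans (not_lt.1 hj)), sub_zero,
      abs_zero]
    positivity
  refine (stab_gen J (lv t.q) (lv t'.q) (5 * J * vr ρ ^ (6 * (M' + J))) (lv_nonneg _) (lv_nonneg _)
    (fun _ _ => ht.dec.lv_anti) (fun _ _ => ht'.dec.lv_anti) (fun w hw => ?_) hj).trans (le_of_eq (by ring))
  have b0 := mul_le_mul_of_nonneg_left hle hJ0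
  have b1 := mul_nonneg hJ0 hΔ
  rw [abs_le]
  rcases le_total (vr ρ ^ (11 * M')) w with hw' | hw'
  · have a1 := abs_le.1 (stab_Nb ht rfl hΔ hσ hw')
    have a2 := abs_le.1 (stab_Nb ht' rfl hΔ hσ hw')
    have a3 := stab_F J t.q hσ
    have a4 := stab_F J t'.q hσ
    rw [hv] at a1
    constructor <;> linarith [a1.1, a1.2, a2.1, a2.2, a3.1, a3.2, a4.1, a4.2]
  · have a3 := stab_F J t.q hw
    have a4 := stab_F J t'.q hw
    have a5 := mul_le_mul_of_nonneg_left hw' hJ0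
    constructor <;> linarith [a3.1, a3.2, a4.1, a4.2]

theorem Stab_getD (l : List ℕ) (i : ℕ) {J j : ℕ} (hj : j < J) :
    ((l.drop i).take J).getD j 1 = l.getD (i + j) 1 := by
  simp [List.getD_eq_getElem?_getD, hj]

theorem Stab_pm_le {l : List ℕ} {E : ℝ} (h : ∀ p ∈ l, (p : ℝ) ≤ E) :
    (pm l : ℝ) ≤ E ^ l.length := by
  induction l with
  | nil => simp [pm]
  | cons p l ih =>
    have hp := h p (by simp)
    have h1 : ((p - 1 : ℕ) : ℝ) ≤ E := le_trans (by exact_mod_cast Nat.sub_le p 1) hp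
    rw [pm_cons, List.length_cons, pow_succ', Nat.cast_mul]
    exact mul_le_mul h1 (ih fun q hq => h q (by simp [hq])) (Nat.cast_nonneg _)
      ((Nat.cast_nonneg _).trans hp)

/-- The true tail is admissible (`pre_struct`, `totient_nd_add`, the level `k` for `nor`, the
level `k + J` for `deep`). -/
theorem tt_ok {x K K₁ : ℝ} {k J M' n : ℕ} (hn : 0 < n) (hk : 1 ≤ k) (hJ : 1 ≤ J) (hM : 1 ≤ M')
    (hP : Pre ρ x (k + J + M') (k + J) (k + J + 1) n) (hF : Fine ρ x K K₁ (k + J + M') k J n) :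
    (tt n k J).OK ρ J M' K ∧ (tt n k J).val = Nat.totient (nd n (k + 1)) ∧
      ∀ i, i ≤ k → (tt n k J).beta J k i =
        ∑ j ∈ Icc (k + 1) (k + J), aCoef (j - i) * lv (pl n) j := by
  obtain ⟨hs, -⟩ := pre_struct hP hn (by omega) le_rfl (by omega)
  obtain ⟨hlen, hdec, hcop, htot⟩ := totient_nd_add (n := n) (i := k + 1) J
    fun j _ hj => hs j (by omega)
  have e1 : k + 1 + J = k + J + 1 := by omega
  rw [e1] at hcop htot
  have hLk := hP.2 k hk (by omega)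
  have hLJ := hP.2 (k + J) (by omega) (by omega)
  have e2 : k + J + M' - k = M' + J := by omega
  have e3 : k + J + M' - (k + J) = M' := by omega
  have hlv : ∀ j, j < J → lv (((pl n).drop (k + 1)).take J) j = lv (pl n) (k + 1 + j) :=
    fun j hj => by rw [lv_take hj, lv_drop]
  have hbeta : ∀ k' i, (tt n k J).beta J k' i =
      ∑ j ∈ range J, aCoef (k' - i + j + 1) * lv (pl n) (k + 1 + j) := fun k' i =>
    Finset.sum_congr rfl fun j hj => by
      show _ * lv (((pl n).drop (k + 1)).take J) j = _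
      rw [hlv j (mem_range.1 hj)]
  have hord : lv (pl n) (k + 1) ≤ (tt n k J).beta J 0 0 := by
    rw [hbeta]
    simpa using hF.ord
  have hmem : ∀ p ∈ ((pl n).drop (k + 1)).take J, ∃ j, j < J ∧ (pl n).getD (k + 1 + j) 1 = p ∧
      lv (pl n) (k + 1 + j) = LL p := fun p hp => by
    obtain ⟨j, hj, h1, h2⟩ := exists_lv_of_mem hp
    rw [hlen] at hj
    exact ⟨j, hj, by rw [← h1, Stab_getD _ _ hj], by rw [← h2, hlv j hj]⟩
  refine ⟨⟨hlen.le, hdec, fun p hp => ?_, ?_, hcop, fun j => le_rfl, fun p hp h => ?_, ?_⟩,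
    htot.symm, fun i hi => ?_⟩
  · obtain ⟨j, hj, h1, h2⟩ := hmem p hp
    refine ⟨h1 ▸ (hs _ (by omega)).1, ?_, ?_⟩
    · have := hLk.nor (k + 1 + j) (by omega) (by omega)
      rwa [e2, h1] at this
    · have := hLk.up
      rw [e2] at this
      rw [← h2]
      exact (lv_pl_anti n (by omega)).trans this
  · have := hLJ.up
    rw [e3] at this
    exact (sm_nd n (k + J + 1)).mono ((lv_pl_anti n (Nat.le_succ _)).trans this)
  · refine le_trans ?_ hord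
    rcases h with h | h
    · obtain ⟨j, hj, -, h2⟩ := hmem p h
      rw [← h2]
      exact lv_pl_anti n (by omega)
    · exact ((sm_nd n (k + J + 1)).2 p hp h).trans (lv_pl_anti n (by omega))
  · have := hF.big
    rw [e2] at this
    exact this.trans hord
  · rw [hbeta, ← Finset.Ico_add_one_right_eq_Icc, Finset.sum_Ico_eq_sum_range,
      show k + J + 1 - (k + 1) = J by omega]
    exact Finset.sum_congr rfl fun j _ => by rw [show k + 1 + j - i = k - i + j + 1 by omega]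

/-- Representatives.  The values of admissible tails with `φ t.n ≤ K₁` are bounded by
`N = exp (exp ϱ^(11 (M' + J)))^J K₁`; choose one tail for each value. -/
theorem exists_tails (ρ : ℝ) (J M' : ℕ) (K K₁ : ℝ) : ∃ (𝒯 : Finset Tail) (N : ℝ),
    Tails ρ J M' K 𝒯 ∧ (∀ t ∈ 𝒯, t.lam = lv t.q ∧ (t.val : ℝ) ≤ N) ∧
    ∀ t : Tail, t.OK ρ J M' K → t.lam = lv t.q → (Nat.totient t.n : ℝ) ≤ K₁ →
      ∃ t' ∈ 𝒯, t'.val = t.val := by
  classical
  set E : ℝ := Real.exp (Real.exp (vr ρ ^ (11 * (M' + J)))) with hE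
  have hE1 : 1 ≤ E := Real.one_le_exp (Real.exp_pos _).le
  let P : Tail → Prop := fun t => t.OK ρ J M' K ∧ t.lam = lv t.q ∧ (Nat.totient t.n : ℝ) ≤ K₁
  have hN : ∀ t, P t → (t.val : ℝ) ≤ E ^ J * K₁ := fun t ht => by
    have h1 : (pm t.q : ℝ) ≤ E ^ J :=
      (Stab_pm_le fun p hp => le_exp_of_LL (ht.1.nor p hp).2.2).trans
        (pow_le_pow_right₀ hE1 ht.1.len)
    rw [Tail.val, Nat.cast_mul]
    exact mul_le_mul h1 ht.2.2 (Nat.cast_nonneg _) (by positivity)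
  let S : Finset ℕ := (range (⌊E ^ J * K₁⌋₊ + 1)).filter fun v => ∃ t, P t ∧ t.val = v
  have hS : ∀ v : S, ∃ t, P t ∧ t.val = v := fun v => (mem_filter.1 v.2).2
  choose f hfP hfv using hS
  refine ⟨univ.image f, E ^ J * K₁, ⟨fun t ht => ?_, fun t ht t' ht' h => ?_⟩, fun t ht => ?_,
    fun t h1 h2 h3 => ?_⟩
  · obtain ⟨v, -, rfl⟩ := mem_image.1 ht
    exact (hfP v).1
  · obtain ⟨v, -, rfl⟩ := mem_image.1 (mem_coe.1 ht)
    obtain ⟨v', -, rfl⟩ := mem_image.1 (mem_coe.1 ht')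
    rw [hfv, hfv] at h
    rw [Subtype.ext h]
  · obtain ⟨v, -, rfl⟩ := mem_image.1 ht
    exact ⟨(hfP v).2.1, hN _ (hfP v)⟩
  · have hv : t.val ∈ S := mem_filter.2
      ⟨mem_range.2 (Nat.lt_succ_of_le (Nat.le_floor (hN t ⟨h1, h2, h3⟩))), t, ⟨h1, h2, h3⟩, rfl⟩
    exact ⟨f ⟨_, hv⟩, mem_image_of_mem _ (mem_univ _), hfv _⟩

end Crest.Agent.R020
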