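import Crest.Agent.R020.Eul2

set_option autoImplicit false

namespace Crest.Agent.R020

open Finset Filter Topology Crest.Agent.R008 Crest.Agent.R026 Crest.NumberTheoryR.TotientScale

theorem svx_uniq {p : ℕ} (hp : p.Prime) (a : ℕ) :
    ((range p).filter (fun n => p ∣ a * n + 1)).card ≤ 1 := by
  rw [card_le_one]
  have key : ∀ m n : ℕ, m ≤ n → n < p → p ∣ a * m + 1 → p ∣ a * n + 1 → m = n := by
    intro m n hmn hn h1 h2
    have h3 : p ∣ a * (n - m) := by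
      have := Nat.dvd_sub h2 h1
      rwa [Nat.add_sub_add_right, ← Nat.mul_sub] at this
    rcases (Nat.Prime.dvd_mul hp).1 h3 with h | h
    · have : p ∣ 1 := (Nat.dvd_add_right (h.mul_right m)).1 h1
      exact absurd (Nat.dvd_one.1 this) hp.one_lt.ne'
    · have := Nat.eq_zero_of_dvd_of_lt h (by omega)
      omega
  intro m hm n hn
  simp only [mem_filter, mem_range] at hm hn
  rcases le_total m n with h | h
  · exact key m n h hn.1 hm.2 hn.2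
  · exact (key n m h hm.1 hn.2 hm.2).symm

theorem svx_ex {p : ℕ} (hp : p.Prime) {a : ℕ} (ha : ¬ p ∣ a) :
    ∃ n, n < p ∧ n ≠ 0 ∧ p ∣ a * n + 1 := by
  have : Fact p.Prime := ⟨hp⟩
  have ha' : (a : ZMod p) ≠ 0 := by
    rwa [Ne, ZMod.natCast_eq_zero_iff]
  have h1 : p ∣ a * (-(a : ZMod p)⁻¹).val + 1 := by
    rw [← ZMod.natCast_eq_zero_iff]
    push_cast
    rw [ZMod.natCast_zmod_val, mul_neg, mul_inv_cancel₀ ha', neg_add_cancel]
  refine ⟨(-(a : ZMod p)⁻¹).val, ZMod.val_lt _, fun h => ?_, h1⟩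
  rw [h] at h1
  simp only [mul_zero, zero_add, Nat.dvd_one] at h1
  exact hp.one_lt.ne' h1

theorem svx_zero {p : ℕ} : ((range p).filter (fun n => p ∣ n)).card ≤ 1 := by
  rw [card_le_one]
  intro m hm n hn
  simp only [mem_filter, mem_range] at hm hn
  rw [Nat.eq_zero_of_dvd_of_lt hm.2 hm.1, Nat.eq_zero_of_dvd_of_lt hn.2 hn.1]

theorem svx_mod_lin (p a n : ℕ) : p ∣ a * n + 1 ↔ p ∣ a * (n % p) + 1 := by
  apply Nat.ModEq.dvd_iff _ dvd_rfl
  exact ((Nat.mod_modEq n p).symm.mul_left a).add_right 1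

theorem svx_sqrt {y : ℝ} (hy : Real.exp 1 ≤ y) {k : ℕ} (hk : k ≤ 3) :
    y ^ (1 / 2 : ℝ) ≤ 216 * (y / Real.log y ^ k) := by
  have hy0 : 0 < y := lt_of_lt_of_le (Real.exp_pos 1) hy
  have hl : 1 ≤ Real.log y := by
    rw [Real.le_log_iff_exp_le hy0]; exact hy
  have h1 : Real.log y ≤ y ^ (1 / 6 : ℝ) / (1 / 6) := Real.log_le_rpow_div hy0.le (by norm_num)
  have h2 : Real.log y ^ k ≤ Real.log y ^ 3 := pow_le_pow_right₀ hl hk
  have h3 : Real.log y ^ 3 ≤ (y ^ (1 / 6 : ℝ) / (1 / 6)) ^ 3 :=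
    pow_le_pow_left₀ (by linarith) h1 3
  have h4 : (y ^ (1 / 6 : ℝ) / (1 / 6)) ^ 3 = 216 * y ^ (1 / 2 : ℝ) := by
    rw [div_pow, ← Real.rpow_natCast (y ^ (1 / 6 : ℝ)), ← Real.rpow_mul hy0.le]
    norm_num
    ring
  have h5 : y ^ (1 / 2 : ℝ) * y ^ (1 / 2 : ℝ) = y := by
    rw [← Real.rpow_add hy0]; norm_num
  have h6 : 0 < y ^ (1 / 2 : ℝ) := Real.rpow_pos_of_pos hy0 _
  rw [← mul_div_assoc, le_div_iff₀ (by positivity)]
  nlinarith

theorem svx_card_le {A : Finset ℕ} {y : ℝ} (hy : 0 ≤ y) (h : ∀ r ∈ A, (r : ℝ) ≤ y) :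
    (A.card : ℝ) ≤ y + 1 := by
  have h1 : A ⊆ range (⌊y⌋₊ + 1) := fun r hr => by
    rw [mem_range, Nat.lt_succ_iff]; exact Nat.le_floor (h r hr)
  have h2 := card_le_card h1
  rw [card_range] at h2
  have h3 : (A.card : ℝ) ≤ (⌊y⌋₊ : ℝ) + 1 := by exact_mod_cast h2
  linarith [Nat.floor_le hy]

/-- The general form of the sieve bound. -/
theorem svx_main
    (H : ∃ C : ℝ, 1 ≤ C ∧ ∀ (bad : ℕ → ℕ → Prop) (ω : ℕ → ℕ) (z : ℝ) (P A : Finset ℕ)
    (N : ℕ), 1 ≤ z → (∀ p ∈ P, p.Prime ∧ 7 ≤ p ∧ (p : ℝ) ≤ z ∧ ω p ≤ 3 ∧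
      ∃ Ω : Finset ℕ, Ω.card = ω p ∧ (∀ a ∈ Ω, a < p) ∧ ∀ n, bad p n ↔ n % p ∈ Ω) →
    (∀ n ∈ A, n < N ∧ ∀ p ∈ P, ¬ bad p n) →
    (A.card : ℝ) ≤ C * N * Real.exp (-∑ p ∈ P, (ω p : ℝ) / p) + z ^ 12) (j : ℕ) (hj : j ≤ 2) :
    ∃ C : ℝ, 1 ≤ C ∧ ∀ (bad : ℕ → ℕ → Prop) [∀ p, DecidablePred (bad p)] (N : ℕ) (y : ℝ)
      (A : Finset ℕ), N ≠ 0 → 2 ≤ y →
      (∀ p : ℕ, p.Prime → (∀ n, bad p n ↔ bad p (n % p)) ∧
        ((range p).filter (bad p)).card ≤ 3 ∧ 1 ≤ ((range p).filter (bad p)).card ∧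
        (¬ p ∣ N → j + 1 ≤ ((range p).filter (bad p)).card)) →
      (∀ r ∈ A, (r : ℝ) ≤ y ∧ ∀ p : ℕ, p.Prime → p < r → ¬ bad p r) →
      (A.card : ℝ) ≤ C * (LL N + 1) ^ j * (y / Real.log y ^ (j + 1)) := by
  obtain ⟨C1, hC1, H⟩ := H
  obtain ⟨C2, hC2, H2⟩ := mertens2
  obtain ⟨C3, hC3, H3⟩ := E7_prod
  set c : ℝ := Real.log 24 + Real.log (Real.log 6) + C2 with hc
  set L0 : ℝ := 24 * 7 with hL0
  refine ⟨2 * L0 ^ (j + 1) + 2 * C1 * Real.exp ((j + 1) * c) * C3 ^ j + 3 * 216, ?_, ?_⟩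
  · have : 0 ≤ 2 * L0 ^ (j + 1) + 2 * C1 * Real.exp ((j + 1) * c) * C3 ^ j := by positivity
    linarith
  intro bad _ N y A hN hy hbad hA
  have hy0 : 0 < y := by linarith
  have hly : 0 < Real.log y := Real.log_pos (by linarith)
  have hLL : 1 ≤ (LL N + 1) ^ j := one_le_pow₀ (by linarith [LL_nonneg (N : ℝ)])
  have hX : 0 < y / Real.log y ^ (j + 1) := by positivity
  have hT1 : 0 ≤ 2 * L0 ^ (j + 1) := by positivity
  have hT2 : 0 ≤ 2 * C1 * Real.exp ((j + 1) * c) * C3 ^ j := by positivity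
  by_cases hs : Real.log y ≤ L0
  · have h1 := svx_card_le hy0.le (fun r hr => (hA r hr).1)
    have h2 : y ≤ L0 ^ (j + 1) * (y / Real.log y ^ (j + 1)) := by
      rw [← mul_div_assoc, le_div_iff₀ (by positivity), mul_comm]
      exact mul_le_mul_of_nonneg_right (pow_le_pow_left₀ hly.le hs _) hy0.le
    calc (A.card : ℝ) ≤ 2 * L0 ^ (j + 1) * 1 * (y / Real.log y ^ (j + 1)) := by linarith
      _ ≤ _ := by
        apply mul_le_mul_of_nonneg_right _ hX.le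
        apply mul_le_mul (by linarith) hLL zero_le_one (by linarith)
  push Not at hs
  set z : ℝ := y ^ (1 / 24 : ℝ) with hz
  have hz0 : 0 < z := Real.rpow_pos_of_pos hy0 _
  have hlz : Real.log z = Real.log y / 24 := by
    rw [hz, Real.log_rpow hy0]; ring
  have hz7 : 7 ≤ z := by
    have h1 : Real.log z ≤ z - 1 := Real.log_le_sub_one_of_pos hz0
    rw [hL0] at hs
    linarith
  have hz12 : z ^ 12 = y ^ (1 / 2 : ℝ) := by
    rw [hz, ← Real.rpow_natCast, ← Real.rpow_mul hy0.le]; norm_num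
  have hzz : z ≤ z ^ 12 := le_self_pow₀ (by linarith) (by norm_num)
  have hey : Real.exp 1 ≤ y := by
    rw [← Real.le_log_iff_exp_le hy0]; rw [hL0] at hs; linarith
  have hsq := svx_sqrt hey (k := j + 1) (by omega)
  set P := primesIoc 6 z with hP
  have hPm : ∀ p ∈ P, p.Prime ∧ 7 ≤ p ∧ (p : ℝ) ≤ z := by
    intro p hp
    simp only [hP, primesIoc, mem_filter, mem_Ioc] at hp
    have h6 : ⌊(6 : ℝ)⌋₊ = 6 := by exact_mod_cast Nat.floor_natCast (R := ℝ) 6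
    rw [h6] at hp
    exact ⟨hp.2, hp.1.1, (Nat.le_floor_iff hz0.le).1 hp.1.2⟩
  have h1 := H bad (fun p => ((range p).filter (bad p)).card) z P
    (A.filter (fun r : ℕ => z < (r : ℝ))) (⌊y⌋₊ + 1) (by linarith)
    (fun p hp => by
      obtain ⟨h1, h2, h3⟩ := hPm p hp
      refine ⟨h1, h2, h3, (hbad p h1).2.1, (range p).filter (bad p), rfl,
        fun a ha => mem_range.1 (mem_filter.1 ha).1, fun n => ?_⟩
      rw [mem_filter, mem_range, (hbad p h1).1 n]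
      exact ⟨fun h => ⟨Nat.mod_lt _ h1.pos, h⟩, fun h => h.2⟩)
    (fun n hn => by
      obtain ⟨h1, h2⟩ := mem_filter.1 hn
      refine ⟨Nat.lt_succ_iff.2 (Nat.le_floor (hA n h1).1), fun p hp => ?_⟩
      obtain ⟨h3, _, h5⟩ := hPm p hp
      exact (hA n h1).2 p h3 (by exact_mod_cast lt_of_le_of_lt h5 h2))
  have h2 : ((A.filter (fun r : ℕ => ¬ z < (r : ℝ))).card : ℝ) ≤ z + 1 :=
    svx_card_le hz0.le (fun r hr => not_lt.1 (mem_filter.1 hr).2)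
  have h3 : (A.card : ℝ) = ((A.filter (fun r : ℕ => z < (r : ℝ))).card : ℝ) +
      ((A.filter (fun r : ℕ => ¬ z < (r : ℝ))).card : ℝ) := by
    exact_mod_cast (card_filter_add_card_filter_not (s := A) (fun r : ℕ => z < (r : ℝ))).symm
  -- the exponent
  have h4 : Real.log (Real.log y) - c ≤ ∑ p ∈ P, (1 : ℝ) / p := by
    have h := (abs_le.1 (H2 6 z (by norm_num) (by linarith))).1
    rw [hlz, Real.log_div hly.ne' (by norm_num)] at h
    rw [hc]; linarith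
  set Sg : ℝ := ∑ p ∈ P.filter (· ∣ N), 1 / ((p : ℝ) - 1) with hSg
  have h5 : (j + 1) * ∑ p ∈ P, (1 : ℝ) / p - j * Sg ≤
      ∑ p ∈ P, (((range p).filter (bad p)).card : ℝ) / p := by
    rw [hSg, sum_filter, mul_sum, mul_sum, ← sum_sub_distrib]
    refine sum_le_sum fun p hp => ?_
    obtain ⟨hp1, hp2, _⟩ := hPm p hp
    have hp7 : (7 : ℝ) ≤ p := by exact_mod_cast hp2
    have hp0 : (0 : ℝ) < p := by linarith
    split_ifs with hd
    · have h6 : (1 : ℝ) ≤ ((range p).filter (bad p)).card := by exact_mod_cast (hbad p hp1).2.2.1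
      have h7 : (1 : ℝ) / p ≤ 1 / ((p : ℝ) - 1) :=
        one_div_le_one_div_of_le (by linarith) (by linarith)
      have h8 : (1 : ℝ) / p ≤ (((range p).filter (bad p)).card : ℝ) / p :=
        div_le_div_of_nonneg_right h6 hp0.le
      have h9 : (j : ℝ) * (1 / p) ≤ j * (1 / ((p : ℝ) - 1)) :=
        mul_le_mul_of_nonneg_left h7 (Nat.cast_nonneg j)
      linarith
    · have h6 : ((j : ℝ) + 1) ≤ ((range p).filter (bad p)).card := by
        exact_mod_cast (hbad p hp1).2.2.2 hd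
      rw [mul_zero, sub_zero, mul_one_div]
      exact div_le_div_of_nonneg_right h6 hp0.le
  have h6 : Real.exp Sg ≤ C3 * (LL N + 1) :=
    H3 N _ hN (fun p hp => ⟨(hPm p (mem_filter.1 hp).1).1, (mem_filter.1 hp).2⟩)
  have h7 : Real.exp (-∑ p ∈ P, (((range p).filter (bad p)).card : ℝ) / p) ≤
      Real.exp ((j + 1) * c) * (C3 ^ j * (LL N + 1) ^ j) / Real.log y ^ (j + 1) := by
    have hj0 : (0 : ℝ) ≤ (j : ℝ) + 1 := by positivity
    have e1 : -∑ p ∈ P, (((range p).filter (bad p)).card : ℝ) / p ≤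
        (j + 1) * c + j * Sg - ((j + 1 : ℕ) : ℝ) * Real.log (Real.log y) := by
      have := mul_le_mul_of_nonneg_left h4 hj0
      push_cast
      linarith
    refine (Real.exp_le_exp.2 e1).trans ?_
    rw [Real.exp_sub, Real.exp_add, Real.exp_nat_mul, Real.exp_nat_mul, Real.exp_log hly,
      ← mul_pow]
    apply div_le_div_of_nonneg_right _ (by positivity)
    exact mul_le_mul_of_nonneg_left (pow_le_pow_left₀ (Real.exp_pos _).le h6 _)
      (Real.exp_pos _).le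
  have h8 : ((⌊y⌋₊ + 1 : ℕ) : ℝ) ≤ 2 * y := by
    push_cast; linarith [Nat.floor_le hy0.le]
  have h9 : C1 * ((⌊y⌋₊ + 1 : ℕ) : ℝ) *
      Real.exp (-∑ p ∈ P, (((range p).filter (bad p)).card : ℝ) / p) ≤
      2 * C1 * Real.exp ((j + 1) * c) * C3 ^ j * (LL N + 1) ^ j * (y / Real.log y ^ (j + 1)) := by
    calc _ ≤ C1 * (2 * y) *
        (Real.exp ((j + 1) * c) * (C3 ^ j * (LL N + 1) ^ j) / Real.log y ^ (j + 1)) := by
          apply mul_le_mul (mul_le_mul_of_nonneg_left h8 (by linarith)) h7 (Real.exp_pos _).le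
          positivity
      _ = _ := by ring
  have h10 : 216 * (y / Real.log y ^ (j + 1)) ≤
      216 * ((LL N + 1) ^ j * (y / Real.log y ^ (j + 1))) :=
    mul_le_mul_of_nonneg_left (le_mul_of_one_le_left hX.le hLL) (by norm_num)
  have h11 : 0 ≤ 2 * L0 ^ (j + 1) * ((LL N + 1) ^ j * (y / Real.log y ^ (j + 1))) := by
    positivity
  have h12 : 1 ≤ z := by linarith
  calc (A.card : ℝ) ≤ 2 * C1 * Real.exp ((j + 1) * c) * C3 ^ j * (LL N + 1) ^ j *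
        (y / Real.log y ^ (j + 1)) + 3 * (216 * ((LL N + 1) ^ j * (y / Real.log y ^ (j + 1)))) +
        2 * L0 ^ (j + 1) * ((LL N + 1) ^ j * (y / Real.log y ^ (j + 1))) := by
        rw [h3]; linarith
    _ = _ := by ring

theorem svx_not_dvd {p q : ℕ} (hp : p.Prime) (hq : q.Prime) (h : p < q) : ¬ p ∣ q := fun hd =>
  h.ne ((Nat.prime_dvd_prime_iff_eq hp hq).1 hd)

theorem svx_two
    (H : ∃ C : ℝ, 1 ≤ C ∧ ∀ (bad : ℕ → ℕ → Prop) (ω : ℕ → ℕ) (z : ℝ) (P A : Finset ℕ)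
    (N : ℕ), 1 ≤ z → (∀ p ∈ P, p.Prime ∧ 7 ≤ p ∧ (p : ℝ) ≤ z ∧ ω p ≤ 3 ∧
      ∃ Ω : Finset ℕ, Ω.card = ω p ∧ (∀ a ∈ Ω, a < p) ∧ ∀ n, bad p n ↔ n % p ∈ Ω) →
    (∀ n ∈ A, n < N ∧ ∀ p ∈ P, ¬ bad p n) →
    (A.card : ℝ) ≤ C * N * Real.exp (-∑ p ∈ P, (ω p : ℝ) / p) + z ^ 12) :
    ∃ C : ℝ, 1 ≤ C ∧ ∀ (a : ℕ) (y : ℝ) (A : Finset ℕ), 1 ≤ a → 2 ≤ y →
    (∀ r ∈ A, r.Prime ∧ (r : ℝ) ≤ y ∧ (a * r + 1).Prime) →
    (A.card : ℝ) ≤ C * (LL a + 1) * (y / Real.log y ^ 2) := by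
  obtain ⟨C, hC, h⟩ := svx_main H 1 (by norm_num)
  refine ⟨C, hC, fun a y A ha hy hA => ?_⟩
  have := h (fun p n => p ∣ n ∨ p ∣ a * n + 1) a y A (by omega) hy (fun p hp => ?_)
    (fun r hr => ?_)
  · simpa using this
  · refine ⟨fun n => ?_, ?_, ?_, fun hd => ?_⟩
    · rw [← svx_mod_lin, Nat.dvd_mod_iff dvd_rfl]
    · rw [filter_or]
      have h1 := card_union_le ((range p).filter (fun n => p ∣ n))
        ((range p).filter (fun n => p ∣ a * n + 1))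
      have h2 := svx_zero (p := p)
      have h3 := svx_uniq hp a
      exact h1.trans (by omega)
    · exact card_pos.2 ⟨0, by simp [hp.pos]⟩
    · obtain ⟨n, h1, h2, h3⟩ := svx_ex hp hd
      exact one_lt_card.2 ⟨0, by simp [hp.pos], n, by simp [h1, h3], h2.symm⟩
  · obtain ⟨h1, h2, h3⟩ := hA r hr
    refine ⟨h2, fun p hp hpr => ?_⟩
    rintro (h | h)
    · exact svx_not_dvd hp h1 hpr h
    · exact svx_not_dvd hp h3 (by nlinarith) h

theorem svx_LL {a b : ℕ} (ha : 1 ≤ a) (hb : 1 ≤ b) (hab : a ≠ b) :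
    LL ((a * b * ((a - b) + (b - a)) : ℕ) : ℝ) + 1 ≤ 3 * (LL a + LL b + 1) := by
  set m := max a b with hm
  have h1 : a ≤ m := le_max_left _ _
  have h2 : b ≤ m := le_max_right _ _
  have h3 : (a - b) + (b - a) ≤ m := by omega
  have h4 : a * b * ((a - b) + (b - a)) ≤ (m ^ 2) ^ 2 := by
    calc a * b * ((a - b) + (b - a)) ≤ m * m * m := Nat.mul_le_mul (Nat.mul_le_mul h1 h2) h3
      _ = m ^ 3 := by ring
      _ ≤ m ^ 4 := Nat.pow_le_pow_right (by omega) (by norm_num)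
      _ = (m ^ 2) ^ 2 := by ring
  have hm1 : (1 : ℝ) ≤ m := by exact_mod_cast ha.trans h1
  have h5 : 1 ≤ a * b * ((a - b) + (b - a)) :=
    Nat.mul_pos (Nat.mul_pos ha hb) (by omega)
  have h6 := LL_le_add_one (y := (m : ℝ) ^ 2) (y' := ((a * b * ((a - b) + (b - a)) : ℕ) : ℝ))
    (one_le_pow₀ hm1) (by exact_mod_cast h5) (by exact_mod_cast h4)
  have h7 := LL_le_add_one (y := (m : ℝ)) (y' := (m : ℝ) ^ 2) hm1 (one_le_pow₀ hm1) le_rfl
  have h8 : LL m ≤ LL a + LL b := by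
    rcases le_total a b with h | h
    · rw [hm, max_eq_right h]; linarith [LL_nonneg (a : ℝ)]
    · rw [hm, max_eq_left h]; linarith [LL_nonneg (b : ℝ)]
  linarith [LL_nonneg (a : ℝ), LL_nonneg (b : ℝ)]

theorem svx_three
    (H : ∃ C : ℝ, 1 ≤ C ∧ ∀ (bad : ℕ → ℕ → Prop) (ω : ℕ → ℕ) (z : ℝ) (P A : Finset ℕ)
    (N : ℕ), 1 ≤ z → (∀ p ∈ P, p.Prime ∧ 7 ≤ p ∧ (p : ℝ) ≤ z ∧ ω p ≤ 3 ∧
      ∃ Ω : Finset ℕ, Ω.card = ω p ∧ (∀ a ∈ Ω, a < p) ∧ ∀ n, bad p n ↔ n % p ∈ Ω) →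
    (∀ n ∈ A, n < N ∧ ∀ p ∈ P, ¬ bad p n) →
    (A.card : ℝ) ≤ C * N * Real.exp (-∑ p ∈ P, (ω p : ℝ) / p) + z ^ 12) :
    ∃ C : ℝ, 1 ≤ C ∧ ∀ (a b : ℕ) (y : ℝ) (A : Finset ℕ), 1 ≤ a → 1 ≤ b → a ≠ b → 2 ≤ y →
    (∀ r ∈ A, r.Prime ∧ (r : ℝ) ≤ y ∧ (a * r + 1).Prime ∧ (b * r + 1).Prime) →
    (A.card : ℝ) ≤ C * (LL a + LL b + 1) ^ 2 * (y / Real.log y ^ 3) := by
  obtain ⟨C, hC, h⟩ := svx_main H 2 le_rfl
  refine ⟨9 * C, by linarith, fun a b y A ha hb hab hy hA => ?_⟩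
  have h5 : 1 ≤ a * b * ((a - b) + (b - a)) :=
    Nat.mul_pos (Nat.mul_pos ha hb) (by omega)
  have := h (fun p n => p ∣ n ∨ p ∣ a * n + 1 ∨ p ∣ b * n + 1) (a * b * ((a - b) + (b - a))) y A
    (by omega) hy (fun p hp => ?_) (fun r hr => ?_)
  · refine this.trans ?_
    have hly : 0 < Real.log y := Real.log_pos (by linarith)
    have hX : 0 ≤ y / Real.log y ^ 3 := by positivity
    apply mul_le_mul_of_nonneg_right _ hX
    have h1 := pow_le_pow_left₀ (by linarith [LL_nonneg ((a * b * ((a - b) + (b - a)) : ℕ) : ℝ)])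
      (svx_LL ha hb hab) 2
    calc _ ≤ C * (3 * (LL a + LL b + 1)) ^ 2 := mul_le_mul_of_nonneg_left h1 (by linarith)
      _ = _ := by ring
  · refine ⟨fun n => ?_, ?_, ?_, fun hd => ?_⟩
    · rw [← svx_mod_lin, ← svx_mod_lin, Nat.dvd_mod_iff dvd_rfl]
    · rw [filter_or, filter_or]
      have h0 := card_union_le ((range p).filter (fun n => p ∣ n))
        ((range p).filter (fun n => p ∣ a * n + 1) ∪ (range p).filter (fun n => p ∣ b * n + 1))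
      have h1 := card_union_le ((range p).filter (fun n => p ∣ a * n + 1))
        ((range p).filter (fun n => p ∣ b * n + 1))
      have h2 := svx_zero (p := p)
      have h3 := svx_uniq hp a
      have h4 := svx_uniq hp b
      exact h0.trans (by omega)
    · exact card_pos.2 ⟨0, by simp [hp.pos]⟩
    · have hda : ¬ p ∣ a := fun h => hd ((h.mul_right _).mul_right _)
      have hdb : ¬ p ∣ b := fun h => hd ((h.mul_left _).mul_right _)
      have hdd : ¬ p ∣ (a - b) + (b - a) := fun h => hd (h.mul_left _)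
      obtain ⟨n, h1, h2, h3⟩ := svx_ex hp hda
      obtain ⟨n', h1', h2', h3'⟩ := svx_ex hp hdb
      have hne : n ≠ n' := by
        rintro rfl
        have e1 := Nat.dvd_sub h3 h3'
        have e2 := Nat.dvd_sub h3' h3
        rw [Nat.add_sub_add_right, ← Nat.sub_mul] at e1 e2
        have e3 := Nat.dvd_add e1 e2
        rw [← add_mul] at e3
        rcases (Nat.Prime.dvd_mul hp).1 e3 with h | h
        · exact hdd h
        · exact h2 (Nat.eq_zero_of_dvd_of_lt h h1)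
      exact two_lt_card_iff.2 ⟨0, n, n', by simp [hp.pos], by simp [h1, h3], by simp [h1', h3'],
        h2.symm, h2'.symm, hne⟩
  · obtain ⟨h1, h2, h3, h4⟩ := hA r hr
    refine ⟨h2, fun p hp hpr => ?_⟩
    rintro (h | h | h)
    · exact svx_not_dvd hp h1 hpr h
    · exact svx_not_dvd hp h3 (by nlinarith) h
    · exact svx_not_dvd hp h4 (by nlinarith) h

end Crest.Agent.R020
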