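import Crest.Agent.R020.Eul2
import Crest.Agent.R020.SvAux23
import Crest.Agent.R026.Sieve
import Crest.Agent.R020.SvAuxA

set_option autoImplicit false

namespace Crest.Agent.R020

open Finset Filter Topology Crest.Agent.R008 Crest.Agent.R026 Crest.NumberTheoryR.TotientScale

/-- The weights of the Brun–Hooley sieve for an arbitrary set of primes in dimension three.
Copy the proof of `sv_exists` (`R026/SieveAux`) with `P.filter (· ≤ √z)`, `P.filter (√z < ·)`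
and `3 c` in place of `2 c`. -/
theorem sv_exists3 : ∃ K : ℝ, 0 < K ∧ ∀ (g : ℕ → ℝ) (J : ℕ) (z : ℝ) (P : Finset ℕ), 1 ≤ z →
    z < 2 ^ (2 ^ J) →
    (∀ p ∈ P, p.Prime ∧ (p : ℝ) ≤ z ∧ 0 ≤ g p ∧ g p ≤ 1 / 2 ∧ g p ≤ 3 / (p : ℝ)) → ∀ b : ℕ,
    ∃ l e : Finset ℕ → ℝ, SvW P g (z ^ (4 * b + 6)) (Real.exp (4 * (K / 2 ^ b))) l e :=
  svAuxA_exists

/-- Upper bound sieve for a periodic family of conditions.  Take `b = 0` in `sv_exists3` with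
`g p = ω p / p`.  For `S ⊆ P` the number of `n < N` with `bad p n` for all `p ∈ S` is
`N ∏ g p + O(∏ ω p)` (Chinese remainder theorem: `Nat.chineseRemainderOfFinset`, or induction
on `S`; `Nat.count_modEq_card`), `∏ ω p ≤ pr S ≤ z ^ 6`, and there are at most `z ^ 6` such `S`
(`pr_inj`).  Main term: `svEv P l g ≤ svV + svEv P e g ≤ exp (4 K) svV` and
`svV ≤ exp (-∑ g p)`. -/
theorem sv_upper : ∃ C : ℝ, 1 ≤ C ∧ ∀ (bad : ℕ → ℕ → Prop) (ω : ℕ → ℕ) (z : ℝ) (P A : Finset ℕ)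
    (N : ℕ), 1 ≤ z → (∀ p ∈ P, p.Prime ∧ 7 ≤ p ∧ (p : ℝ) ≤ z ∧ ω p ≤ 3 ∧
      ∃ Ω : Finset ℕ, Ω.card = ω p ∧ (∀ a ∈ Ω, a < p) ∧ ∀ n, bad p n ↔ n % p ∈ Ω) →
    (∀ n ∈ A, n < N ∧ ∀ p ∈ P, ¬ bad p n) →
    (A.card : ℝ) ≤ C * N * Real.exp (-∑ p ∈ P, (ω p : ℝ) / p) + z ^ 12 :=
  svAuxA_upper

/-- `z = y ^ (1/24)`, `P` the primes in `[7, z]`, `bad p n ↔ p ∣ n (a n + 1)`; `ω p = 2` for
`p ∤ a` and `1` for `p ∣ a`.  The primes `r ≤ z` are counted trivially; for `r > z` both `r` and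
`a r + 1` are primes exceeding `z`.  `∑ ω p / p ≥ 2 (LL z - C) - ∑_{p ∣ a} 1 / p`
(`mert_PL_ge`, `E7_prod`), and `√y ≤ C y / log³ y`. -/
theorem SV2 : ∃ C : ℝ, 1 ≤ C ∧ ∀ (a : ℕ) (y : ℝ) (A : Finset ℕ), 1 ≤ a → 2 ≤ y →
    (∀ r ∈ A, r.Prime ∧ (r : ℝ) ≤ y ∧ (a * r + 1).Prime) →
    (A.card : ℝ) ≤ C * (LL a + 1) * (y / Real.log y ^ 2) :=
  svx_two sv_upper

/-- The same with `bad p n ↔ p ∣ n (a n + 1) (b n + 1)`: `1 ≤ ω p ≤ 3`, and `ω p = 3` unless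
`p ∣ N = a b |a - b|`; `N ≤ max a b ^ 3`, so `LL N + 1 ≤ 3 (LL a + LL b + 1)`. -/
theorem SV3 : ∃ C : ℝ, 1 ≤ C ∧ ∀ (a b : ℕ) (y : ℝ) (A : Finset ℕ), 1 ≤ a → 1 ≤ b → a ≠ b → 2 ≤ y →
    (∀ r ∈ A, r.Prime ∧ (r : ℝ) ≤ y ∧ (a * r + 1).Prime ∧ (b * r + 1).Prime) →
    (A.card : ℝ) ≤ C * (LL a + LL b + 1) ^ 2 * (y / Real.log y ^ 3) :=
  svx_three sv_upper

end Crest.Agent.R020
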