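import Crest.Agent.R020.U0a

set_option autoImplicit false

namespace Crest.Agent.R020

open Finset Filter Topology Crest.Agent.R008 Crest.Agent.R026 Crest.NumberTheoryR.TotientScale

variable {ρ : ℝ}

theorem U0_lv_le {n : ℕ} {x : ℝ} (hn : 0 < n) (hx : (Nat.totient n : ℝ) ≤ x) (h2 : 2 ≤ x) :
    lv (pl n) 0 ≤ LL x + 1 := by
  have h1 : (1 : ℝ) ≤ ((pl n).getD 0 1 : ℕ) := by exact_mod_cast getD_pl_pos n 0
  refine LL_le_add_one (by linarith) h1 ?_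
  rcases getD_pl_cases n 0 with h0 | hp
  · rw [h0, Nat.cast_one]
    nlinarith
  · have hd : (pl n).getD 0 1 ∣ n := (getD_dvd_nd n le_rfl).trans (nd_dvd_self n 0)
    have h3 := pred_le_totient hp hn hd
    have h4 : (pl n).getD 0 1 ≤ Nat.totient n + 1 := by omega
    have h5 : (((pl n).getD 0 1 : ℕ) : ℝ) ≤ (Nat.totient n : ℝ) + 1 := by exact_mod_cast h4
    nlinarith

/-- `VB4` with `Δ = σ = ϱ^(6 m)`, `s = ϱ^(11 m)`, `L = k'`, `e = B + ϱ^(7 m)`; `Er_small`. -/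
theorem U0e (h : Root ρ) {ε : ℝ} (hε : 0 < ε) : ∀ᶠ q in Fl ρ, ∀ (k' : ℕ) (A : Finset ℕ), k' ≤ q.2 →
    Vals q.1 (fun n => (∀ p : ℕ, p.Prime → vr ρ ^ (6 * q.2) ≤ LL p → ¬ p ^ 2 ∣ n) ∧
      (∀ j, Normal (vr ρ ^ (6 * q.2)) ((pl n).getD j 1)) ∧
      bigB q.1 < ∑ j ∈ Ioc 0 k', aCoef j * lv (pl n) j + be ρ q.2 0) A →
    (A.card : ℝ) ≤ ε * (q.1 / Real.log q.1) := by
  obtain ⟨C, -, hC⟩ := VB4
  obtain ⟨d₀, hd₀⟩ := Er_small h C |Real.log ε|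
  filter_upwards [(tendsto_m h).eventually_ge_atTop d₀, ev_poly h 1 1, ev_large h 1,
    (tendsto_fst_Fl ρ).eventually_ge_atTop (Real.exp 1),
    (tendsto_fst_Fl ρ).eventually_ge_atTop 2] with q h1 h2 h3 h4 h5 k' A hk hA
  have hv := vr_pos h
  have hk' : (k' : ℝ) ≤ q.2 := by exact_mod_cast hk
  have h6 : vr ρ ^ q.2 ≤ vr ρ ^ (6 * q.2) := vr_pow_mono h (by omega)
  have key := hC (vr ρ ^ (6 * q.2)) (vr ρ ^ (6 * q.2)) (vr ρ ^ (11 * q.2))
    (bigB q.1 + vr ρ ^ (7 * q.2)) q.1 k' A (by positivity) (by linarith) (by positivity)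
    (by linarith) (fun v hv' => by
      obtain ⟨hvx, n, hn, rfl, hsq, hN, hlt⟩ := hA v hv'
      refine ⟨hvx, n, hn.ne', rfl, ?_, hsq, fun j _ => hN j, ?_⟩
      · have := U0_lv_le hn hvx h5
        rw [LL_eq_bigB h4] at this
        linarith [h3.2]
      · rw [be, Nat.sub_zero] at hlt
        rw [show Icc 1 k' = Ioc 0 k' from rfl]
        linarith)
  have h7 := hd₀ q.2 k' (vr ρ ^ (6 * q.2)) (vr ρ ^ (11 * q.2)) h1 (by omega) (by positivity)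
    le_rfl (by positivity) le_rfl
  have h8 : |Real.log ε| * 1 ≤ |Real.log ε| * ((q.2 : ℝ) + 1) ^ 2 := by
    gcongr
    exact one_le_pow₀ (by linarith [(Nat.cast_nonneg q.2 : (0 : ℝ) ≤ q.2)])
  have h9 := neg_abs_le (Real.log ε)
  refine key.trans ?_
  calc q.1 * Real.exp (-(bigB q.1 + vr ρ ^ (7 * q.2)) +
        Er C (vr ρ ^ (6 * q.2)) (vr ρ ^ (6 * q.2)) (vr ρ ^ (11 * q.2)) k')
      ≤ q.1 * Real.exp (Real.log ε - bigB q.1) := by
        gcongr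
        linarith
    _ = ε * (q.1 / Real.log q.1) := by
        rw [Real.exp_sub, Real.exp_log hε, exp_bigB (by linarith)]
        ring

/-- The cofactor is small.  Suppose `φ (nd n 1) > x^(3/4)`.  Then `p₁ ≤ p₀ < x^(1/4) + 1`;
`1.28 lv 2 ≤ a₁ lv 1 + a₂ lv 2 ≤ B + ϱ^(7 m) ≤ 1.02 B`, so `p₂ ≤ exp ((log x)^(4/5))`, and
`nd n 2 ≤ p₂ ^ (10 B + 1) ≤ x^(1/4)` (`nd_le_pow`, `length_pl_le`); hence
`φ (nd n 1) ≤ nd n 1 ≤ 2 x^(1/2)`. -/
theorem rest_small (h : Root ρ) : ∀ᶠ q in Fl ρ, ∀ k' n : ℕ, 2 ≤ k' → 0 < n →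
    (Nat.totient n : ℝ) ≤ q.1 → ((pl n).getD 0 1).Prime → (pl n).getD 1 1 < (pl n).getD 0 1 →
    ((Nat.totient n).primeFactorsList.length : ℝ) ≤ 10 * bigB q.1 →
    ∑ j ∈ Ioc 0 k', aCoef j * lv (pl n) j + be ρ q.2 0 ≤ bigB q.1 →
    (Nat.totient (nd n 1) : ℝ) ≤ q.1 ^ (3 / 4 : ℝ) := by
  filter_upwards [ev_large h 50, (tendsto_B ρ).eventually_ge_atTop 2200,
    (tendsto_fst_Fl ρ).eventually_gt_atTop 1] with q h1 h2 h3 k' n hk hn hx hp hlt hΩ hs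
  by_contra hcon
  rw [not_le] at hcon
  have hx0 : 0 < q.1 := zero_lt_one.trans h3
  set y := q.1 ^ (1 / 4 : ℝ) with hy
  have hy1 : 1 ≤ y := Real.one_le_rpow h3.le (by norm_num)
  have hy3 : q.1 ^ (3 / 4 : ℝ) = y ^ 3 := by
    rw [hy, ← Real.rpow_natCast, ← Real.rpow_mul hx0.le]; norm_num
  have hy4 : q.1 = y ^ 4 := by
    rw [hy, ← Real.rpow_natCast, ← Real.rpow_mul hx0.le]; norm_num
  rw [hy3] at hcon
  have e1 := totient_nd_succ (j := 0) hp hlt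
  rw [nd_zero hn.ne', zero_add] at e1
  have hp1 : (((pl n).getD 1 1 : ℕ) : ℝ) ≤ y := by
    have i1 : (pl n).getD 1 1 ≤ (pl n).getD 0 1 - 1 := by omega
    have i2 : (((pl n).getD 1 1 : ℕ) : ℝ) ≤ (((pl n).getD 0 1 - 1 : ℕ) : ℝ) := by
      exact_mod_cast i1
    have i3 : (((pl n).getD 0 1 - 1 : ℕ) : ℝ) * y ^ 3 ≤ y * y ^ 3 := by
      calc _ ≤ (((pl n).getD 0 1 - 1 : ℕ) : ℝ) * (Nat.totient (nd n 1) : ℝ) := by gcongr
        _ = (Nat.totient n : ℝ) := by rw [e1]; push_cast; ring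
        _ ≤ q.1 := hx
        _ = y * y ^ 3 := by rw [hy4]; ring
    exact i2.trans (le_of_mul_le_mul_right i3 (by positivity))
  have hl2 : lv (pl n) 2 ≤ 4 / 5 * bigB q.1 := by
    have i1 : ∑ j ∈ ({1, 2} : Finset ℕ), aCoef j * lv (pl n) j ≤
        ∑ j ∈ Ioc 0 k', aCoef j * lv (pl n) j := by
      refine sum_le_sum_of_subset_of_nonneg (fun j hj => ?_) fun j hj _ =>
        mul_nonneg (a_nonneg (mem_Ioc.1 hj).1) (lv_nonneg _ _)
      simp only [mem_insert, mem_singleton] at hj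
      rw [mem_Ioc]
      omega
    rw [sum_pair (by norm_num)] at i1
    rw [be, Nat.sub_zero] at hs
    have i2 : vr ρ ^ (7 * q.2) ≤ vr ρ ^ (10 * q.2) := vr_pow_mono h (by omega)
    have i3 := lv_pl_anti n (show 1 ≤ 2 by norm_num)
    have i4 := lv_nonneg (pl n) 2
    have i5 : 0.38 * lv (pl n) 2 ≤ aCoef 1 * lv (pl n) 1 :=
      mul_le_mul a_one.1 i3 i4 (a_nonneg le_rfl)
    have i6 : 0.9 * lv (pl n) 2 ≤ aCoef 2 * lv (pl n) 2 := mul_le_mul_of_nonneg_right a_two i4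
    linarith [h1.1]
  have hp2 : (((pl n).getD 2 1 : ℕ) : ℝ) ≤ Real.exp (Real.exp (4 / 5 * bigB q.1)) :=
    le_exp_of_LL hl2
  have hlen : ((pl n).length : ℝ) ≤ 10 * bigB q.1 + 1 := by
    have : ((pl n).length : ℝ) ≤ ((Nat.totient n).primeFactorsList.length : ℝ) + 1 := by
      exact_mod_cast length_pl_le hn.ne'
    linarith
  have hnd2 : (nd n 2 : ℝ) ≤ y := by
    have i1 : (nd n 2 : ℝ) ≤ (((pl n).getD 2 1 : ℕ) : ℝ) ^ (pl n).length := by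
      exact_mod_cast nd_le_pow n 2
    have i2 : 4 * (10 * bigB q.1 + 1) ≤ Real.exp (1 / 5 * bigB q.1) := by
      have := Real.quadratic_le_exp_of_nonneg (show 0 ≤ 1 / 5 * bigB q.1 by linarith)
      nlinarith
    calc (nd n 2 : ℝ) ≤ Real.exp (Real.exp (4 / 5 * bigB q.1)) ^ (pl n).length :=
          i1.trans (pow_le_pow_left₀ (Nat.cast_nonneg _) hp2 _)
      _ = Real.exp ((pl n).length * Real.exp (4 / 5 * bigB q.1)) := by rw [Real.exp_nat_mul]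
      _ ≤ Real.exp (Real.log q.1 * (1 / 4)) := by
          rw [Real.exp_le_exp, ← exp_bigB h3,
            show bigB q.1 = 1 / 5 * bigB q.1 + 4 / 5 * bigB q.1 by ring, Real.exp_add,
            show 4 / 5 * (1 / 5 * bigB q.1 + 4 / 5 * bigB q.1) = 4 / 5 * bigB q.1 by ring]
          have := Real.exp_pos (4 / 5 * bigB q.1)
          nlinarith
      _ = y := by rw [hy, Real.rpow_def_of_pos hx0]
  have i1 : (Nat.totient (nd n 1) : ℝ) ≤ nd n 1 := by exact_mod_cast Nat.totient_le _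
  have i2 : (nd n 1 : ℝ) = (((pl n).getD 1 1 : ℕ) : ℝ) * nd n 2 := by
    rw [nd_succ n 1]; push_cast; ring
  have i3 : (nd n 1 : ℝ) ≤ y * y := by
    rw [i2]; exact mul_le_mul hp1 hnd2 (Nat.cast_nonneg _) (by linarith)
  have i4 : y * y ≤ y ^ 3 := by nlinarith
  linarith

/-- If `p₀ > x^(1/(20 B))` then `p₀` is a prime (`getD_pl_cases`) with
`LL p₀ ≥ B - log (20 B) ≥ ϱ^(6 m)`, so `p₁ < p₀` unless a large square divides `n`
(`getD_lt_of_sq`).  Union bound (`vals_or`) over `U0a`–`U0e` and `rest_small`. -/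
theorem U0 (h : Root ρ) {ε : ℝ} (hε : 0 < ε) : ∀ᶠ q in Fl ρ, ∀ (k' : ℕ) (A : Finset ℕ), 2 ≤ k' →
    k' ≤ q.2 → Vals q.1 (fun n => ¬ TopC ρ q.1 q.2 k' n) A →
    (A.card : ℝ) ≤ ε * (q.1 / Real.log q.1) := by
  have hε' : 0 < ε / 5 := by positivity
  filter_upwards [(tendsto_fst_Fl ρ).eventually (U0a hε'), (tendsto_fst_Fl ρ).eventually (U0b hε'),
    U0c h hε', U0d h hε', U0e h hε', rest_small h, ev_large h 2,
    (tendsto_B ρ).eventually_ge_atTop 160, (tendsto_fst_Fl ρ).eventually_gt_atTop 1]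
    with q ha hb hc hd he hr h1 h2 h3 k' A hk hk' hA
  have hx0 : 0 < q.1 := zero_lt_one.trans h3
  have key : ∀ n : ℕ, q.1 ^ (1 / (20 * bigB q.1)) < (((pl n).getD 0 1 : ℕ) : ℝ) →
      ((pl n).getD 0 1).Prime ∧ vr ρ ^ (6 * q.2) ≤ LL ((pl n).getD 0 1 : ℕ) := by
    intro n hn
    have i0 : 1 ≤ q.1 ^ (1 / (20 * bigB q.1)) :=
      Real.one_le_rpow h3.le (by have : 0 < bigB q.1 := by linarith
                                 positivity)
    refine ⟨(getD_pl_cases n 0).resolve_left fun h0 => ?_, le_LL_of_exp_le (le_trans ?_ hn.le)⟩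
    · rw [h0, Nat.cast_one] at hn
      linarith
    · have i1 : vr ρ ^ (6 * q.2) ≤ vr ρ ^ (10 * q.2) := vr_pow_mono h (by omega)
      have i2 : vr ρ ^ (6 * q.2) ≤ bigB q.1 / 2 := by linarith [h1.1]
      have i3 : 20 * bigB q.1 ≤ Real.exp (bigB q.1 / 2) := by
        have := Real.quadratic_le_exp_of_nonneg (show 0 ≤ bigB q.1 / 2 by linarith)
        nlinarith
      rw [Real.rpow_def_of_pos hx0, Real.exp_le_exp, ← exp_bigB h3, mul_one_div,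
        le_div_iff₀ (by linarith)]
      calc Real.exp (vr ρ ^ (6 * q.2)) * (20 * bigB q.1)
          ≤ Real.exp (bigB q.1 / 2) * Real.exp (bigB q.1 / 2) := by gcongr
        _ = Real.exp (bigB q.1) := by rw [← Real.exp_add, add_halves]
  have main := vals_or hA (R := fun n => (((pl n).getD 0 1 : ℕ) : ℝ) ≤ q.1 ^ (1 / (20 * bigB q.1)))
    (R' := fun n => ¬ TopC ρ q.1 q.2 k' n ∧
      q.1 ^ (1 / (20 * bigB q.1)) < (((pl n).getD 0 1 : ℕ) : ℝ))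
    (fun n _ _ hQ => (le_or_gt _ _).imp id fun h' => ⟨hQ, h'⟩) ha fun A hA =>
    vals_or hA (R := fun n => 10 * bigB q.1 ≤ ((Nat.totient n).primeFactorsList.length : ℝ))
    (R' := fun n => (¬ TopC ρ q.1 q.2 k' n ∧
      q.1 ^ (1 / (20 * bigB q.1)) < (((pl n).getD 0 1 : ℕ) : ℝ)) ∧
      ((Nat.totient n).primeFactorsList.length : ℝ) ≤ 10 * bigB q.1)
    (fun n _ _ hQ => (le_total _ _).imp id fun h' => ⟨hQ, h'⟩) hb fun A hA =>
    vals_or hA (R := fun n => ∃ p : ℕ, p.Prime ∧ vr ρ ^ (6 * q.2) ≤ LL p ∧ p ^ 2 ∣ n)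
    (R' := fun n => ((¬ TopC ρ q.1 q.2 k' n ∧
      q.1 ^ (1 / (20 * bigB q.1)) < (((pl n).getD 0 1 : ℕ) : ℝ)) ∧
      ((Nat.totient n).primeFactorsList.length : ℝ) ≤ 10 * bigB q.1) ∧
      ¬ ∃ p : ℕ, p.Prime ∧ vr ρ ^ (6 * q.2) ≤ LL p ∧ p ^ 2 ∣ n)
    (fun n _ _ hQ => (em _).imp id fun h' => ⟨hQ, h'⟩) hc fun A hA =>
    vals_or hA (fun n hn hx hQ => by
      obtain ⟨⟨⟨hT, hbig⟩, hΩ⟩, hsq⟩ := hQ
      obtain ⟨hp, hL⟩ := key n hbig
      have hlt : (pl n).getD 1 1 < (pl n).getD 0 1 :=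
        getD_lt_of_sq (i := 0) (j := 0) le_rfl hp fun hdv =>
          hsq ⟨_, hp, hL, by rwa [nd_zero hn.ne'] at hdv⟩
      by_cases hN : ∃ j, ¬ Normal (vr ρ ^ (6 * q.2)) ((pl n).getD j 1)
      · exact Or.inl ⟨hbig, hlt, hN⟩
      · refine Or.inr ⟨fun p hp hL hdv => hsq ⟨p, hp, hL, hdv⟩,
          fun j => not_not.1 fun hj => hN ⟨j, hj⟩, ?_⟩
        by_contra hi
        rw [not_lt] at hi
        exact hT ⟨hp, hlt, hr k' n hk hn hx hp hlt hΩ hi, hi⟩) hd (fun A hA => he k' A hk' hA)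
  linarith

end Crest.Agent.R020
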