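import Crest.Agent.R020.Cnt
import Crest.Agent.R020.Eul2
import Crest.Agent.R020.WB2

/-! Row 20: values with a non-normal prime at the top level (`U0d`). -/

set_option autoImplicit false

namespace Crest.Agent.R020

open Finset Filter Topology Crest.Agent.R008 Crest.Agent.R026 Crest.NumberTheoryR.TotientScale

variable {ρ : ℝ}

theorem u0aAuxD_cof {x D E : ℝ} (hD : 0 ≤ D) (P T : ℕ → Prop)
    (h₁ : ∀ r, T r → ∀ A : Finset ℕ, (∀ p ∈ A, P p ∧ (((p - 1) * r : ℕ) : ℝ) ≤ x) →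
      (A.card : ℝ) ≤ D / r)
    (h₂ : ∀ S : Finset ℕ, (∀ r ∈ S, T r) → ∑ r ∈ S, 1 / (r : ℝ) ≤ E) {A : Finset ℕ}
    (hA : Vals x (fun n => ∃ p r, P p ∧ T r ∧ Nat.totient n = (p - 1) * r) A) :
    (A.card : ℝ) ≤ D * E := by
  classical
  have hex : ∀ v : ℕ, ∃ r : ℕ, v ∈ A → T r ∧ ∃ p, P p ∧ v = (p - 1) * r := by
    intro v
    by_cases hv : v ∈ A
    · obtain ⟨n, -, e, p, r, hp, hr, e'⟩ := (hA v hv).2
      exact ⟨r, fun _ => ⟨hr, p, hp, e ▸ e'⟩⟩
    · exact ⟨0, fun h => absurd h hv⟩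
  choose f hf using hex
  have hS : ∀ r ∈ A.image f, T r := fun r hr => by
    obtain ⟨v, hv, rfl⟩ := mem_image.1 hr
    exact (hf v hv).1
  refine (card_le_sum_cof (A.image f) (fun r => r) P x D (fun r hr => h₁ r (hS r hr)) A
    fun v hv => ⟨(hA v hv).1, f v, mem_image_of_mem _ hv, (hf v hv).2⟩).trans ?_
  exact mul_le_mul_of_nonneg_left (h₂ _ hS) hD

theorem u0aAuxD_LL {x y : ℝ} (hx : Real.exp 1 ≤ x) (hy : 1 ≤ y) (h : y ≤ x + 1) :
    LL y ≤ bigB x + 1 := by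
  have h2 : 2 ≤ x := le_trans (by linarith [Real.add_one_le_exp (1 : ℝ)]) hx
  rw [← LL_eq_bigB hx]
  exact LL_le_add_one (by linarith) hy (by nlinarith)

theorem u0aAuxD_rpow {x : ℝ} (hx : 1 < x) (hB : 80 ≤ bigB x) : 2 ≤ x ^ (1 / (40 * bigB x)) := by
  rw [Real.rpow_def_of_pos (by linarith), ← exp_bigB hx]
  have h1 : bigB x ^ 2 / 2 ≤ Real.exp (bigB x) := by
    have := Real.pow_div_factorial_le_exp (bigB x) (by linarith) 2
    simpa using this
  have h2 : 1 ≤ Real.exp (bigB x) * (1 / (40 * bigB x)) := by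
    rw [mul_one_div, le_div_iff₀ (by linarith)]
    nlinarith
  linarith [Real.add_one_le_exp (Real.exp (bigB x) * (1 / (40 * bigB x)))]

theorem u0aAuxD_main (h : Root ρ) {ε : ℝ} (hε : 0 < ε) : ∀ᶠ q in Fl ρ, ∀ A : Finset ℕ,
    Vals q.1 (fun n => q.1 ^ (1 / (20 * bigB q.1)) < (((pl n).getD 0 1 : ℕ) : ℝ) ∧
      (pl n).getD 1 1 < (pl n).getD 0 1 ∧
      ∃ j, ¬ Normal (vr ρ ^ (6 * q.2)) ((pl n).getD j 1)) A →
    (A.card : ℝ) ≤ ε * (q.1 / Real.log q.1) := by
  obtain ⟨C, hC, hW⟩ := W_pow h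
  obtain ⟨C', hC', hc1⟩ := cnt1
  obtain ⟨d₃, h3⟩ := NP3 h (C + 2)
  obtain ⟨d₄, h4⟩ := NP4 h (C + 2)
  have hm : Tendsto (fun q : ℝ × ℕ => (q.2 : ℝ)) (Fl ρ) atTop :=
    tendsto_natCast_atTop_atTop.comp (tendsto_m h)
  filter_upwards [(tendsto_fst_Fl ρ).eventually_ge_atTop (Real.exp 1),
    (tendsto_B ρ).eventually_ge_atTop 80, ev_large h 40, (tendsto_m h).eventually_ge_atTop d₃,
    (tendsto_m h).eventually_ge_atTop d₄, (tendsto_m h).eventually_ge_atTop 1,
    hm.eventually_ge_atTop (11 * Real.log (vr ρ)), hm.eventually_ge_atTop ((2 + 2 * C') / ε)]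
    with q hx hB hl hd₃ hd₄ hm1 hm2 hm3 A hA
  obtain ⟨x, m⟩ := q
  simp only at hx hB hl hd₃ hd₄ hm1 hm2 hm3 hA ⊢
  set B := bigB x with hBdef
  set s := vr ρ ^ (11 * m) with hs
  set Δ := vr ρ ^ (6 * m) with hΔ
  set η := 1 / (40 * B) with hη
  have hx2 : 2 ≤ x := le_trans (by linarith [Real.add_one_le_exp (1 : ℝ)]) hx
  have hx1 : 1 < x := by linarith
  have hx0 : 0 < x := by linarith
  have hη0 : 0 < η := by positivity
  have hlog : 0 < Real.log x := Real.log_pos hx1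
  have hX : 0 < x / Real.log x := by positivity
  have ht : 2 ≤ x ^ η := u0aAuxD_rpow hx1 hB
  have hBs : B + 1 ≤ s := by linarith [hl.2]
  have hm1' : (1 : ℝ) ≤ m := by exact_mod_cast hm1
  have hsm : 1 / η ≤ Real.exp ((m : ℝ) ^ 2) := by
    have h1 : s = Real.exp (11 * Real.log (vr ρ) * m) := by
      rw [hs, ← Real.exp_log (pow_pos (vr_pos h) (11 * m)), Real.log_pow]
      push_cast
      ring_nf
    have h2 : s ≤ Real.exp ((m : ℝ) ^ 2) := by
      rw [h1]
      exact Real.exp_le_exp.2 (by nlinarith)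
    rw [hη, one_div_one_div]
    linarith [hl.2]
  have hE : Real.exp (-((C + 2) * (m : ℝ) ^ 2)) * (1 / η) * W s ≤ 1 / m := by
    calc Real.exp (-((C + 2) * (m : ℝ) ^ 2)) * (1 / η) * W s
        ≤ Real.exp (-((C + 2) * (m : ℝ) ^ 2)) * Real.exp ((m : ℝ) ^ 2) *
          Real.exp (C * (m : ℝ) ^ 2) :=
          mul_le_mul (mul_le_mul_of_nonneg_left hsm (Real.exp_pos _).le) (hW m hm1) (W_nonneg _)
            (by positivity)
      _ = 1 / Real.exp ((m : ℝ) ^ 2) := by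
          rw [← Real.exp_add, ← Real.exp_add, one_div, ← Real.exp_neg]
          ring_nf
      _ ≤ 1 / m := by
          refine one_div_le_one_div_of_le (by linarith) ?_
          nlinarith [Real.add_one_le_exp ((m : ℝ) ^ 2)]
  set e := Real.exp (-((C + 2) * (m : ℝ) ^ 2)) with he
  have he0 : 0 < e := Real.exp_pos _
  have key := vals_or hA
    (R := fun n => ∃ p r : ℕ, (p.Prime ∧ ¬ Normal Δ p) ∧
      (1 ≤ r ∧ (r : ℝ) ≤ x ^ (1 - η) ∧ Tot s r) ∧ Nat.totient n = (p - 1) * r)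
    (R' := fun n => ∃ p r : ℕ, p.Prime ∧ (1 ≤ r ∧ (r : ℝ) ≤ x ^ (1 - η) ∧ ∃ p' n' : ℕ, p'.Prime ∧
      (LL p' ≤ s ∧ ¬ Normal Δ p') ∧ Sm s n' ∧ Nat.totient (p' * n') = r) ∧
      Nat.totient n = (p - 1) * r)
    (D := e * (2 / η * (x / Real.log x)) * W s)
    (D' := C' / η * (x / Real.log x) * (2 * e * W s)) ?_ ?_ ?_
  · refine key.trans ?_
    have e1 : e * (2 / η * (x / Real.log x)) * W s + C' / η * (x / Real.log x) * (2 * e * W s) =
        (2 + 2 * C') * (e * (1 / η) * W s) * (x / Real.log x) := by ring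
    rw [e1]
    refine mul_le_mul_of_nonneg_right ?_ hX.le
    refine (mul_le_mul_of_nonneg_left hE (by linarith)).trans ?_
    rw [mul_one_div, div_le_iff₀ (by linarith)]
    rw [div_le_iff₀ hε] at hm3
    linarith
  · rintro n hn hnx ⟨h1, h2, j, hj⟩
    have hsq : x ^ (1 / (20 * B)) = x ^ η * x ^ η := by
      rw [← Real.rpow_add hx0, hη]
      congr 1
      field_simp
      ring
    have hp1 : x ^ η ≤ (((pl n).getD 0 1 : ℕ) : ℝ) - 1 := by
      rw [hsq] at h1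
      nlinarith
    have hp : ((pl n).getD 0 1).Prime := by
      rcases getD_pl_cases n 0 with h0 | h0
      · rw [h0] at hp1
        norm_num at hp1
        linarith
      · exact h0
    have e0 : Nat.totient n = ((pl n).getD 0 1 - 1) * Nat.totient (nd n 1) := by
      have := totient_nd_succ (n := n) (j := 0) hp h2
      rwa [nd_zero hn.ne'] at this
    have r1 : 1 ≤ Nat.totient (nd n 1) := Nat.totient_pos.2 (nd_pos n 1)
    have r2 : (Nat.totient (nd n 1) : ℝ) ≤ x ^ (1 - η) := by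
      rw [Real.rpow_sub hx0, Real.rpow_one, le_div_iff₀ (by linarith)]
      rw [e0, Nat.cast_mul, Nat.cast_sub hp.one_le, Nat.cast_one] at hnx
      have : (0 : ℝ) ≤ Nat.totient (nd n 1) := Nat.cast_nonneg _
      nlinarith
    have hsm' : Sm s (nd n 1) := by
      refine ⟨(nd_pos n 1).ne', fun r hr hd => ?_⟩
      have h5 := pred_le_totient hr hn (hd.trans (nd_dvd_self n 1))
      have h6 : ((r - 1 : ℕ) : ℝ) ≤ x := le_trans (by exact_mod_cast h5) hnx
      rw [Nat.cast_sub hr.one_le, Nat.cast_one] at h6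
      exact (u0aAuxD_LL hx (by exact_mod_cast hr.one_le) (by linarith)).trans hBs
    rcases Nat.eq_zero_or_pos j with rfl | hj0
    · exact Or.inl ⟨_, _, ⟨hp, hj⟩, ⟨r1, r2, _, hsm', rfl⟩, e0⟩
    · have hp' : ((pl n).getD j 1).Prime := by
        rcases getD_pl_cases n j with h0 | h0
        · rw [h0] at hj
          exact absurd (normal_one (pow_pos (vr_pos h) _).le) hj
        · exact h0
      obtain ⟨n', hn'⟩ := getD_dvd_nd n (i := 1) (j := j) hj0
      refine Or.inr ⟨_, _, hp, ⟨r1, r2, _, n', hp', ⟨hsm'.2 _ hp' ⟨n', hn'⟩, hj⟩,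
        hsm'.of_dvd ⟨_, hn'.trans (mul_comm _ _)⟩, by rw [← hn']⟩, e0⟩
  · intro A' hA'
    refine u0aAuxD_cof (by positivity) _ _ ?_ (fun S hS => sum_le_W fun r hr => (hS r hr).2.2) hA'
    rintro r ⟨r1, r2, -⟩ A'' hA''
    have r1' : (1 : ℝ) ≤ r := by exact_mod_cast r1
    have hy : x ^ η ≤ x / r := by
      rw [Real.rpow_sub hx0, Real.rpow_one, le_div_iff₀ (by linarith)] at r2
      rw [le_div_iff₀ (by linarith)]
      linarith
    have hy' : x / r ≤ x := div_le_self hx0.le r1'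
    refine (h4 m (x / r + 1) A'' hd₄ (by linarith)
      ((u0aAuxD_LL hx (by linarith) (by linarith)).trans hBs) fun p hp => ?_).trans ?_
    · obtain ⟨⟨hp1, hp2⟩, hp3⟩ := hA'' p hp
      refine ⟨hp1, ?_, hp2⟩
      rw [Nat.cast_mul, Nat.cast_sub hp1.one_le, Nat.cast_one, ← le_div_iff₀ (by linarith)] at hp3
      linarith
    · rw [mul_div_assoc]
      refine mul_le_mul_of_nonneg_left ?_ he0.le
      have hlg : η * Real.log x ≤ Real.log (x / r + 1) := by
        rw [← Real.log_rpow hx0]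
        exact Real.log_le_log (by linarith) (by linarith)
      calc (x / r + 1) / Real.log (x / r + 1) ≤ (2 * (x / r)) / (η * Real.log x) :=
            div_le_div₀ (by positivity) (by linarith) (by positivity) hlg
        _ = 2 / η * (x / Real.log x) / r := by field_simp
  · intro A' hA'
    refine u0aAuxD_cof (by positivity) _ _ ?_ (fun S hS => WR1 (fun p => LL p ≤ s ∧ ¬ Normal Δ p)
      (fun A'' hA'' => h3 m A'' hd₃ hA'') fun r hr => (hS r hr).2.2) hA'
    rintro r ⟨r1, r2, -⟩ A'' hA''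
    exact hc1 x η r A'' hx1 hη0 r1 r2 hA''

end Crest.Agent.R020
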