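import Crest.Agent.R020.Cnt
import Crest.Agent.R020.Eul2
import Crest.Agent.R020.WB2
import Crest.Agent.R020.U0aAuxD

set_option autoImplicit false

namespace Crest.Agent.R020

open Finset Filter Topology Crest.Agent.R008 Crest.Agent.R026 Crest.NumberTheoryR.TotientScale

variable {ρ : ℝ}

/-- `n ≤ y = C x (B + 1)` (`E7'`), `n` is `y^(1/u)`-smooth with `u = 20 B` (`le_getD_of_dvd`,
`nd_zero`), `LL y ≤ B + 1` (`LL_le_add_one`); `E3` applied to a set of preimages gives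
`C' x (B + 1) exp (-17 B + 3)`, and `exp B = log x`. -/
theorem U0a {ε : ℝ} (hε : 0 < ε) : ∀ᶠ x : ℝ in atTop, ∀ A : Finset ℕ,
    Vals x (fun n => (((pl n).getD 0 1 : ℕ) : ℝ) ≤ x ^ (1 / (20 * bigB x))) A →
    (A.card : ℝ) ≤ ε * (x / Real.log x) := by
  classical
  obtain ⟨C, hC, h7⟩ := E7'
  obtain ⟨C', hC', h3⟩ := E3
  filter_upwards [eventually_ge_atTop (Real.exp 1),
    tendsto_bigB.eventually (eventually_ge_atTop (160 : ℝ)),
    tendsto_bigB.eventually (eventually_ge_atTop (4 * C)),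
    tendsto_bigB.eventually (eventually_ge_atTop (C' * C * Real.exp 3 / ε))]
    with x hx hB1 hB2 hB3 A hA
  have hx1 : 1 < x := lt_of_lt_of_le (by
    have := Real.add_one_le_exp (1 : ℝ); linarith) hx
  have hLL := LL_eq_bigB hx
  have hexp := exp_bigB hx1
  set B := bigB x with hBdef
  have hq : B ^ 2 / 2 ≤ Real.exp B := by
    have := Real.quadratic_le_exp_of_nonneg (by linarith : (0 : ℝ) ≤ B)
    linarith
  have hlogx : Real.log x ≤ x := (Real.log_le_sub_one_of_pos (by linarith)).trans (by linarith)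
  set y := C * x * (B + 1) with hy
  have hCB : 1 ≤ C * (B + 1) := by nlinarith
  have hCBx : C * (B + 1) ≤ x := by nlinarith
  have hxy : x ≤ y := by
    have : y = x * (C * (B + 1)) := by rw [hy]; ring
    rw [this]; nlinarith
  have hyx : y ≤ x ^ 2 := by
    have : y = x * (C * (B + 1)) := by rw [hy]; ring
    rw [this]; nlinarith
  have hLy : LL y ≤ B + 1 := by
    rw [← hLL]; exact LL_le_add_one hx1.le (hx1.le.trans hxy) hyx
  choose! g hg using fun v hv => (hA v hv).2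
  have hinj : Set.InjOn g (A : Set ℕ) := fun a ha b hb hab => by
    rw [← (hg a ha).2.1, ← (hg b hb).2.1, hab]
  have hcard : (A.image g).card = A.card := card_image_of_injOn hinj
  have hu : 20 * B ≤ Real.log y / 4 := by
    have : Real.log x ≤ Real.log y := Real.log_le_log (by linarith) hxy
    nlinarith
  have key := h3 y (20 * B) (A.image g) (hx1.le.trans hxy) (by linarith) hu (by
    intro n hn
    obtain ⟨v, hv, rfl⟩ := mem_image.1 hn
    obtain ⟨h1, h2, h4⟩ := hg v hv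
    refine ⟨h1.ne', ?_, fun r hr hrn => ?_⟩
    · have := h7 (g v) x h1 (by rw [h2]; exact (hA v hv).1)
      rwa [hLL] at this
    · have h5 : r ≤ (pl (g v)).getD 0 1 := le_getD_of_dvd hr (by rwa [nd_zero h1.ne'])
      have h6 : (r : ℝ) ≤ ((pl (g v)).getD 0 1 : ℕ) := by exact_mod_cast h5
      exact h6.trans (h4.trans (Real.rpow_le_rpow (by linarith) hxy (by positivity))))
  rw [hcard] at key
  refine key.trans ?_
  have e1 : Real.exp (-(20 * B) + 3 * LL y) ≤ Real.exp (-(17 * B) + 3) :=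
    Real.exp_le_exp.2 (by linarith)
  have e2 : B + 1 ≤ Real.exp B := Real.add_one_le_exp B
  have e3 : B ≤ Real.exp (15 * B) := by
    have := Real.add_one_le_exp (15 * B); linarith
  have e4 : C' * C * Real.exp 3 ≤ ε * Real.exp (15 * B) := by
    rw [div_le_iff₀ hε] at hB3
    nlinarith
  have e5 : Real.exp (-(17 * B) + 3) * Real.exp B * Real.exp (15 * B) * Real.exp B =
      Real.exp 3 := by
    rw [← Real.exp_add, ← Real.exp_add, ← Real.exp_add]; congr 1; ring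
  have hx0 : 0 < x := by linarith
  have hE := Real.exp_pos B
  have hE15 := Real.exp_pos (15 * B)
  have hE17 := Real.exp_pos (-(17 * B) + 3)
  rw [← hexp]
  calc C' * y * Real.exp (-(20 * B) + 3 * LL y)
      ≤ C' * (C * x * Real.exp B) * Real.exp (-(17 * B) + 3) := by
        rw [hy]; gcongr
    _ = C' * C * Real.exp 3 * (x / Real.exp B) / Real.exp (15 * B) := by
        rw [← e5]; field_simp
    _ ≤ ε * Real.exp (15 * B) * (x / Real.exp B) / Real.exp (15 * B) := by gcongr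
    _ = ε * (x / Real.exp B) := by field_simp

/-- `E4` with `K = 10 B`. -/
theorem U0b {ε : ℝ} (hε : 0 < ε) : ∀ᶠ x : ℝ in atTop, ∀ A : Finset ℕ,
    Vals x (fun n => 10 * bigB x ≤ ((Nat.totient n).primeFactorsList.length : ℝ)) A →
    (A.card : ℝ) ≤ ε * (x / Real.log x) := by
  obtain ⟨C, hC, h4⟩ := E4
  filter_upwards [eventually_ge_atTop (Real.exp 1),
    tendsto_bigB.eventually (eventually_ge_atTop (0 : ℝ)),
    tendsto_bigB.eventually (eventually_ge_atTop (C / ε))] with x hx hB1 hB2 A hA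
  have hx1 : 1 < x := lt_of_lt_of_le (by
    have := Real.add_one_le_exp (1 : ℝ); linarith) hx
  have hLL := LL_eq_bigB hx
  have hexp := exp_bigB hx1
  set B := bigB x with hBdef
  have key := h4 x (10 * B) A hx1.le (by
    intro v hv
    obtain ⟨h1, n, hn, h2, h3⟩ := hA v hv
    refine ⟨?_, h1, by rwa [h2] at h3⟩
    rw [← h2]; exact (Nat.totient_pos.2 hn).ne')
  refine key.trans ?_
  rw [hLL, ← hexp]
  have e3 : B ≤ Real.exp (2 * B) := by
    have := Real.add_one_le_exp (2 * B); linarith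
  have e4 : C ≤ ε * Real.exp (2 * B) := by
    rw [div_le_iff₀ hε] at hB2
    nlinarith
  have e5 : Real.exp (B - 2 / 5 * (10 * B)) * Real.exp (2 * B) * Real.exp B = 1 := by
    rw [← Real.exp_add, ← Real.exp_add, ← Real.exp_zero]; congr 1; ring
  have hx0 : 0 < x := by linarith
  have hE := Real.exp_pos B
  have hE2 := Real.exp_pos (B - 2 / 5 * (10 * B))
  calc C * x * Real.exp (B - 2 / 5 * (10 * B))
      ≤ ε * Real.exp (2 * B) * x * Real.exp (B - 2 / 5 * (10 * B)) := by gcongr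
    _ = ε * (x / Real.exp B) *
        (Real.exp (B - 2 / 5 * (10 * B)) * Real.exp (2 * B) * Real.exp B) := by field_simp
    _ = ε * (x / Real.exp B) := by rw [e5, mul_one]

/-- `p (p - 1) = φ (p²) ∣ φ n`; at most `x / (p (p - 1))` positive multiples up to `x`;
`sum_inv_sq_tail`; `exp (ϱ^(6 m)) ≥ ϱ^(12 m) / 2 ≥ 2 B` eventually (`ev_large`). -/
theorem U0c (h : Root ρ) {ε : ℝ} (hε : 0 < ε) : ∀ᶠ q in Fl ρ, ∀ A : Finset ℕ,
    Vals q.1 (fun n => ∃ p : ℕ, p.Prime ∧ vr ρ ^ (6 * q.2) ≤ LL p ∧ p ^ 2 ∣ n) A →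
    (A.card : ℝ) ≤ ε * (q.1 / Real.log q.1) := by
  classical
  filter_upwards [(tendsto_fst_Fl ρ).eventually (eventually_gt_atTop (1 : ℝ)),
    (tendsto_B ρ).eventually (eventually_ge_atTop (2 / ε)), ev_large h 4]
    with q hx1 hB1 hB2 A hA
  obtain ⟨x, m⟩ := q
  simp only at hx1 hB1 hB2 hA ⊢
  have hexp := exp_bigB hx1
  set B := bigB x with hBdef
  set σ := vr ρ ^ (6 * m) with hσ
  have hσ0 : 0 < σ := pow_pos (vr_pos h) _
  have hx0 : 0 < x := by linarith
  have hex : ∀ v ∈ A, ∃ p : ℕ, (p.Prime ∧ σ ≤ LL p) ∧ 0 < v ∧ p * (p - 1) ∣ v := by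
    intro v hv
    obtain ⟨-, n, hn, h2, p, hp, h3, h4⟩ := hA v hv
    refine ⟨p, ⟨hp, h3⟩, by rw [← h2]; exact Nat.totient_pos.2 hn, ?_⟩
    have h5 := Nat.totient_dvd_of_dvd h4
    rw [Nat.totient_prime_pow hp (by norm_num), h2] at h5
    simpa using h5
  choose! g hg using hex
  have hsub : A ⊆ (A.image g).biUnion
      (fun p => (Ioc 0 ⌊x⌋₊).filter (fun v => p * (p - 1) ∣ v)) := by
    intro v hv
    refine mem_biUnion.2 ⟨g v, mem_image_of_mem _ hv, mem_filter.2 ⟨mem_Ioc.2 ⟨(hg v hv).2.1, ?_⟩,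
      (hg v hv).2.2⟩⟩
    exact Nat.le_floor (hA v hv).1
  have hP : ∀ p ∈ A.image g, p.Prime ∧ σ ≤ LL p := by
    intro p hp
    obtain ⟨v, hv, rfl⟩ := mem_image.1 hp
    exact (hg v hv).1
  have h1 : (A.card : ℝ) ≤ ∑ p ∈ A.image g, x * (1 / ((p : ℝ) * ((p : ℝ) - 1))) := by
    have h2 : A.card ≤ ∑ p ∈ A.image g, ⌊x⌋₊ / (p * (p - 1)) := by
      refine (card_le_card hsub).trans (card_biUnion_le.trans (le_of_eq ?_))
      exact sum_congr rfl fun p _ => Nat.Ioc_filter_dvd_card_eq_div _ _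
    have h3 : (A.card : ℝ) ≤ ∑ p ∈ A.image g, ((⌊x⌋₊ / (p * (p - 1)) : ℕ) : ℝ) := by
      exact_mod_cast h2
    refine h3.trans (sum_le_sum fun p hp => ?_)
    have hp2 := (hP p hp).1.two_le
    have hp2' : (2 : ℝ) ≤ p := by exact_mod_cast hp2
    refine Nat.cast_div_le.trans ?_
    rw [Nat.cast_mul, Nat.cast_sub (by omega), Nat.cast_one, mul_one_div]
    have : (0 : ℝ) < (p : ℝ) * ((p : ℝ) - 1) := mul_pos (by linarith) (by linarith)
    exact div_le_div_of_nonneg_right (Nat.floor_le hx0.le) this.le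
  rw [← mul_sum] at h1
  have h2 := sum_inv_sq_tail hσ0 hP
  have h3 : 2 * B ≤ Real.exp σ := by
    have h4 := Real.quadratic_le_exp_of_nonneg hσ0.le
    have h5 : σ ^ 2 = vr ρ ^ (12 * m) := by rw [hσ, ← pow_mul]; congr 1; ring
    have h6 : vr ρ ^ (11 * m) ≤ vr ρ ^ (12 * m) := vr_pow_mono h (by omega)
    linarith [hB2.2]
  have e1 : Real.exp (-Real.exp σ) ≤ Real.exp (-(2 * B)) := Real.exp_le_exp.2 (by linarith)
  have e3 : B ≤ Real.exp B := by
    have := Real.add_one_le_exp B; linarith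
  have e4 : 2 ≤ ε * Real.exp B := by
    rw [div_le_iff₀ hε] at hB1
    nlinarith
  have e5 : Real.exp (-(2 * B)) * Real.exp B * Real.exp B = 1 := by
    rw [← Real.exp_add, ← Real.exp_add, ← Real.exp_zero]; congr 1; ring
  have hE := Real.exp_pos B
  have hE2 := Real.exp_pos (-(2 * B))
  rw [← hexp]
  calc (A.card : ℝ) ≤ x * (2 * Real.exp (-Real.exp σ)) :=
        h1.trans (mul_le_mul_of_nonneg_left h2 hx0.le)
    _ ≤ x * (ε * Real.exp B * Real.exp (-(2 * B))) := by gcongr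
    _ = ε * (x / Real.exp B) * (Real.exp (-(2 * B)) * Real.exp B * Real.exp B) := by field_simp
    _ = ε * (x / Real.exp B) := by rw [e5, mul_one]

/-- A non-normal prime.  Here `φ n = (p₀ - 1) r`, `r = φ (nd n 1)` (`totient_nd_succ`),
`p₀ - 1 ≥ x^(1/(40 B))`, so `r ≤ x^(1 - η)`, `η = 1 / (40 B)`, and every prime `p ∣ n` has
`p ≤ x + 1` (`pred_le_totient`), `LL p ≤ B + 1 ≤ s = ϱ^(11 m)`.  Use `card_le_sum_cof` with `S`
the set of the `r`.  If `p₀` is not normal: `NP4` at `y = x / r + 1` gives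
`≤ exp (-C₁ m²) 2 (x / r) / (η log x)` primes, and `∑ 1 / r ≤ W s ≤ exp (C m²)` (`W_pow`).
Otherwise `cnt1`, and `∑ 1 / r ≤ 2 exp (-C₁ m²) W s` by `WR1`, `NP3`.
Finally `40 B ≤ ϱ^(11 m) ≤ exp (m²)`. -/
theorem U0d (h : Root ρ) {ε : ℝ} (hε : 0 < ε) : ∀ᶠ q in Fl ρ, ∀ A : Finset ℕ,
    Vals q.1 (fun n => q.1 ^ (1 / (20 * bigB q.1)) < (((pl n).getD 0 1 : ℕ) : ℝ) ∧
      (pl n).getD 1 1 < (pl n).getD 0 1 ∧
      ∃ j, ¬ Normal (vr ρ ^ (6 * q.2)) ((pl n).getD j 1)) A →
    (A.card : ℝ) ≤ ε * (q.1 / Real.log q.1) :=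
  u0aAuxD_main h hε

end Crest.Agent.R020
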