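import Crest.Agent.R020.U1a
import Crest.Agent.R020.U0

set_option autoImplicit false

namespace Crest.Agent.R020

open Finset Filter Topology Crest.Agent.R008 Crest.Agent.R026 Crest.NumberTheoryR.TotientScale

variable {ρ : ℝ}

theorem U1_exp_le {C : ℝ} (hC : 1 ≤ C) (d : ℕ) :
    C * Real.exp (-((C + 1) * ((d : ℝ) + 1) ^ 2)) ≤ (1 / 2) ^ d := by
  have hd : (0 : ℝ) ≤ d := Nat.cast_nonneg d
  have h1 : C + d ≤ (C + 1) * ((d : ℝ) + 1) ^ 2 := by nlinarith [mul_nonneg hd hd]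
  have h2 : Real.exp (-((C + 1) * ((d : ℝ) + 1) ^ 2)) ≤ Real.exp (-C) * Real.exp (-1) ^ d := by
    rw [← Real.exp_nat_mul, ← Real.exp_add]
    exact Real.exp_le_exp.2 (by linarith)
  have h3 : C * Real.exp (-C) ≤ 1 := by
    rw [Real.exp_neg, ← div_eq_mul_inv, div_le_one (Real.exp_pos C)]
    linarith [Real.add_one_le_exp C]
  have h4 : Real.exp (-1) ≤ 1 / 2 := by
    rw [Real.exp_neg, one_div]
    exact inv_anti₀ two_pos (by linarith [Real.add_one_le_exp (1 : ℝ)])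
  calc C * Real.exp (-((C + 1) * ((d : ℝ) + 1) ^ 2))
      ≤ C * (Real.exp (-C) * Real.exp (-1) ^ d) := mul_le_mul_of_nonneg_left h2 (by linarith)
    _ = C * Real.exp (-C) * Real.exp (-1) ^ d := by ring
    _ ≤ 1 * (1 / 2) ^ d :=
        mul_le_mul h3 (pow_le_pow_left₀ (Real.exp_pos _).le h4 d) (by positivity) zero_le_one
    _ = _ := one_mul _

theorem U1_sum_shift (f : ℕ → ℕ → ℝ) {i k : ℕ} (hik : i ≤ k) :
    ∑ j ∈ Ioc i k, f (j - i) j = ∑ j ∈ Icc 1 (k - i), f j (i + j) := by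
  symm
  refine sum_nbij' (fun j => i + j) (fun j => j - i) ?_ ?_ ?_ ?_ ?_
  · intro j hj
    simp only [mem_Icc, mem_Ioc] at hj ⊢
    omega
  · intro j hj
    simp only [mem_Icc, mem_Ioc] at hj ⊢
    omega
  · intro j _
    simp
  · intro j hj
    simp only [mem_Ioc] at hj
    omega
  · intro j _
    simp

theorem U1_geom (k M : ℕ) : ∑ i ∈ Icc 1 k, (1 / 2 : ℝ) ^ (k + M - i) ≤ 2 * (1 / 2) ^ M := by
  induction k generalizing M with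
  | zero => simp
  | succ k ih =>
    rw [sum_Icc_succ_top (by omega)]
    have h1 := ih (M + 1)
    have e1 : k + (M + 1) = k + 1 + M := by omega
    have e2 : k + 1 + M - (k + 1) = M := by omega
    rw [e1, pow_succ] at h1
    rw [e2]
    linarith

/-- The inequality fails: `cut_le`, `top1`, and `VB3` for `nd n i` (`pl_nd`, `lv_drop`) with
`L = k' - i`, `σ = d = m - i ≥ L + 1`, `Δ = ϱ^(6 d)`, `s = ϱ^(11 d)`, `e = ϱ^(7 d)`;
`Er_small`. -/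
theorem U1e (h : Root ρ) : ∃ d₀ : ℕ, ∀ᶠ q in Fl ρ, ∀ (k' i : ℕ) (S : Finset (List ℕ × ℕ)), 1 ≤ i →
    i ≤ k' → k' + d₀ < q.2 →
    Cut (fun n => Pre ρ q.1 q.2 k' i n ∧ lv (pl n) i ≤ vr ρ ^ (11 * (q.2 - i)) ∧
      (∀ p : ℕ, p.Prime → ((q.2 - i : ℕ) : ℝ) ≤ LL p → ¬ p ^ 2 ∣ nd n i) ∧
      (∀ j, i ≤ j → j ≤ k' → Normal (vr ρ ^ (6 * (q.2 - i))) ((pl n).getD j 1)) ∧
      lv (pl n) i < ∑ j ∈ Ioc i k', aCoef (j - i) * lv (pl n) j + be ρ q.2 i) i S →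
    ws S ≤ (1 / 2) ^ (q.2 - i) * Vol (i - 1) (bigB q.1) := by
  obtain ⟨C, hC, Htop⟩ := top1 h
  obtain ⟨C', -, HVB⟩ := VB3
  obtain ⟨d₁, Her⟩ := Er_small h C' (C + 1)
  obtain ⟨d₂, Hp⟩ := poly_le_vr h 1 1
  refine ⟨max d₁ d₂, (ev_SB h).mono fun q hSB k' i S h1 hik hk hS => ?_⟩
  obtain ⟨x, m⟩ := q
  dsimp only at hSB hk hS ⊢
  have hv0 := vr_pos h
  have hd₁ : d₁ ≤ m - i := by have := le_max_left d₁ d₂; omega
  have hd₂ : d₂ ≤ m - i := by have := le_max_right d₁ d₂; omega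
  have hkm : k' < m := by omega
  set d := m - i with hd
  have hσ : (d : ℝ) ≤ vr ρ ^ (6 * d) := by
    have h2 := Hp d hd₂
    have h3 : vr ρ ^ d ≤ vr ρ ^ (6 * d) := vr_pow_mono h (by omega)
    rw [one_mul, pow_one] at h2
    linarith
  have hL : ((k' - i : ℕ) : ℝ) + 1 ≤ (d : ℝ) := by exact_mod_cast (by omega : k' - i + 1 ≤ d)
  have key := cut_le hS (fun l => l.length = i - 1 ∧ Pr l ∧ Con a0 (be ρ m) (bigB x) l)
    (fun v => ∃ n : ℕ, n ≠ 0 ∧ Nat.totient n = v ∧ lv (pl n) 0 ≤ vr ρ ^ (11 * d) ∧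
      (∀ p : ℕ, p.Prime → (d : ℝ) ≤ LL p → ¬ p ^ 2 ∣ n) ∧
      (∀ j, j ≤ k' - i → Normal (vr ρ ^ (6 * d)) ((pl n).getD j 1)) ∧
      lv (pl n) 0 + vr ρ ^ (7 * d) ≤ ∑ j ∈ Icc 1 (k' - i), aCoef j * lv (pl n) j)
    (D₁ := C * Vol (i - 1) (bigB x))
    (D₂ := Real.exp (-vr ρ ^ (7 * d) + Er C' (vr ρ ^ (6 * d)) d (vr ρ ^ (11 * d)) (k' - i)))
    (by
      rintro n hn ⟨hP, hup, hsq, hN, hlt⟩
      refine ⟨pre_con hP hn h1 (by omega) hkm, nd n i, (nd_pos n i).ne', rfl, ?_, hsq, ?_, ?_⟩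
      · rw [pl_nd, lv_drop]
        exact hup
      · intro j hj
        have := hN (i + j) (by omega) (by omega)
        rw [pl_nd]
        simpa [List.getD_eq_getElem?_getD] using this
      · rw [U1_sum_shift (fun a b => aCoef a * lv (pl n) b) hik] at hlt
        simp only [pl_nd, lv_drop, add_zero]
        unfold be at hlt
        rw [← hd] at hlt
        linarith)
    (fun A hA => Htop _ m _ A hSB (by omega) hA)
    (fun A hA => HVB _ _ _ _ _ A (by positivity) hL (by positivity) hA)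
  have h5 := Her d (k' - i) d (vr ρ ^ (11 * d)) hd₁ (by omega) (Nat.cast_nonneg d) hσ
    (by positivity) le_rfl
  have h6 : Real.exp (-vr ρ ^ (7 * d) + Er C' (vr ρ ^ (6 * d)) d (vr ρ ^ (11 * d)) (k' - i)) ≤
      Real.exp (-((C + 1) * ((d : ℝ) + 1) ^ 2)) := Real.exp_le_exp.2 (by linarith)
  have hV := Vol_nonneg (i - 1) (bigB x)
  calc ws S ≤ _ := key
    _ ≤ C * Vol (i - 1) (bigB x) * Real.exp (-((C + 1) * ((d : ℝ) + 1) ^ 2)) :=
        mul_le_mul_of_nonneg_left h6 (by positivity)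
    _ = C * Real.exp (-((C + 1) * ((d : ℝ) + 1) ^ 2)) * Vol (i - 1) (bigB x) := by ring
    _ ≤ _ := mul_le_mul_of_nonneg_right (U1_exp_le hC d) hV

/-- First failure at the level `i`: `red1`, `cut_or`, `U1a`–`U1e`, `V1'`. -/
theorem U1 (h : Root ρ) : ∃ (C : ℝ) (d₀ : ℕ), 1 ≤ C ∧ ∀ᶠ q in Fl ρ, ∀ (k' i : ℕ) (A : Finset ℕ),
    1 ≤ i → i ≤ k' → k' + d₀ < q.2 →
    Vals q.1 (fun n => Pre ρ q.1 q.2 k' i n ∧ ¬ Lvl ρ q.2 k' n i) A →
    (A.card : ℝ) ≤ C * (q.1 / Real.log q.1) * ((1 / 2) ^ (q.2 - i) * Vol q.2 (bigB q.1)) := by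
  obtain ⟨C, hC, Hred⟩ := red1
  obtain ⟨C', hC', HV⟩ := V1' h
  obtain ⟨da, Ha⟩ := U1a h
  obtain ⟨db, Hb⟩ := U1b h
  obtain ⟨dc, Hc⟩ := U1c h
  obtain ⟨dd, Hd⟩ := U1d h
  obtain ⟨de, He⟩ := U1e h
  refine ⟨C * (4 * C' + 1), da + db + dc + dd + de,
    one_le_mul_of_one_le_of_one_le hC (by linarith), ?_⟩
  filter_upwards [Ha, Hb, Hc, Hd, He, ev_SB h,
    (tendsto_fst_Fl ρ).eventually (eventually_gt_atTop 1)] with q Ha Hb Hc Hd He hSB hx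
  intro k' i A h1 hik hk hA
  obtain ⟨S, hS, hcard⟩ := Hred ρ q.1 q.2 k' i _ A hx h1 (by omega) (by omega)
    (fun n hn => hn.1) hA
  have hws : ws S ≤ (1 / 2) ^ (q.2 - i) * Vol (i - 1) (bigB q.1) +
      ((1 / 2) ^ (q.2 - i) * Vol q.2 (bigB q.1) +
      ((1 / 2) ^ (q.2 - i) * Vol (i - 1) (bigB q.1) +
      ((1 / 2) ^ (q.2 - i) * Vol (i - 1) (bigB q.1) +
      (1 / 2) ^ (q.2 - i) * Vol (i - 1) (bigB q.1)))) := by
    refine cut_or hS (R' := fun n => Pre ρ q.1 q.2 k' i n ∧ ¬ Lvl ρ q.2 k' n i ∧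
      lv (pl n) i ≤ vr ρ ^ (11 * (q.2 - i))) ?_
      (fun S' hS' => Ha k' i S' h1 hik (by omega) hS') fun S hS => ?_
    · rintro n - ⟨hP, hL⟩
      rcases lt_or_ge (vr ρ ^ (11 * (q.2 - i))) (lv (pl n) i) with h' | h'
      · exact Or.inl ⟨hP, h'⟩
      · exact Or.inr ⟨hP, hL, h'⟩
    refine cut_or hS (R' := fun n => Pre ρ q.1 q.2 k' i n ∧ ¬ Lvl ρ q.2 k' n i ∧
      lv (pl n) i ≤ vr ρ ^ (11 * (q.2 - i)) ∧ ((q.2 - i : ℕ) : ℝ) ≤ lv (pl n) i) ?_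
      (fun S' hS' => Hb k' i S' h1 hik (by omega) hS') fun S hS => ?_
    · rintro n - ⟨hP, hL, hup⟩
      rcases lt_or_ge (lv (pl n) i) ((q.2 - i : ℕ) : ℝ) with h' | h'
      · exact Or.inl ⟨hP, h'⟩
      · exact Or.inr ⟨hP, hL, hup, h'⟩
    refine cut_or hS (R' := fun n => Pre ρ q.1 q.2 k' i n ∧ ¬ Lvl ρ q.2 k' n i ∧
      lv (pl n) i ≤ vr ρ ^ (11 * (q.2 - i)) ∧ ((q.2 - i : ℕ) : ℝ) ≤ lv (pl n) i ∧
      ∀ p : ℕ, p.Prime → ((q.2 - i : ℕ) : ℝ) ≤ LL p → ¬ p ^ 2 ∣ nd n i) ?_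
      (fun S' hS' => Hc k' i S' h1 hik (by omega) hS') fun S hS => ?_
    · rintro n - ⟨hP, hL, hup, hlo⟩
      by_cases h' : ∃ p : ℕ, p.Prime ∧ ((q.2 - i : ℕ) : ℝ) ≤ LL p ∧ p ^ 2 ∣ nd n i
      · exact Or.inl ⟨hP, hup, h'⟩
      · exact Or.inr ⟨hP, hL, hup, hlo, fun p hp h2 h3 => h' ⟨p, hp, h2, h3⟩⟩
    refine cut_or hS ?_ (fun S' hS' => Hd k' i S' h1 hik (by omega) hS')
      (fun S' hS' => He k' i S' h1 hik (by omega) hS')
    rintro n - ⟨hP, hL, hup, hlo, hsq⟩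
    by_cases h' : ∃ j, i ≤ j ∧ ¬ Normal (vr ρ ^ (6 * (q.2 - i))) ((pl n).getD j 1)
    · exact Or.inl ⟨hP, hup, h'⟩
    · have hN : ∀ j, i ≤ j → j ≤ k' → Normal (vr ρ ^ (6 * (q.2 - i))) ((pl n).getD j 1) :=
        fun j hj _ => by_contra fun hn => h' ⟨j, hj, hn⟩
      exact Or.inr ⟨hP, hup, hsq, hN, lt_of_not_ge fun hi => hL ⟨hup, hlo, hsq, hN, hi⟩⟩
  have hV := HV _ q.2 (i - 1) q.2 hSB (by omega) le_rfl
  have hxl : 0 ≤ q.1 / Real.log q.1 := div_nonneg (by linarith) (Real.log_nonneg hx.le)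
  have hp : (0 : ℝ) ≤ (1 / 2) ^ (q.2 - i) := by positivity
  have h2 : (1 / 2) ^ (q.2 - i) * Vol (i - 1) (bigB q.1) ≤
      C' * ((1 / 2) ^ (q.2 - i) * Vol q.2 (bigB q.1)) := by
    calc _ ≤ (1 / 2) ^ (q.2 - i) * (C' * Vol q.2 (bigB q.1)) := mul_le_mul_of_nonneg_left hV hp
      _ = _ := by ring
  calc (A.card : ℝ) ≤ C * (q.1 / Real.log q.1) * ws S := hcard
    _ ≤ C * (q.1 / Real.log q.1) * ((4 * C' + 1) * ((1 / 2) ^ (q.2 - i) * Vol q.2 (bigB q.1))) :=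
        mul_le_mul_of_nonneg_left (by linarith) (mul_nonneg (by linarith) hxl)
    _ = _ := by ring

/-- Some level fails: `U0` (with `Vol_ge`), the least failing level (`Nat.find`), `vals_cover`,
`U1` and `∑_{i ≤ k'} 2^(-(m-i)) ≤ 2 · 2^(-(m - k'))`. -/
theorem U1_all (h : Root ρ) {ε : ℝ} (hε : 0 < ε) : ∃ M₀ : ℕ, ∀ M' : ℕ, M₀ ≤ M' → ∀ᶠ q in Fl ρ,
    ∀ A : Finset ℕ, Vals q.1 (fun n => ¬ Pre ρ q.1 q.2 (q.2 - M') (q.2 - M' + 1) n) A →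
    (A.card : ℝ) ≤ ε * (q.1 / Real.log q.1) * Vol q.2 (bigB q.1) := by
  classical
  obtain ⟨C, d₀, hC, H1⟩ := U1 h
  obtain ⟨c, hc, Hc⟩ := Vol_ge h
  have hC0 : 0 < C := by linarith
  obtain ⟨N, hN⟩ := exists_pow_lt_of_lt_one (show 0 < ε / (4 * C) by positivity)
    (show (1 / 2 : ℝ) < 1 by norm_num)
  refine ⟨max N (d₀ + 1), fun M' hM' => ?_⟩
  have hNM : N ≤ M' := (le_max_left _ _).trans hM'
  have hdM : d₀ + 1 ≤ M' := (le_max_right _ _).trans hM'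
  filter_upwards [H1, U0 h (show 0 < ε / 2 * c by positivity), ev_SB h,
    (tendsto_fst_Fl ρ).eventually (eventually_gt_atTop 1),
    (tendsto_m h).eventually (eventually_ge_atTop (M' + 2))] with q H1 H0 hSB hx hm
  intro A hA
  obtain ⟨x, m⟩ := q
  dsimp only at H1 H0 hSB hx hm hA ⊢
  obtain ⟨k', rfl⟩ : ∃ k', m = k' + M' := ⟨m - M', by omega⟩
  rw [Nat.add_sub_cancel] at hA
  have hxl : 0 ≤ x / Real.log x := div_nonneg (by linarith) (Real.log_nonneg hx.le)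
  have hV := Hc _ _ _ hSB le_rfl
  have hV0 := Vol_nonneg (k' + M') (bigB x)
  have key := vals_or hA (R := fun n => ¬ TopC ρ x (k' + M') k' n)
    (R' := fun n => ∃ i ∈ Icc 1 k', Pre ρ x (k' + M') k' i n ∧ ¬ Lvl ρ (k' + M') k' n i)
    (D := ε / 2 * c * (x / Real.log x))
    (D' := ∑ i ∈ Icc 1 k', C * (x / Real.log x) *
      ((1 / 2) ^ (k' + M' - i) * Vol (k' + M') (bigB x)))
    (by
      intro n _ _ hn
      by_cases hT : TopC ρ x (k' + M') k' n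
      · right
        have hex : ∃ j, 1 ≤ j ∧ j < k' + 1 ∧ ¬ Lvl ρ (k' + M') k' n j := by
          by_contra hcon
          exact hn ⟨hT, fun j h1 h2 => by_contra fun h3 => hcon ⟨j, h1, h2, h3⟩⟩
        obtain ⟨h1, h2, h3⟩ := Nat.find_spec hex
        refine ⟨Nat.find hex, mem_Icc.2 ⟨h1, by omega⟩, ⟨hT, fun j hj1 hj2 => ?_⟩, h3⟩
        by_contra h4
        exact Nat.find_min hex hj2 ⟨hj1, by omega, h4⟩
      · exact Or.inl hT)
    (fun A' hA' => H0 k' A' (by omega) (by omega) hA')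
    (fun A' hA' => vals_cover hA' (Icc 1 k')
      (fun i n => Pre ρ x (k' + M') k' i n ∧ ¬ Lvl ρ (k' + M') k' n i) _
      (fun n _ _ hn => hn)
      (fun i hi A'' hA'' => H1 k' i A'' (mem_Icc.1 hi).1 (mem_Icc.1 hi).2 (by omega) hA''))
  rw [← mul_sum, ← sum_mul] at key
  have h1 : ∑ i ∈ Icc 1 k', (1 / 2 : ℝ) ^ (k' + M' - i) ≤ 2 * (ε / (4 * C)) := by
    refine (U1_geom k' M').trans ?_
    have : (1 / 2 : ℝ) ^ M' ≤ (1 / 2) ^ N := pow_le_pow_of_le_one (by norm_num) (by norm_num) hNM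
    linarith
  have h2 : C * (x / Real.log x) *
      ((∑ i ∈ Icc 1 k', (1 / 2 : ℝ) ^ (k' + M' - i)) * Vol (k' + M') (bigB x)) ≤
      C * (x / Real.log x) * (2 * (ε / (4 * C)) * Vol (k' + M') (bigB x)) :=
    mul_le_mul_of_nonneg_left (mul_le_mul_of_nonneg_right h1 hV0) (by positivity)
  have h3 : C * (x / Real.log x) * (2 * (ε / (4 * C)) * Vol (k' + M') (bigB x)) =
      ε / 2 * (x / Real.log x) * Vol (k' + M') (bigB x) := by
    field_simp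
    ring
  have h4 : ε / 2 * c * (x / Real.log x) ≤ ε / 2 * (x / Real.log x) * Vol (k' + M') (bigB x) := by
    calc ε / 2 * c * (x / Real.log x) = ε / 2 * (x / Real.log x) * c := by ring
      _ ≤ _ := mul_le_mul_of_nonneg_left hV (by positivity)
  linarith

end Crest.Agent.R020
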