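import Crest.Agent.R020.Cnt
import Crest.Agent.R020.WB2
import Crest.Agent.R020.Big

set_option autoImplicit false

namespace Crest.Agent.R020

open Finset Filter Topology Crest.Agent.R008 Crest.Agent.R026 Crest.NumberTheoryR.TotientScale

variable {ρ : ℝ}

theorem U1a_half {C C' x : ℝ} {d : ℕ} (hC' : 0 ≤ C') (h : C + C' + x ≤ -d) :
    C * (C' * Real.exp x) ≤ (1 / 2) ^ d := by
  have h1 : Real.exp (-1) ≤ 1 / 2 := by
    rw [Real.exp_neg, one_div]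
    exact inv_anti₀ two_pos (by linarith [Real.add_one_le_exp 1])
  have a1 : C ≤ Real.exp C := by linarith [Real.add_one_le_exp C]
  have a2 : C' ≤ Real.exp C' := by linarith [Real.add_one_le_exp C']
  calc C * (C' * Real.exp x) ≤ Real.exp C * (Real.exp C' * Real.exp x) := by gcongr
    _ ≤ Real.exp (-1) ^ d := by
        rw [← Real.exp_add, ← Real.exp_add, ← Real.exp_nat_mul, Real.exp_le_exp]
        linarith
    _ ≤ (1 / 2) ^ d := by gcongr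

theorem U1a_cut (h : Root ρ) : ∃ C : ℝ, 1 ≤ C ∧ ∀ (x D : ℝ) (m k' i : ℕ) (R P₂ : ℕ → Prop)
    (S : Finset (List ℕ × ℕ)), SB ρ (bigB x) m → 1 ≤ i → i ≤ k' → k' < m →
    Cut (fun n => Pre ρ x m k' i n ∧ R n) i S →
    (∀ n, 0 < n → R n → P₂ (Nat.totient (nd n i))) →
    (∀ A : Finset ℕ, (∀ v ∈ A, P₂ v) → ∑ v ∈ A, 1 / (v : ℝ) ≤ D) →
    ws S ≤ C * D * Vol (i - 1) (bigB x) := by
  obtain ⟨C, hC, ht⟩ := top1 h
  refine ⟨C, hC, fun x D m k' i R P₂ S hB h1 hi hk hS hR hD => ?_⟩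
  rw [mul_right_comm]
  exact cut_le hS (fun l => l.length = i - 1 ∧ Pr l ∧ Con a0 (be ρ m) (bigB x) l) P₂
    (fun n hn hQ => ⟨pre_con hQ.1 hn h1 (by omega) hk, hR n hn hQ.2⟩)
    (fun A hA => ht _ m _ A hB (by omega) hA) hD

/-- The entry `p = p_i` is too large.  For `u = (l, v)`: `v = φ (p n')` with `n' = nd n (i+1)`
being `LL p`-smooth (`nd_succ`, `sm_nd`), and `l` satisfies the hypothesis of `big` with
`j = i - 1` (`pre_struct`, `Con.mono`).  Choose `p = p u`, map `u ↦ ((l, p), v)` and use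
`sum_fib_le`, `WR0`, `W_le_sq` (`2 ≤ exp (2 log² (s + 2))`). -/
theorem U1a (h : Root ρ) : ∃ d₀ : ℕ, ∀ᶠ q in Fl ρ, ∀ (k' i : ℕ) (S : Finset (List ℕ × ℕ)), 1 ≤ i →
    i ≤ k' → k' + d₀ < q.2 →
    Cut (fun n => Pre ρ q.1 q.2 k' i n ∧ vr ρ ^ (11 * (q.2 - i)) < lv (pl n) i) i S →
    ws S ≤ (1 / 2) ^ (q.2 - i) * Vol (i - 1) (bigB q.1) := by
  obtain ⟨C, hC, hW⟩ := W_le_sq
  obtain ⟨d₀, m₀, hb⟩ := big h (C + 2)
  refine ⟨d₀, ?_⟩
  filter_upwards [ev_SB h, (tendsto_m h).eventually_ge_atTop m₀] with q hB hm k' i S h1 hi hk hS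
  choose! n hn using hS
  refine sum_le_of_inj S (fun u => ((u.1, (pl (n u)).getD i 1), u.2)) (fun a _ b _ hab => ?_) _
    (fun e => wt e.1.1 * (1 / (e.2 : ℝ))) (fun u _ => le_of_eq (div_eq_mul_one_div _ _))
    (fun e => (e.1.1.length = i - 1 ∧ Pr e.1.1 ∧ e.1.2.Prime ∧
      vr ρ ^ (11 * (q.2 - i)) < LL e.1.2 ∧
      Con a0 (fun i' => aCoef (i - 1 + 1 - i') * LL e.1.2 + be ρ q.2 i') (bigB q.1) e.1.1) ∧
      ∃ n' : ℕ, Sm (LL e.1.2) n' ∧ Nat.totient (e.1.2 * n') = e.2) (fun u hu => ?_) _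
    fun T hT => ?_
  · obtain ⟨e1, e2⟩ := Prod.mk.inj hab
    exact Prod.ext (Prod.mk.inj e1).1 e2
  · obtain ⟨h0, ⟨hP, hl⟩, e⟩ := hn u hu
    obtain ⟨-, a1, a2, -, -, -, a3⟩ := pre_struct hP h0 h1 (by omega) (by omega)
    have e1 : u.1 = mid (n u) i := congrArg Prod.fst e
    have e2 : u.2 = Nat.totient (nd (n u) i) := congrArg Prod.snd e
    dsimp only
    rw [e2]
    refine ⟨⟨by rw [e1, a1], by rwa [e1], prime_of_lv_pos ((pow_pos (vr_pos h) _).trans hl), hl,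
      ?_⟩, nd (n u) (i + 1), (sm_nd _ _).mono (lv_pl_anti _ (Nat.le_succ i)), by rw [← nd_succ]⟩
    rw [e1]
    refine a3.mono (fun i' hi' => ?_) le_rfl
    rw [Nat.sub_add_cancel h1, add_le_add_iff_right]
    exact single_le_sum (f := fun j => aCoef (j - i') * lv (pl (n u)) j) (fun j hj =>
      mul_nonneg (a_nonneg (by have := (mem_Icc.1 hj).1; omega)) (lv_nonneg _ _))
      (mem_Icc.2 ⟨le_rfl, hi⟩)
  · refine sum_fib_le T (fun a => wt a.1) (fun _ v => 1 / (v : ℝ))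
      (fun a => 1 / ((a.2 : ℝ) - 1) * Real.exp ((C + 2) * Real.log (LL a.2 + 2) ^ 2)) _
      (fun a => a.1.length = i - 1 ∧ Pr a.1 ∧ a.2.Prime ∧ vr ρ ^ (11 * (q.2 - i)) < LL a.2 ∧
        Con a0 (fun i' => aCoef (i - 1 + 1 - i') * LL a.2 + be ρ q.2 i') (bigB q.1) a.1)
      (fun a v => ∃ n' : ℕ, Sm (LL a.2) n' ∧ Nat.totient (a.2 * n') = v)
      (fun a _ => wt_nonneg _) (fun A hA => ?_) (fun a ha A hA => ?_) hT
    · refine le_trans (le_of_eq (sum_congr rfl fun a _ => by ring))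
        (hb (bigB q.1) q.2 (i - 1) (q.2 - i) A hB hm (by omega) (by omega) hA)
    · refine (WR0 ha.2.2.1 hA).trans ?_
      have p1 : (0 : ℝ) < (a.2 : ℝ) - 1 := by
        have : (1 : ℝ) < a.2 := by exact_mod_cast ha.2.2.1.one_lt
        linarith
      have l1 : Real.log 2 ≤ Real.log (LL a.2 + 2) :=
        Real.log_le_log two_pos (by linarith [LL_nonneg (a.2 : ℝ)])
      have l2 := Real.log_two_gt_d9
      have l3 : 2 ≤ Real.exp (2 * Real.log (LL a.2 + 2) ^ 2) := by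
        rw [← Real.log_le_iff_le_exp two_pos]
        nlinarith
      rw [add_mul, Real.exp_add, div_eq_mul_one_div 2, mul_comm 2, mul_assoc, mul_comm 2]
      exact mul_le_mul_of_nonneg_left (mul_le_mul (hW _ (LL_nonneg _)) l3 zero_le_two
        (Real.exp_pos _).le) (by positivity)

/-- The entry is too small: `cut_le` with `top1` (`pre_con`) and `W d ≤ exp (d + cM + 2)`;
`V1''` with `j = i - 1`. -/
theorem U1b (h : Root ρ) : ∃ d₀ : ℕ, ∀ᶠ q in Fl ρ, ∀ (k' i : ℕ) (S : Finset (List ℕ × ℕ)), 1 ≤ i →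
    i ≤ k' → k' + d₀ < q.2 →
    Cut (fun n => Pre ρ q.1 q.2 k' i n ∧ lv (pl n) i < ((q.2 - i : ℕ) : ℝ)) i S →
    ws S ≤ (1 / 2) ^ (q.2 - i) * Vol q.2 (bigB q.1) := by
  obtain ⟨C, hC, ht⟩ := U1a_cut h
  obtain ⟨d₀, hV⟩ := V1'' h (C + cM + 3)
  refine ⟨d₀, ?_⟩
  filter_upwards [ev_SB h] with q hB k' i S h1 hi hk hS
  have hM := one_le_cM
  have hd : (0 : ℝ) ≤ (q.2 - i : ℕ) := Nat.cast_nonneg _
  refine (ht q.1 _ q.2 k' i _ (Tot (q.2 - i : ℕ)) S hB h1 hi (by omega) hS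
    (fun n _ hn => ⟨_, (sm_nd n i).mono hn.le, rfl⟩)
    fun A hA => (sum_le_W hA).trans (W_le_exp hd)).trans ?_
  have h2 := hV (bigB q.1) q.2 (i - 1) hB (by omega)
  rw [show q.2 - (i - 1) = q.2 - i + 1 by omega, Nat.cast_succ] at h2
  refine le_trans ?_ (mul_le_mul_of_nonneg_left h2 (by positivity))
  have h3 := U1a_half (C := C) (C' := 1) (d := q.2 - i)
    (x := (q.2 - i : ℕ) + cM + 2 - (C + cM + 3) * ((q.2 - i : ℕ) + 1)) zero_le_one (by nlinarith)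
  rw [one_mul, Real.exp_sub, ← mul_div_assoc, div_le_iff₀ (Real.exp_pos _)] at h3
  rw [mul_comm (Vol _ _), ← mul_assoc]
  exact mul_le_mul_of_nonneg_right h3 (Vol_nonneg _ _)

/-- A square: `cut_le`, `top1`, `WR2` with `σ = d`, `s = ϱ^(11 d)`, `W_pow`. -/
theorem U1c (h : Root ρ) : ∃ d₀ : ℕ, ∀ᶠ q in Fl ρ, ∀ (k' i : ℕ) (S : Finset (List ℕ × ℕ)), 1 ≤ i →
    i ≤ k' → k' + d₀ < q.2 →
    Cut (fun n => Pre ρ q.1 q.2 k' i n ∧ lv (pl n) i ≤ vr ρ ^ (11 * (q.2 - i)) ∧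
      ∃ p : ℕ, p.Prime ∧ ((q.2 - i : ℕ) : ℝ) ≤ LL p ∧ p ^ 2 ∣ nd n i) i S →
    ws S ≤ (1 / 2) ^ (q.2 - i) * Vol (i - 1) (bigB q.1) := by
  obtain ⟨C, hC, ht⟩ := U1a_cut h
  obtain ⟨C', hC', hW⟩ := W_pow h
  refine ⟨⌈6 * (C + C' + 5)⌉₊, ?_⟩
  filter_upwards [ev_SB h] with q hB k' i S h1 hi hk hS
  have hd : 6 * (C + C' + 5) ≤ ((q.2 - i : ℕ) : ℝ) := Nat.ceil_le.1 (by omega)
  have hd1 : (1 : ℝ) ≤ ((q.2 - i : ℕ) : ℝ) := by linarith
  refine (ht q.1 _ q.2 k' i _ _ S hB h1 hi (by omega) hS (fun n _ hn => ?_)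
    fun A hA => (WR2 (s := vr ρ ^ (11 * (q.2 - i))) (σ := (q.2 - i : ℕ)) (by linarith) hA).trans
      (mul_le_mul_of_nonneg_left (hW _ (by omega)) (by positivity))).trans ?_
  · obtain ⟨a1, p, a2, a3, a4⟩ := hn
    exact ⟨p, _, a2, a3, (sm_nd n i).mono a1, a4, rfl⟩
  refine mul_le_mul_of_nonneg_right ?_ (Vol_nonneg _ _)
  rw [mul_assoc, ← Real.exp_add]
  refine U1a_half (by norm_num) ?_
  generalize ((q.2 - i : ℕ) : ℝ) = d at hd hd1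
  have e1 := Real.pow_div_factorial_le_exp d (by linarith) 3
  have e2 : ((Nat.factorial 3 : ℕ) : ℝ) = 6 := by norm_num [Nat.factorial]
  rw [e2] at e1
  have e3 : 1 ≤ d ^ 2 := one_le_pow₀ hd1
  have e4 : d ≤ d ^ 2 := by nlinarith
  nlinarith [mul_le_mul_of_nonneg_right hd (show 0 ≤ d ^ 2 by positivity)]

/-- A non-normal prime: `cut_le`, `top1`, `WR1`, `NP3`, `W_pow` (`normal_one`, `getD_dvd_nd`). -/
theorem U1d (h : Root ρ) : ∃ d₀ : ℕ, ∀ᶠ q in Fl ρ, ∀ (k' i : ℕ) (S : Finset (List ℕ × ℕ)), 1 ≤ i →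
    i ≤ k' → k' + d₀ < q.2 →
    Cut (fun n => Pre ρ q.1 q.2 k' i n ∧ lv (pl n) i ≤ vr ρ ^ (11 * (q.2 - i)) ∧
      ∃ j, i ≤ j ∧ ¬ Normal (vr ρ ^ (6 * (q.2 - i))) ((pl n).getD j 1)) i S →
    ws S ≤ (1 / 2) ^ (q.2 - i) * Vol (i - 1) (bigB q.1) := by
  obtain ⟨C, hC, ht⟩ := U1a_cut h
  obtain ⟨C', hC', hW⟩ := W_pow h
  obtain ⟨d₀, hN⟩ := NP3 h (C + C' + 3)
  refine ⟨d₀, ?_⟩
  filter_upwards [ev_SB h] with q hB k' i S h1 hi hk hS
  have hd1 : (1 : ℝ) ≤ ((q.2 - i : ℕ) : ℝ) := by exact_mod_cast (by omega : 1 ≤ q.2 - i)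
  refine (ht q.1 _ q.2 k' i _ _ S hB h1 hi (by omega) hS (fun n _ hn => ?_)
    fun A hA => (WR1 (s := vr ρ ^ (11 * (q.2 - i)))
      (fun p => LL p ≤ vr ρ ^ (11 * (q.2 - i)) ∧ ¬ Normal (vr ρ ^ (6 * (q.2 - i))) p)
      (fun A' hA' => hN (q.2 - i) A' (by omega) hA') hA).trans
      (mul_le_mul_of_nonneg_left (hW _ (by omega)) (by positivity))).trans ?_
  · obtain ⟨a1, j, a2, a3⟩ := hn
    obtain ⟨n', e⟩ := getD_dvd_nd n a2
    refine ⟨_, n', (getD_pl_cases n j).resolve_left fun h0 => a3 ?_,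
      ⟨(lv_pl_anti n a2).trans a1, a3⟩, ((sm_nd n i).mono a1).of_dvd (Dvd.intro_left _ e.symm),
      by rw [← e]⟩
    rw [h0]
    exact normal_one (pow_pos (vr_pos h) _).le
  refine mul_le_mul_of_nonneg_right ?_ (Vol_nonneg _ _)
  rw [mul_assoc, ← Real.exp_add]
  refine U1a_half (by norm_num) ?_
  generalize ((q.2 - i : ℕ) : ℝ) = d at hd1
  have e3 : 1 ≤ d ^ 2 := one_le_pow₀ hd1
  have e4 : d ≤ d ^ 2 := by nlinarith
  nlinarith

end Crest.Agent.R020
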