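import Crest.Agent.R020.Cnt
import Crest.Agent.R020.WB2
import Crest.Agent.R020.TopW
import Crest.Agent.R020.MSx

set_option autoImplicit false

namespace Crest.Agent.R020

open Finset Filter Topology Crest.Agent.R008 Crest.Agent.R026 Crest.NumberTheoryR.TotientScale

variable {ρ : ℝ}

/-- The data of a cut below the deep part. -/
theorem deep_struct {x : ℝ} {m k' n : ℕ} (hP : Pre ρ x m k' (k' + 1) n) (hn : 0 < n) (h1 : 1 ≤ k')
    (hk : k' < m) : (mid n (k' + 1)).length = k' ∧ Pr (mid n (k' + 1)) ∧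
      Con a0 (be ρ m) (bigB x) (mid n (k' + 1)) ∧
      Tot (vr ρ ^ (11 * (m - k'))) (Nat.totient (nd n (k' + 1))) := by
  obtain ⟨a, b, c⟩ := pre_con hP hn (by omega) le_rfl hk
  exact ⟨a, b, c, _, (sm_nd n (k' + 1)).mono ((lv_pl_anti n (Nat.le_succ k')).trans
    (hP.2 k' h1 (Nat.lt_succ_self _)).up), rfl⟩

theorem U2_cut {x : ℝ} {m k' : ℕ} (h1 : 1 ≤ k') (hk : k' < m) (E : List ℕ → Prop) (G R : ℕ → Prop)
    {D₁ D₂ : ℝ} (hR : ∀ n, 0 < n → R n → Pre ρ x m k' (k' + 1) n ∧ E (mid n (k' + 1)) ∧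
      G (Nat.totient (nd n (k' + 1))))
    (h₁ : ∀ A : Finset (List ℕ), Fam a0 (be ρ m) (bigB x) k' A → (∀ l ∈ A, E l) →
      ∑ l ∈ A, wt l ≤ D₁)
    (h₂ : ∀ A : Finset ℕ, (∀ v ∈ A, Tot (vr ρ ^ (11 * (m - k'))) v ∧ G v) →
      ∑ v ∈ A, 1 / (v : ℝ) ≤ D₂) (S : Finset (List ℕ × ℕ)) (hS : Cut R (k' + 1) S) :
    ws S ≤ D₁ * D₂ := by
  refine cut_le hS (fun l => (l.length = k' ∧ Pr l ∧ Con a0 (be ρ m) (bigB x) l) ∧ E l)
    (fun v => Tot (vr ρ ^ (11 * (m - k'))) v ∧ G v) (fun n hn hRn => ?_)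
    (fun A hA => h₁ A (fun l hl => (hA l hl).1) fun l hl => (hA l hl).2) h₂
  obtain ⟨a, b, c⟩ := hR n hn hRn
  obtain ⟨d1, d2, d3, d4⟩ := deep_struct a hn h1 hk
  exact ⟨⟨⟨d1, d2, d3⟩, b⟩, d4, c⟩

theorem U2_small {θ ε : ℝ} (h0 : 0 < θ) (h1 : θ < 1) (hε : 0 < ε) (D C : ℝ) : ∃ M₀ : ℕ,
    ∀ M : ℕ, M₀ ≤ M → D * θ ^ (M ^ 3 - 1) * Real.exp (C * (M : ℝ) ^ 2) ≤ ε := by
  have hc : 0 < -Real.log θ := neg_pos.2 (Real.log_neg h0 h1)
  set c := -Real.log θ with hcd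
  set A := |D / (ε * θ)| with hA
  have hA0 : 0 ≤ A := abs_nonneg _
  refine ⟨⌈(C + A) / c⌉₊ + 1, fun M hM => ?_⟩
  have hM1 : 1 ≤ M := by omega
  have hM1' : (1 : ℝ) ≤ M := by exact_mod_cast hM1
  have hM2 : C + A ≤ c * M := by
    rw [← div_le_iff₀' hc]
    exact (Nat.le_ceil _).trans (by exact_mod_cast (by omega))
  have e : θ ^ (M ^ 3 - 1) = Real.exp (-(c * (M : ℝ) ^ 3)) / θ := by
    rw [eq_div_iff h0.ne', ← pow_succ, Nat.sub_add_cancel (Nat.one_le_pow _ _ hM1), hcd, neg_mul,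
      neg_neg, mul_comm, ← Nat.cast_pow, Real.exp_nat_mul, Real.exp_log h0]
  have h2 : Real.exp (-(c * (M : ℝ) ^ 3)) * Real.exp (C * (M : ℝ) ^ 2) ≤ Real.exp (-A) := by
    rw [← Real.exp_add, Real.exp_le_exp]
    have h3 : (1 : ℝ) ≤ (M : ℝ) ^ 2 := one_le_pow₀ hM1'
    nlinarith [mul_le_mul_of_nonneg_right hM2 (sq_nonneg (M : ℝ))]
  have h3 : A * Real.exp (-A) ≤ 1 := by
    rw [Real.exp_neg, mul_inv_le_iff₀ (Real.exp_pos _), one_mul]
    linarith [Real.add_one_le_exp A]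
  calc D * θ ^ (M ^ 3 - 1) * Real.exp (C * (M : ℝ) ^ 2)
      = ε * (D / (ε * θ) * (Real.exp (-(c * (M : ℝ) ^ 3)) * Real.exp (C * (M : ℝ) ^ 2))) := by
        rw [e]; field_simp
    _ ≤ ε * (A * (Real.exp (-(c * (M : ℝ) ^ 3)) * Real.exp (C * (M : ℝ) ^ 2))) := by
        gcongr
        exact le_abs_self _
    _ ≤ ε * (A * Real.exp (-A)) := by gcongr
    _ ≤ ε * 1 := by gcongr
    _ = ε := mul_one _

theorem U2_fac {y : ℝ} (hy : 0 ≤ y) {J : ℕ} (hJ : 1 ≤ J) :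
    y ^ J / ((J - 1).factorial : ℝ) ≤ y * Real.exp (2 * y) * (1 / 2) ^ (J - 1) := by
  obtain ⟨n, rfl⟩ : ∃ n, J = n + 1 := ⟨J - 1, by omega⟩
  rw [Nat.add_sub_cancel]
  have h := Real.pow_div_factorial_le_exp (2 * y) (by positivity) n
  calc y ^ (n + 1) / (n.factorial : ℝ) = y * ((2 * y) ^ n / n.factorial) * (1 / 2) ^ n := by
        rw [mul_pow, one_div_pow]; field_simp; ring
    _ ≤ _ := by gcongr

theorem U2_ext {n k J : ℕ} (hJ : 1 ≤ J) (B : ℝ) (hl : (mid n (k + J + 1)).length = k + J)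
    (h : ∑ j ∈ range J, aCoef (j + 1) * lv (pl n) (k + 1 + j) ≤ lv (pl n) (k + 1)) :
    Ext (k + 1) 0 B (mid n (k + J + 1)) := by
  obtain ⟨J, rfl⟩ : ∃ J', J = J' + 1 := ⟨J - 1, by omega⟩
  have e : ∑ i ∈ Ioc (k + 1) (k + (J + 1)), aCoef (i - (k + 1) + 1) * ys B (mid n (k + (J + 1) + 1)) i
      = ∑ j ∈ range J, aCoef (j + 1 + 1) * lv (pl n) (k + 1 + (j + 1)) := by
    rw [← Finset.Ico_add_one_add_one_eq_Ioc, Finset.sum_Ico_eq_sum_range,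
      show k + (J + 1) + 1 - (k + 1 + 1) = J by omega]
    refine sum_congr rfl fun j hj => ?_
    have := mem_range.1 hj
    rw [show k + 1 + 1 + j = (k + 1 + j) + 1 by ring, ys_succ, lv_mid (by omega),
      show k + 1 + j + 1 - (k + 1) + 1 = j + 1 + 1 by omega, add_assoc (k + 1)]
  rw [Ext, hl, e, ys_succ, lv_mid (by omega)]
  rw [sum_range_succ'] at h
  simp only [zero_add, add_zero] at h ⊢
  linarith

/-- The tail is atypical.  Put `J = M'³`, `k' = m - M' = k + J`.  Four events (`cut_or`), each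
bounded by `cut_le`, `deep_struct`, and `Vol k' B ≤ C Vol m B` (`V1'`):
* `deep` fails: `top1` and `W_tail`, which determines `K₁`;
* `ord` fails: `Ext (k + 1) 0`, `ms1` gives `C θ^(J-1)`, against `W ≤ exp (C M'²)` (`W_pow`);
* `big` fails: `lowy`; `y^n / n! ≤ exp (2 y) / 2^n`;
* `top` fails: `Con.ext` with `j = 1`, `e = ϱ^(8 m)`, `ms1` gives `C θ^(k'-1) → 0` as `m → ∞`. -/
theorem U2 (h : Root ρ) {ε K : ℝ} (hε : 0 < ε) (hK : 0 ≤ K) : ∃ M₀ : ℕ, ∀ M' : ℕ, M₀ ≤ M' →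
    ∃ K₁ : ℝ, ∀ᶠ q in Fl ρ, ∀ (k : ℕ) (S : Finset (List ℕ × ℕ)), k + M' ^ 3 + M' = q.2 →
      Cut (fun n => Pre ρ q.1 q.2 (k + M' ^ 3) (k + M' ^ 3 + 1) n ∧
        ¬ Fine ρ q.1 K K₁ q.2 k (M' ^ 3) n) (k + M' ^ 3 + 1) S →
      ws S ≤ ε * Vol q.2 (bigB q.1) := by
  obtain ⟨CV, hCV, HV⟩ := V1' h
  obtain ⟨C₁, hC₁, H₁⟩ := top1 h
  obtain ⟨θ, C₂, hθ0, hθ1, hC₂, H₂⟩ := ms1 h
  obtain ⟨C₃, hC₃, H₃⟩ := lowy h
  obtain ⟨CW, hCW, HW⟩ := W_pow h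
  have hδ : 0 < ε / 4 / CV := by positivity
  set δ := ε / 4 / CV with hδd
  obtain ⟨M₁, hM₁⟩ := U2_small hθ0 hθ1 hδ C₂ CW
  obtain ⟨M₂, hM₂⟩ := U2_small (θ := 1 / 2) (by norm_num) (by norm_num) hδ
    (C₃ * (C₃ * (K + 1) * Real.exp (2 * (C₃ * (K + 1))))) CW
  refine ⟨max 1 (max M₁ M₂), fun M' hM' => ?_⟩
  have hM1 : 1 ≤ M' := (le_max_left _ _).trans hM'
  replace hM₁ := hM₁ M' ((le_max_left _ _).trans ((le_max_right _ _).trans hM'))
  replace hM₂ := hM₂ M' ((le_max_right _ _).trans ((le_max_right _ _).trans hM'))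
  have hJ : 1 ≤ M' ^ 3 := Nat.one_le_pow _ _ hM1
  replace HW := HW M' hM1
  generalize M' ^ 3 = J at *
  set E := Real.exp (CW * (M' : ℝ) ^ 2) with hE
  have hE0 : 0 < E := Real.exp_pos _
  obtain ⟨K₁, hK₁⟩ := W_tail (vr ρ ^ (11 * M')) (ε := δ / C₁) (by positivity)
  refine ⟨K₁, ?_⟩
  have ht : Tendsto (fun q : ℝ × ℕ => C₂ * θ ^ (q.2 - M' - 1) * E) (Fl ρ) (𝓝 (C₂ * 0 * E)) :=
    (((tendsto_pow_atTop_nhds_zero_of_lt_one hθ0.le hθ1).comp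
      ((tendsto_sub_atTop_nat 1).comp ((tendsto_sub_atTop_nat M').comp (tendsto_m h)))).const_mul
      C₂).mul_const E
  filter_upwards [ev_SB h, ht.eventually (ge_mem_nhds (by simpa using hδ))] with q hB hq k S hk hS
  obtain ⟨x, m⟩ := q
  simp only at hB hq hk hS ⊢
  have h1 : 1 ≤ k + J := by omega
  have h2 : k + J < m := by omega
  have e1 : m - (k + J) = M' := by omega
  have hV := Vol_nonneg (k + J) (bigB x)
  have hW : ∀ A : Finset ℕ, (∀ v ∈ A, Tot (vr ρ ^ (11 * (m - (k + J)))) v ∧ True) →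
      ∑ v ∈ A, 1 / (v : ℝ) ≤ E := fun A hA =>
    (sum_le_W fun v hv => (hA v hv).1).trans (by rw [e1]; exact HW)
  set V := Vol (k + J) (bigB x) with hVd
  let P : ℕ → Prop := fun n => Pre ρ x m (k + J) (k + J + 1) n
  have b1 : ∀ S', Cut (fun n => P n ∧ K₁ < (Nat.totient (nd n (k + J + 1)) : ℝ)) (k + J + 1) S' →
      ws S' ≤ δ * V := fun S' hS' => by
    refine (U2_cut h1 h2 (fun _ => True) (fun v => K₁ < (v : ℝ)) _
      (fun n _ hn => ⟨hn.1, trivial, hn.2⟩) (fun A hA _ => H₁ _ m _ A hB h2.le hA)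
      (fun A hA => hK₁ A (by rwa [e1] at hA)) S' hS').trans (le_of_eq ?_)
    rw [← hVd]; field_simp
  have b2 : ∀ S', Cut (fun n => P n ∧ Ext (k + 1) 0 (bigB x) (mid n (k + J + 1))) (k + J + 1) S' →
      ws S' ≤ δ * V := fun S' hS' => by
    refine (U2_cut h1 h2 (Ext (k + 1) 0 (bigB x)) (fun _ => True) _
      (fun n _ hn => ⟨hn.1, hn.2, trivial⟩)
      (fun A hA hA' => H₂ _ 0 m _ (k + 1) A hB (by omega) (by omega) h2.le
        (neg_nonpos.2 (by have := vr_pos h; positivity)) hA hA') hW S' hS').trans ?_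
    rw [← hVd, mul_right_comm, show k + J - (k + 1) = J - 1 by omega]
    gcongr
  have b3 : ∀ S', Cut (fun n => P n ∧ lv (mid n (k + J + 1)) k ≤ K * vr ρ ^ (10 * (m - k)))
      (k + J + 1) S' → ws S' ≤ δ * V := fun S' hS' => by
    refine (U2_cut h1 h2 (fun l => lv l k ≤ K * vr ρ ^ (10 * (m - k))) (fun _ => True) _
      (fun n _ hn => ⟨hn.1, hn.2, trivial⟩)
      (fun A hA hA' => H₃ _ K m k J A hB hJ h2.le hK hA hA') hW S' hS').trans ?_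
    rw [← hVd, mul_right_comm]
    refine mul_le_mul_of_nonneg_right (le_trans ?_ hM₂) hV
    rw [mul_assoc C₃ (_ * _)]
    gcongr
    exact U2_fac (by positivity) hJ
  have b4 : ∀ S', Cut (fun n => P n ∧ Ext 1 (be ρ m (1 - 1) - vr ρ ^ (8 * m)) (bigB x)
      (mid n (k + J + 1))) (k + J + 1) S' → ws S' ≤ δ * V := fun S' hS' => by
    refine (U2_cut h1 h2 (Ext 1 (be ρ m (1 - 1) - vr ρ ^ (8 * m)) (bigB x)) (fun _ => True) _
      (fun n _ hn => ⟨hn.1, hn.2, trivial⟩)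
      (fun A hA hA' => H₂ _ _ m _ 1 A hB le_rfl h1 h2.le ?_ hA hA') hW S' hS').trans ?_
    · have a1 := vr_pow_mono h (show 7 * (m - (1 - 1)) ≤ 10 * (m - 1 + 1) by omega)
      have a2 := vr_pow_mono h (show 8 * m ≤ 10 * (m - 1 + 1) by omega)
      rw [be]; linarith
    · rw [← hVd, mul_right_comm, show k + J - 1 = m - M' - 1 by omega]
      gcongr
  have b := cut_or hS (fun n hn hQ => ?_) b1 fun S' hS' =>
    cut_or hS' (fun n _ hQ => hQ) b2 fun S'' hS'' => cut_or hS'' (fun n _ hQ => hQ) b3 b4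
  · refine b.trans ?_
    calc δ * V + (δ * V + (δ * V + δ * V)) = 4 * δ * V := by ring
      _ ≤ 4 * δ * (CV * Vol m (bigB x)) := by
          gcongr
          exact HV _ m _ m hB h2.le le_rfl
      _ = _ := by rw [hδd]; field_simp
  · obtain ⟨hP, hF⟩ := hQ
    obtain ⟨d1, -, d3, -⟩ := deep_struct hP hn h1 h2
    by_contra hc
    simp only [not_or, not_and] at hc
    obtain ⟨c1, c2, c3, c4⟩ := hc
    refine hF ⟨not_lt.1 (c1 hP), le_of_not_ge fun h' => c2 hP (U2_ext hJ _ d1 h'),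
      le_of_not_ge fun h' => c3 hP (by rwa [lv_mid (by omega)]),
      le_of_not_ge fun h' => c4 hP (d3.ext le_rfl (by omega) ?_)⟩
    rw [ys_zero, ys_succ, lv_mid (by omega)]
    linarith

end Crest.Agent.R020
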