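import Crest.Agent.R020.U1
import Crest.Agent.R020.U2
import Crest.Agent.R020.Stab
import Crest.Agent.R020.Rel

set_option autoImplicit false

namespace Crest.Agent.R020

open Finset Filter Topology Crest.Agent.R008 Crest.Agent.R026 Crest.NumberTheoryR.TotientScale

variable {ρ : ℝ}

/-- The good values.  `red2` at the level `k + 1` (`Pre.mono`; the cofactor
`pm (mid n (k+1)) * val ≤ x^η` by `pre_struct`, `small_pm`, `Fine.top`, `Dec.LL_le`).  Group the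
pairs `u ∈ S` by the tail `t ∈ 𝒯` with `t.val = u.2` (`tt_ok`, `sum_le_sum_cover`); by `stab`
the lists satisfy the hypothesis of `rel_up` (for all `t ∈ 𝒯` at once: `eventually_all_finset`). -/
theorem U3 (h : Root ρ) {ε : ℝ} (hε : 0 < ε) : ∃ M₀ : ℕ, ∀ (M' J : ℕ) (K K₁ : ℝ), M₀ ≤ M' → M' ≤ J →
    ∃ 𝒯 : Finset Tail, Tails ρ J M' K 𝒯 ∧ ∀ᶠ q in Fl ρ, ∀ (k : ℕ) (A : Finset ℕ),
      k + J + M' = q.2 → Vals q.1 (fun n => Pre ρ q.1 q.2 (k + J) (k + J + 1) n ∧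
        Fine ρ q.1 K K₁ q.2 k J n) A →
      (A.card : ℝ) ≤ (1 + ε) * (q.1 / Real.log q.1) * Main 𝒯 J k (bigB q.1) := by
  classical
  set ε' : ℝ := min ε 1 / 3 with hε'def
  have hε' : 0 < ε' := by have := lt_min hε one_pos; positivity
  have hε'1 : (1 + ε') * (1 + ε') ≤ 1 + ε := by
    have h1 : min ε 1 ≤ ε := min_le_left _ _
    have h2 : min ε 1 ≤ 1 := min_le_right _ _
    nlinarith
  obtain ⟨η, hη, hred⟩ := red2 hε'
  obtain ⟨M₁, hrel⟩ := rel_up h hε'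
  refine ⟨max M₁ 1, fun M' J K K₁ hM hJ => ?_⟩
  have hM1 : 1 ≤ M' := (le_max_right _ _).trans hM
  have hM2 : M₁ ≤ M' + J := ((le_max_left _ _).trans hM).trans (Nat.le_add_right _ _)
  obtain ⟨𝒯, N, hT, hN, hrep⟩ := exists_tails ρ J M' K K₁
  refine ⟨𝒯, hT, ?_⟩
  have hall := (eventually_all_finset 𝒯).2 fun t ht =>
    hrel (M' + J) J hM2 (Nat.le_add_left _ _) t (hT.1 t ht).lam_nonneg
  filter_upwards [(tendsto_fst_Fl ρ).eventually hred, small_pm h hη N, hall,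
    (tendsto_m h).eventually (eventually_ge_atTop (M' + J + 1)),
    (tendsto_fst_Fl ρ).eventually (eventually_gt_atTop 1)] with q e1 e2 e3 e4 e5
  obtain ⟨x, m⟩ := q
  intro k A hk hA
  dsimp only at *
  subst hk
  have hk1 : 1 ≤ k := by omega
  have hkM : k + J + M' - (M' + J) = k := by omega
  rw [hkM] at e3
  have key : ∀ n, 0 < n → (Pre ρ x (k + J + M') (k + J) (k + J + 1) n ∧
      Fine ρ x K K₁ (k + J + M') k J n) → ∃ t ∈ 𝒯, t.val = Nat.totient (nd n (k + 1)) ∧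
      ∀ i, i ≤ k → t.beta J k i - 10 * J * vr ρ ^ (6 * (M' + J)) *
        ∑ j ∈ range J, aCoef (k - i + j + 1) ≤
        ∑ j ∈ Icc (k + 1) (k + J), aCoef (j - i) * lv (pl n) j := by
    intro n hn ⟨hP, hF⟩
    obtain ⟨ok, hv, hb⟩ := tt_ok hn hk1 (hM1.trans hJ) hM1 hP hF
    obtain ⟨t, ht, htv⟩ := hrep (tt n k J) ok rfl hF.deep
    refine ⟨t, ht, htv.trans hv, fun i hi => ?_⟩
    rw [← hb i hi]
    unfold Tail.beta
    rw [mul_sum, ← sum_sub_distrib]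
    refine sum_le_sum fun j _ => ?_
    have hs := stab h hJ (hT.1 t ht) ok htv j
    have ha : 0 ≤ aCoef (k - i + j + 1) := a_nonneg (by omega)
    have h1 : t.lam j = lv t.q j := by rw [(hN t ht).1]
    have h2 : (tt n k J).lam j = lv (tt n k J).q j := rfl
    rw [h1, h2]
    have := (abs_le.mp hs).2
    nlinarith
  obtain ⟨S, hS, hcard⟩ := e1 ρ (k + J + M') (k + J) (k + 1) _ A (by omega) (by omega) (by omega)
    (fun n hn hQ => by
      have hP := hQ.1.mono (show k + 1 ≤ k + J + 1 by omega)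
      refine ⟨hP, ?_⟩
      obtain ⟨-, hl, -, hd, ht1, -, -⟩ := pre_struct hP hn (by omega) (by omega) (by omega)
      obtain ⟨t, ht, htv, -⟩ := key n hn hQ
      rw [ht1]
      refine e2 _ _ (by rw [hl]; omega) (fun p hp => ?_) (htv ▸ (hN t ht).2)
      refine (hd.LL_le hp).trans ?_
      rw [lv_mid (by omega)]
      exact hQ.2.top) hA
  have hws : ws S ≤ (1 + ε') * Main 𝒯 J k (bigB x) := by
    unfold ws Main
    rw [mul_sum]
    refine sum_le_sum_cover S 𝒯 _ (fun u _ => div_nonneg (wt_nonneg _) (Nat.cast_nonneg _))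
      (fun t u => u.2 = t.val) (fun u hu => ?_) _ (fun t ht A' hA' hv => ?_)
    · obtain ⟨n, hn, hQ, rfl⟩ := hS u hu
      obtain ⟨t, ht, htv, -⟩ := key n hn hQ
      exact ⟨t, ht, htv.symm⟩
    · have hinj : Set.InjOn Prod.fst (A' : Set (List ℕ × ℕ)) := fun u hu u' hu' e =>
        Prod.ext e ((hv u hu).trans (hv u' hu').symm)
      have h1 : ∑ u ∈ A', wt u.1 / (u.2 : ℝ) = (∑ l ∈ A'.image Prod.fst, wt l) / (t.val : ℝ) := by
        rw [sum_image hinj, sum_div]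
        exact sum_congr rfl fun u hu => by rw [hv u hu]
      rw [h1, ← mul_div_assoc]
      refine div_le_div_of_nonneg_right (e3 t ht _ fun l hl => ?_) (Nat.cast_nonneg _)
      obtain ⟨u, hu, rfl⟩ := mem_image.mp hl
      obtain ⟨n, hn, hQ, hun⟩ := hS u (hA' hu)
      have hP := hQ.1.mono (show k + 1 ≤ k + J + 1 by omega)
      obtain ⟨-, hl, hp, -, -, -, hc⟩ := pre_struct hP hn (by omega) (by omega) (by omega)
      obtain ⟨t', ht', htv, hb⟩ := key n hn hQ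
      have htt : t' = t := hT.2 ht' ht (by rw [htv, ← hv u hu, hun])
      subst htt
      rw [hun]
      refine ⟨by simpa using hl, hp, hc.mono (fun i hi => ?_) le_rfl⟩
      have := hb i (by rw [hl] at hi; omega)
      linarith
  have hx : 0 ≤ x / Real.log x := div_nonneg (by linarith) (Real.log_nonneg e5.le)
  have hmain : 0 ≤ Main 𝒯 J k (bigB x) :=
    sum_nonneg fun t _ => div_nonneg (Vol_nonneg _ _) (Nat.cast_nonneg _)
  calc (A.card : ℝ) ≤ (1 + ε') * (x / Real.log x) * ws S := hcard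
    _ ≤ (1 + ε') * (x / Real.log x) * ((1 + ε') * Main 𝒯 J k (bigB x)) := by gcongr
    _ = ((1 + ε') * (1 + ε')) * (x / Real.log x * Main 𝒯 J k (bigB x)) := by ring
    _ ≤ (1 + ε) * (x / Real.log x * Main 𝒯 J k (bigB x)) := by gcongr
    _ = _ := by ring

/-- The upper bound: `count_eq`, `vals_or`, `U1_all`, `red1` with `U2`, `U3`. -/
theorem upper (h : Root ρ) {ε K : ℝ} (hε : 0 < ε) (hK : 0 ≤ K) : ∃ M₀ : ℕ, ∀ M' : ℕ, M₀ ≤ M' →
    ∃ 𝒯 : Finset Tail, Tails ρ (M' ^ 3) M' K 𝒯 ∧ ∀ᶠ q in Fl ρ,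
      (totientCount q.1 : ℝ) ≤ q.1 / Real.log q.1 *
        ((1 + ε) * Main 𝒯 (M' ^ 3) (q.2 - (M' + M' ^ 3)) (bigB q.1) + ε * Vol q.2 (bigB q.1)) := by
  obtain ⟨C, hC, hred⟩ := red1
  have hC0 : 0 < C := by linarith
  obtain ⟨M₁, h1⟩ := U1_all h (half_pos hε)
  obtain ⟨M₂, h2⟩ := U2 h (ε := ε / 2 / C) (by positivity) hK
  obtain ⟨M₃, h3⟩ := U3 h hε
  refine ⟨max (max M₁ M₂) (max M₃ 1), fun M' hM => ?_⟩
  have hM1 : M₁ ≤ M' := le_trans (by simp) hM
  have hM2 : M₂ ≤ M' := le_trans (by simp) hM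
  have hM3 : M₃ ≤ M' := le_trans (by simp) hM
  have hM4 : 1 ≤ M' := le_trans (by simp) hM
  obtain ⟨K₁, h2'⟩ := h2 M' hM2
  obtain ⟨𝒯, hT, h3'⟩ := h3 M' (M' ^ 3) K K₁ hM3 (Nat.le_self_pow (by norm_num) _)
  refine ⟨𝒯, hT, ?_⟩
  filter_upwards [h1 M' hM1, h2', h3',
    (tendsto_m h).eventually (eventually_ge_atTop (M' + M' ^ 3)),
    (tendsto_fst_Fl ρ).eventually (eventually_gt_atTop 1)] with q e1 e2 e3 e4 e5
  obtain ⟨x, m⟩ := q
  dsimp only at *
  obtain ⟨k, rfl⟩ : ∃ k, m = k + M' ^ 3 + M' := ⟨m - (M' + M' ^ 3), by omega⟩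
  have hk1 : k + M' ^ 3 + M' - (M' + M' ^ 3) = k := by omega
  have hk2 : k + M' ^ 3 + M' - M' = k + M' ^ 3 := by omega
  rw [hk1]
  rw [hk2] at e1
  have hx0 : 0 ≤ x := by linarith
  have hx : 0 ≤ x / Real.log x := div_nonneg hx0 (Real.log_nonneg e5.le)
  rw [count_eq hx0]
  have hV : Vals x (fun _ => True) (VS x) := fun v hv => by
    obtain ⟨a, n, hn, b⟩ := (mem_VS hx0).1 hv
    exact ⟨a, n, hn, b, trivial⟩
  have := vals_or hV (R' := fun n => Pre ρ x (k + M' ^ 3 + M') (k + M' ^ 3) (k + M' ^ 3 + 1) n)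
    (D' := (1 + ε) * (x / Real.log x) * Main 𝒯 (M' ^ 3) k (bigB x) +
      ε / 2 * (x / Real.log x) * Vol (k + M' ^ 3 + M') (bigB x))
    (fun n _ _ _ => (em _).symm) e1 (fun A' hA' => vals_or hA'
      (R := fun n => Pre ρ x (k + M' ^ 3 + M') (k + M' ^ 3) (k + M' ^ 3 + 1) n ∧
        Fine ρ x K K₁ (k + M' ^ 3 + M') k (M' ^ 3) n)
      (R' := fun n => Pre ρ x (k + M' ^ 3 + M') (k + M' ^ 3) (k + M' ^ 3 + 1) n ∧
        ¬ Fine ρ x K K₁ (k + M' ^ 3 + M') k (M' ^ 3) n)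
      (fun n _ _ hP => by tauto) (fun A'' hA'' => e3 k A'' rfl hA'') (fun A'' hA'' => by
        obtain ⟨S, hS, hc⟩ := hred ρ x (k + M' ^ 3 + M') (k + M' ^ 3) (k + M' ^ 3 + 1) _ A'' e5
          (by omega) le_rfl (by omega) (fun n hn => hn.1) hA''
        have := e2 k S rfl hS
        calc (A''.card : ℝ) ≤ C * (x / Real.log x) * ws S := hc
          _ ≤ C * (x / Real.log x) * (ε / 2 / C * Vol (k + M' ^ 3 + M') (bigB x)) := by gcongr
          _ = _ := by field_simp))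
  refine this.trans (le_of_eq ?_)
  ring

end Crest.Agent.R020
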