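import Crest.Agent.R020.Eul
import Crest.Agent.R020.Bas2

set_option autoImplicit false

namespace Crest.Agent.R020

open Finset Filter Topology Crest.Agent.R008 Crest.Agent.R026 Crest.NumberTheoryR.TotientScale

theorem WB_term_nonneg (s : ℝ) (v : ℕ) : 0 ≤ ind (Tot s v) / (v : ℝ) :=
  div_nonneg (ind_nonneg _) (Nat.cast_nonneg _)

open Classical in
theorem WB_sum_eq (s : ℝ) (A : Finset ℕ) :
    ∑ v ∈ A, ind (Tot s v) / (v : ℝ) = ∑ v ∈ A.filter (fun v => Tot s v), 1 / (v : ℝ) := by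
  rw [sum_filter]
  refine sum_congr rfl fun v _ => ?_
  by_cases h : Tot s v
  · rw [ind_pos h, if_pos h]
  · rw [ind_neg h, if_neg h, zero_div]

/-- Scaling by a positive natural number. -/
theorem WB_scale {c : ℕ} (hc : 0 < c) {D : ℝ} (R : ℕ → Prop)
    (h : ∀ B : Finset ℕ, (∀ w ∈ B, R w) → ∑ w ∈ B, 1 / (w : ℝ) ≤ D) {A : Finset ℕ}
    (hA : ∀ v ∈ A, ∃ w, R w ∧ v = c * w) : ∑ v ∈ A, 1 / (v : ℝ) ≤ 1 / (c : ℝ) * D := by
  have hc' : (0 : ℝ) < c := by exact_mod_cast hc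
  have hinj : Set.InjOn (fun v => v / c) (A : Set ℕ) := by
    intro v hv v' hv' he
    obtain ⟨w, -, rfl⟩ := hA v hv
    obtain ⟨w', -, rfl⟩ := hA v' hv'
    simp only [Nat.mul_div_cancel_left _ hc] at he
    rw [he]
  have h1 : ∑ v ∈ A, 1 / (v : ℝ) = 1 / (c : ℝ) * ∑ w ∈ A.image (fun v => v / c), 1 / (w : ℝ) := by
    rw [sum_image hinj, mul_sum]
    refine sum_congr rfl fun v hv => ?_
    obtain ⟨w, -, rfl⟩ := hA v hv
    rw [Nat.mul_div_cancel_left _ hc, Nat.cast_mul, one_div_mul_one_div]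
  rw [h1]
  refine mul_le_mul_of_nonneg_left (h _ fun w hw => ?_) (by positivity)
  obtain ⟨v, hv, rfl⟩ := mem_image.1 hw
  obtain ⟨w, hw, rfl⟩ := hA v hv
  rwa [Nat.mul_div_cancel_left _ hc]

/-- Union bound over labels. -/
theorem WB_union (P : ℕ → ℕ → Prop) (R : ℕ → Prop) (G : ℕ → ℝ) (E : ℝ)
    (h₁ : ∀ p, R p → ∀ B : Finset ℕ, (∀ v ∈ B, P p v) → ∑ v ∈ B, 1 / (v : ℝ) ≤ G p)
    (h₂ : ∀ S : Finset ℕ, (∀ p ∈ S, R p) → ∑ p ∈ S, G p ≤ E) {A : Finset ℕ}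
    (hA : ∀ v ∈ A, ∃ p, R p ∧ P p v) : ∑ v ∈ A, 1 / (v : ℝ) ≤ E := by
  classical
  choose! π hπ using hA
  rw [← sum_fiberwise_of_maps_to (s := A) (t := A.image π) (g := π)
    (fun v hv => mem_image_of_mem π hv)]
  have hR : ∀ p ∈ A.image π, R p := by
    intro p hp
    obtain ⟨v, hv, rfl⟩ := mem_image.1 hp
    exact (hπ v hv).1
  refine le_trans (sum_le_sum fun p hp => h₁ p (hR p hp) _ fun v hv => ?_) (h₂ _ hR)
  obtain ⟨hv, he⟩ := mem_filter.1 hv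
  exact he ▸ (hπ v hv).2

theorem WB_R0 {D : ℝ} (Q : ℕ → Prop)
    (hQ : ∀ A : Finset ℕ, (∀ v ∈ A, ∃ n, Q n ∧ Nat.totient n = v) → ∑ v ∈ A, 1 / (v : ℝ) ≤ D)
    {p : ℕ} (hp : p.Prime) {A : Finset ℕ}
    (hA : ∀ v ∈ A, ∃ n : ℕ, Q n ∧ Nat.totient (p * n) = v) :
    ∑ v ∈ A, 1 / (v : ℝ) ≤ 2 / ((p : ℝ) - 1) * D := by
  classical
  have hD : 0 ≤ D := by simpa using hQ ∅ (by simp)
  have hp2 := hp.two_le
  have hp' : (2 : ℝ) ≤ p := by exact_mod_cast hp2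
  rw [← sum_filter_add_sum_filter_not A
    (fun v => ∃ w, (∃ n, Q n ∧ Nat.totient n = w) ∧ v = (p - 1) * w)]
  have h1 := WB_scale (c := p - 1) (by omega) (fun w => ∃ n, Q n ∧ Nat.totient n = w) hQ
    (A := A.filter (fun v => ∃ w, (∃ n, Q n ∧ Nat.totient n = w) ∧ v = (p - 1) * w))
    (fun v hv => (mem_filter.1 hv).2)
  have h2 := WB_scale (c := p) hp.pos (fun w => ∃ n, Q n ∧ Nat.totient n = w) hQ
    (A := A.filter (fun v => ¬ ∃ w, (∃ n, Q n ∧ Nat.totient n = w) ∧ v = (p - 1) * w))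
    (fun v hv => by
      obtain ⟨hv, hn⟩ := mem_filter.1 hv
      obtain ⟨n, h1, h2⟩ := hA v hv
      rcases totient_prime_mul hp n with h | h
      · exact absurd ⟨_, ⟨n, h1, rfl⟩, by rw [← h2, h]⟩ hn
      · exact ⟨_, ⟨n, h1, rfl⟩, by rw [← h2, h]⟩)
  rw [Nat.cast_sub hp.one_le, Nat.cast_one] at h1
  have h3 : 1 / (p : ℝ) ≤ 1 / ((p : ℝ) - 1) :=
    one_div_le_one_div_of_le (by linarith) (by linarith)
  have h4 := mul_le_mul_of_nonneg_right h3 hD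
  have h5 : 2 / ((p : ℝ) - 1) * D = 1 / ((p : ℝ) - 1) * D + 1 / ((p : ℝ) - 1) * D := by ring
  linarith

/-- `summable_of_sum_le` with `E6` (for `s < 0` use `Tot.mono`). -/
theorem summable_W (s : ℝ) : Summable (fun v : ℕ => ind (Tot s v) / (v : ℝ)) := by
  classical
  refine summable_of_sum_le (c := Real.exp (max s 0 + cM + 2)) (fun v => WB_term_nonneg s v)
    fun A => ?_
  rw [WB_sum_eq]
  exact E6 (le_max_right s 0) _ fun v hv =>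
    ((mem_filter.1 hv).2.mono (le_max_left s 0)).sm

theorem sum_le_W {s : ℝ} {A : Finset ℕ} (hA : ∀ v ∈ A, Tot s v) : ∑ v ∈ A, 1 / (v : ℝ) ≤ W s := by
  have h1 : ∑ v ∈ A, 1 / (v : ℝ) = ∑ v ∈ A, ind (Tot s v) / (v : ℝ) :=
    sum_congr rfl fun v hv => by rw [ind_pos (hA v hv)]
  rw [h1]
  exact (summable_W s).sum_le_tsum A fun v _ => WB_term_nonneg s v

theorem W_le {s D : ℝ} (h : ∀ A : Finset ℕ, (∀ v ∈ A, Tot s v) → ∑ v ∈ A, 1 / (v : ℝ) ≤ D) :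
    W s ≤ D := by
  classical
  refine (summable_W s).tsum_le_of_sum_le fun A => ?_
  rw [WB_sum_eq]
  exact h _ fun v hv => (mem_filter.1 hv).2

theorem one_le_W (s : ℝ) : 1 ≤ W s := by
  have h := sum_le_W (s := s) (A := {1}) (fun v hv => by
    rw [mem_singleton.1 hv]; exact ⟨1, sm_one s, Nat.totient_one⟩)
  simpa using h

theorem W_nonneg (s : ℝ) : 0 ≤ W s := zero_le_one.trans (one_le_W s)

theorem W_mono {s s' : ℝ} (h : s ≤ s') : W s ≤ W s' := by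
  exact W_le fun A hA => sum_le_W fun v hv => (hA v hv).mono h

theorem W_le_exp {s : ℝ} (hs : 0 ≤ s) : W s ≤ Real.exp (s + cM + 2) := by
  exact W_le fun A hA => E6 hs A fun v hv => (hA v hv).sm

theorem W_tail (s : ℝ) {ε : ℝ} (hε : 0 < ε) : ∃ K₁ : ℝ, ∀ A : Finset ℕ,
    (∀ v ∈ A, Tot s v ∧ K₁ < v) → ∑ v ∈ A, 1 / (v : ℝ) ≤ ε := by
  obtain ⟨T, hT⟩ := summable_iff_vanishing_norm.1 (summable_W s) ε hε
  refine ⟨((T.sup id : ℕ) : ℝ), fun A hA => ?_⟩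
  have hd : Disjoint A T := by
    refine disjoint_left.2 fun v hv hvT => ?_
    have h1 : v ≤ T.sup id := le_sup (f := id) hvT
    have h2 : ((T.sup id : ℕ) : ℝ) < v := (hA v hv).2
    have h3 : T.sup id < v := by exact_mod_cast h2
    omega
  have h1 : ∑ v ∈ A, 1 / (v : ℝ) = ∑ v ∈ A, ind (Tot s v) / (v : ℝ) :=
    sum_congr rfl fun v hv => by rw [ind_pos (hA v hv).1]
  rw [h1]
  exact (le_abs_self _).trans (hT A hd).le

/-- `totient_prime_mul`: `v = (p - 1) v'` or `v = p v'` with `Tot s v'`. -/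
theorem WR0 {s : ℝ} {p : ℕ} (hp : p.Prime) {A : Finset ℕ}
    (hA : ∀ v ∈ A, ∃ n : ℕ, Sm s n ∧ Nat.totient (p * n) = v) :
    ∑ v ∈ A, 1 / (v : ℝ) ≤ 2 / ((p : ℝ) - 1) * W s := by
  exact WB_R0 (Sm s) (fun B hB => sum_le_W hB) hp hA

/-- The same for a set of numbers whose totients have controlled weight. -/
theorem WR0' {D : ℝ} (Q : ℕ → Prop)
    (hQ : ∀ A : Finset ℕ, (∀ v ∈ A, ∃ n, Q n ∧ Nat.totient n = v) → ∑ v ∈ A, 1 / (v : ℝ) ≤ D)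
    {p : ℕ} (hp : p.Prime) {A : Finset ℕ}
    (hA : ∀ v ∈ A, ∃ n : ℕ, Q n ∧ Nat.totient (p * n) = v) :
    ∑ v ∈ A, 1 / (v : ℝ) ≤ 2 / ((p : ℝ) - 1) * D := by
  exact WB_R0 Q hQ hp hA

theorem WR1 {s D : ℝ} (P : ℕ → Prop)
    (hP : ∀ A : Finset ℕ, (∀ p ∈ A, p.Prime ∧ P p) → ∑ p ∈ A, 1 / ((p : ℝ) - 1) ≤ D)
    {A : Finset ℕ} (hA : ∀ v ∈ A, ∃ p n : ℕ, p.Prime ∧ P p ∧ Sm s n ∧ Nat.totient (p * n) = v) :
    ∑ v ∈ A, 1 / (v : ℝ) ≤ 2 * D * W s := by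
  refine WB_union (fun p v => ∃ n : ℕ, Sm s n ∧ Nat.totient (p * n) = v)
    (fun p => p.Prime ∧ P p) (fun p => 2 / ((p : ℝ) - 1) * W s) _
    (fun p hp B hB => WR0 hp.1 hB) (fun S hS => ?_) (fun v hv => ?_)
  · have h1 : ∑ p ∈ S, 2 / ((p : ℝ) - 1) * W s = 2 * (∑ p ∈ S, 1 / ((p : ℝ) - 1)) * W s := by
      rw [mul_sum, sum_mul]
      exact sum_congr rfl fun p _ => by ring
    rw [h1]
    exact mul_le_mul_of_nonneg_right (mul_le_mul_of_nonneg_left (hP S hS) (by norm_num))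
      (W_nonneg s)
  · obtain ⟨p, n, h1, h2, h3, h4⟩ := hA v hv
    exact ⟨p, ⟨h1, h2⟩, n, h3, h4⟩

/-- `φ (p² n) = p φ (p n)`, `WR0`, `sum_inv_sq_tail`. -/
theorem WR2 {s σ : ℝ} (hσ : 0 < σ) {A : Finset ℕ}
    (hA : ∀ v ∈ A, ∃ p n : ℕ, p.Prime ∧ σ ≤ LL p ∧ Sm s n ∧ p ^ 2 ∣ n ∧ Nat.totient n = v) :
    ∑ v ∈ A, 1 / (v : ℝ) ≤ 4 * Real.exp (-Real.exp σ) * W s := by
  refine WB_union (fun p v => ∃ w, (∃ n : ℕ, Sm s n ∧ Nat.totient (p * n) = w) ∧ v = p * w)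
    (fun p => p.Prime ∧ σ ≤ LL p) (fun p => 1 / (p : ℝ) * (2 / ((p : ℝ) - 1) * W s)) _
    (fun p hp B hB => WB_scale hp.1.pos _ (fun C hC => WR0 hp.1 hC) hB)
    (fun S hS => ?_) (fun v hv => ?_)
  · have h1 : ∑ p ∈ S, 1 / (p : ℝ) * (2 / ((p : ℝ) - 1) * W s) =
        2 * (∑ p ∈ S, 1 / ((p : ℝ) * ((p : ℝ) - 1))) * W s := by
      rw [mul_sum, sum_mul]
      refine sum_congr rfl fun p _ => ?_
      rw [← one_div_mul_one_div]
      ring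
    rw [h1]
    have h2 := sum_inv_sq_tail hσ hS
    exact mul_le_mul_of_nonneg_right (by linarith) (W_nonneg s)
  · obtain ⟨p, n, h1, h2, h3, ⟨m, rfl⟩, h5⟩ := hA v hv
    refine ⟨p, ⟨h1, h2⟩, Nat.totient (p * m), ⟨m, h3.of_dvd (Dvd.intro_left _ rfl), rfl⟩, ?_⟩
    rw [← h5, sq, mul_assoc, Nat.totient_mul_of_prime_of_dvd h1 (Dvd.intro _ rfl)]

/-- Removing the largest prime factor: if `φ n = v` with `Sm s n` and `Sm s' (nd n 1)`. -/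
theorem WR3 {s D : ℝ} (hs : 0 ≤ s) (Q : ℕ → Prop)
    (hQ : ∀ A : Finset ℕ, (∀ v ∈ A, ∃ n, Q n ∧ Nat.totient n = v) → ∑ v ∈ A, 1 / (v : ℝ) ≤ D)
    {A : Finset ℕ} (hA : ∀ v ∈ A, ∃ p n : ℕ, (p = 1 ∨ (p.Prime ∧ LL p ≤ s)) ∧ Q n ∧
      Nat.totient (p * n) = v) : ∑ v ∈ A, 1 / (v : ℝ) ≤ (1 + 2 * (s + cM)) * D := by
  classical
  have hD : 0 ≤ D := by simpa using hQ ∅ (by simp)
  rw [← sum_filter_add_sum_filter_not A (fun v => ∃ n, Q n ∧ Nat.totient n = v)]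
  have h1 := hQ (A.filter (fun v => ∃ n, Q n ∧ Nat.totient n = v)) fun v hv => (mem_filter.1 hv).2
  have h2 : ∑ v ∈ A.filter (fun v => ¬ ∃ n, Q n ∧ Nat.totient n = v), 1 / (v : ℝ) ≤
      2 * (s + cM) * D := by
    refine WB_union (fun p v => ∃ n : ℕ, Q n ∧ Nat.totient (p * n) = v)
      (fun p => p.Prime ∧ LL p ≤ s) (fun p => 2 / ((p : ℝ) - 1) * D) _
      (fun p hp B hB => WR0' Q hQ hp.1 hB) (fun S hS => ?_) (fun v hv => ?_)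
    · have h1 : ∑ p ∈ S, 2 / ((p : ℝ) - 1) * D = 2 * (∑ p ∈ S, 1 / ((p : ℝ) - 1)) * D := by
        rw [mul_sum, sum_mul]
        exact sum_congr rfl fun p _ => by ring
      rw [h1]
      exact mul_le_mul_of_nonneg_right (mul_le_mul_of_nonneg_left (mert_up0 hs hS) (by norm_num))
        hD
    · obtain ⟨hv, hn⟩ := mem_filter.1 hv
      obtain ⟨p, n, h1, h2, h3⟩ := hA v hv
      rcases h1 with rfl | h1
      · exact absurd ⟨n, h2, by rwa [one_mul] at h3⟩ hn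
      · exact ⟨p, h1, n, h2, h3⟩
  linarith

end Crest.Agent.R020
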